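import Vale.Agent.P262.M2.Blocks
import Vale.Agent.P262.M2.Nodes
import Vale.Agent.P262.M2.Fld
import Vale.Agent.P262.H59.PsiE

/-!
# P262, milestone 2: finiteness of the totals, entrance of the root

`fin44_U` : the units of one level are finite (unconditional); `fin44_B`, `fin44_I`, `fin44_R` :
entrances (from CONS), prices (from IB), star activity (from STARF); `Bt44_zero` : the entrance of
the root is at most `A0`.
-/

set_option linter.all false

open MeasureTheory ProbabilityTheory Set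
open scoped ENNReal
open Vale.Agent.P262.H118 (Iv st en K2 El2 paths mem_paths st_le en_le)
open Vale.Agent.P262.H274 (Slow Cost)
open Vale.Agent.P262.H148 (slope Psi)

namespace Vale.Agent.P262.M2.Sys

variable {E : Type*} [NormedAddCommGroup E] [InnerProductSpace ℝ E] [FiniteDimensional ℝ E]
  [MeasurableSpace E] [BorelSpace E] {S : Sys E}

/-! ### small facts -/

lemma lint_one_44 {f : E → ℝ≥0∞} {C : ℝ≥0∞} (h : ∀ x, f x ≤ C) : ∫⁻ x, f x ∂stdGaussian E ≤ C := by
  calc ∫⁻ x, f x ∂stdGaussian E ≤ ∫⁻ _, C ∂stdGaussian E := lintegral_mono h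
    _ = C := by rw [lintegral_const, measure_univ, mul_one]

lemma iw_mul_le_44 {s : Set E} {f : E → ℝ≥0∞} {C : ℝ≥0∞} {x : E} (h : x ∈ s → f x ≤ C) :
    iw s x * f x ≤ C := by
  unfold iw
  by_cases hx : x ∈ s
  · rw [indicator_of_mem hx, Pi.one_apply, one_mul]
    exact h hx
  · rw [indicator_of_notMem hx, zero_mul]
    exact bot_le

lemma iw_le_one_44 (s : Set E) (x : E) : iw s x ≤ 1 := by
  unfold iw
  exact Sys.indicator_le_one' s x

lemma b0_le_one_44 : S.b0 ≤ 1 := by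
  have h1 := S.hMb
  have h2 := S.hM
  have h3 := S.hA0.trans_le S.hAb
  nlinarith

lemma As_le_one_44 {p : List ℕ} {m : ℕ} {x : E} (hx : x ∉ S.Z p m) : S.As S.th p m x ≤ 1 := by
  rw [← S.A_rpow S.hth.le]
  refine ENNReal.rpow_le_one ?_ S.hth.le
  refine (S.A_le_of_not_Z hx).trans ?_
  rw [← ENNReal.ofReal_one]
  exact ENNReal.ofReal_le_ofReal b0_le_one_44

lemma psi_le_one_44 (p : List ℕ) (m : ℕ) (x : E) : S.psi p m x ≤ 1 := by
  unfold psi
  split_ifs
  · exact le_rfl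
  · exact bot_le
  · exact ENNReal.rpow_le_one (Dw_le_one _ _ _ _) (by linarith [S.hth1])

/-! ### costs -/

/-- a finite bound for all costs at level `j` -/
noncomputable def cB44 (S : Sys E) (j : ℕ) : ℝ≥0∞ :=
  ∑ z ∈ ((paths S.cm j ×ˢ Finset.range (S.cm + 1)) ×ˢ
      (Finset.range (S.T + 1) ×ˢ Finset.range (S.T + 1))),
    ENNReal.ofReal (Cost (S.K.Sw z.1.1 z.2.1 (S.N z.1.2)) S.ρ z.2.1 z.2.2)

lemma cB44_ne_top (j : ℕ) : S.cB44 j ≠ ⊤ := by
  unfold cB44
  exact ENNReal.sum_ne_top.2 fun _ _ => ENNReal.ofReal_ne_top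

lemma cst_le_44 {m : ℕ} (hm : S.mv.tm m < S.T) (x : E) (j : ℕ) :
    S.cst (S.nd m x j) m x ≤ S.cB44 j := by
  have h1 : S.nd m x j ∈ paths S.cm j := by
    rw [mem_paths, length_nd]
    exact ⟨le_rfl, le_cm_of_mem_nd m x j⟩
  have h2 : S.kl (S.nd m x j) m x ≤ S.cm := kl_le_cm _ _ _
  have h3 : S.ts (S.nd m x j) m x ≤ S.T := (st_le _).trans hm.le
  have h4 : S.te (S.nd m x j) m x ≤ S.T := en_le _ _ _
  unfold cst cB44
  refine Finset.single_le_sum (f := fun z : (List ℕ × ℕ) × (ℕ × ℕ) =>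
    ENNReal.ofReal (Cost (S.K.Sw z.1.1 z.2.1 (S.N z.1.2)) S.ρ z.2.1 z.2.2))
    (fun _ _ => bot_le)
    (a := ((S.nd m x j, S.kl (S.nd m x j) m x), (S.ts (S.nd m x j) m x, S.te (S.nd m x j) m x))) ?_
  simp only [Finset.mem_product, Finset.mem_range]
  exact ⟨⟨h1, by omega⟩, by omega, by omega⟩

lemma un_le_44 {j m : ℕ} (hm : S.mv.tm m < S.T) {x : E} (hx : x ∈ S.om (S.nd m x j) m) :
    S.un (S.nd m x j) m x ≤ S.cB44 j := by
  unfold un
  calc S.cst (S.nd m x j) m x * S.As S.th (S.nd m x j) m x * S.psi (S.nd m x j) m x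
      ≤ S.cB44 j * 1 * 1 := by
        gcongr
        · exact cst_le_44 hm x j
        · exact As_le_one_44 hx.1
        · exact psi_le_one_44 _ _ _
    _ = _ := by rw [mul_one, mul_one]

/-- **the units are finite** -/
theorem fin44_U (j : ℕ) : S.Ut j ≠ ⊤ := by
  unfold Ut
  refine ENNReal.sum_ne_top.2 fun m hm => ?_
  have htm : S.mv.tm m < S.T := S.tm_lt_f (Finset.mem_range.1 hm).le
  refine ne_top_of_le_ne_top (cB44_ne_top (S := S) j) (lint_one_44 fun x => ?_)
  exact iw_mul_le_44 fun hx => un_le_44 htm hx.2.1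

/-! ### the root -/

lemma De_nil_44 (m : ℕ) (x : E) : S.De [] m x = S.De [] m 0 := by
  have h := S.De_inv [] m 0 x (by rw [S.W_nil]; simp)
  rwa [zero_add] at h

lemma sS_nw_nil_44 (m : ℕ) : S.mv.sS (S.K.nw []) m = 0 := by
  unfold Vale.Agent.P262.H118.El2.sS
  have h0 : (0 : ℕ) ∈ S.K.nw [] := by rw [S.K.nw_nil]; rfl
  have h1 := Vale.Agent.P262.H118.st_mem h0 (S.mv.tm m)
  rw [S.K.nw_nil, mem_singleton_iff] at h1
  rw [S.K.nw_nil, h1]
  exact S.mv.n_zero

/-- **the entrance of the root** -/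
theorem Bt44_zero (h0 : S.De [] 0 0 ≤ ENNReal.ofReal S.A0) : S.Bt 0 ≤ ENNReal.ofReal S.A0 := by
  have hnd : ∀ m x, S.nd m x 0 = [] := fun _ _ => rfl
  have hA0 : (0 : ℝ) < S.A0 := S.hA0
  have hent : ∀ x, S.ent [] 0 x ≤ ENNReal.ofReal S.A0 := by
    intro x
    unfold ent
    have h1 : max (S.A [] 0 x) (S.De [] 0 x) ≤ ENNReal.ofReal S.A0 := by
      rw [S.A_nil, De_nil_44]
      exact max_le le_rfl h0
    calc S.As S.th [] 0 x * min (max (S.A [] 0 x) (S.De [] 0 x) ^ (1 - S.th)) _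
        ≤ S.As S.th [] 0 x * (ENNReal.ofReal S.A0) ^ (1 - S.th) := by
          refine mul_le_mul' le_rfl ((min_le_left _ _).trans ?_)
          exact ENNReal.rpow_le_rpow h1 (by linarith [S.hth1])
      _ = ENNReal.ofReal S.A0 ^ S.th * (ENNReal.ofReal S.A0) ^ (1 - S.th) := by
          rw [← S.A_rpow S.hth.le, S.A_nil]
      _ = ENNReal.ofReal S.A0 := by
          rw [← ENNReal.rpow_add _ _ (by simpa using hA0) ENNReal.ofReal_ne_top]
          simp
  unfold Bt
  have hz : ∀ m ∈ Finset.range S.mT, m ≠ 0 →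
      ∫⁻ x, iw (S.NL 0 m ∩ S.OL 0 m ∩ {x | S.l0 (S.nd m x 0) m = m}) x *
        S.ent (S.nd m x 0) m x ∂stdGaussian E = 0 := by
    intro m _ hm0
    rw [lintegral_eq_zero_iff']
    · refine Filter.Eventually.of_forall fun x => ?_
      have : x ∉ S.NL 0 m ∩ S.OL 0 m ∩ {x | S.l0 (S.nd m x 0) m = m} := by
        rintro ⟨-, h⟩
        rw [mem_setOf_eq, hnd] at h
        unfold l0 at h
        rw [sS_nw_nil_44] at h
        exact hm0 h.symm
      unfold iw
      simp only [Pi.zero_apply]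
      rw [indicator_of_notMem this, zero_mul]
    · have : (fun x => iw (S.NL 0 m ∩ S.OL 0 m ∩ {x | S.l0 (S.nd m x 0) m = m}) x *
          S.ent (S.nd m x 0) m x) = fun _ => 0 := by
        funext x
        have : x ∉ S.NL 0 m ∩ S.OL 0 m ∩ {x | S.l0 (S.nd m x 0) m = m} := by
          rintro ⟨-, h⟩
          rw [mem_setOf_eq, hnd] at h
          unfold l0 at h
          rw [sS_nw_nil_44] at h
          exact hm0 h.symm
        unfold iw
        rw [indicator_of_notMem this, zero_mul]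
      rw [this]
      exact measurable_const.aemeasurable
  by_cases hT0 : 0 ∈ Finset.range S.mT
  · rw [Finset.sum_eq_single_of_mem 0 hT0 hz]
    refine lint_one_44 fun x => iw_mul_le_44 fun _ => ?_
    exact hent x
  · rw [Finset.sum_eq_zero fun m hm => hz m hm (by rintro rfl; exact hT0 hm)]
    exact bot_le

/-! ### the other totals -/

/-- **the entrances are finite** -/
theorem fin44_B {kp : ℝ} (hC : S.CONS kp) (h0 : S.De [] 0 0 ≤ ENNReal.ofReal S.A0) {j : ℕ}
    (hj : j < S.nl) : S.Bt j ≠ ⊤ := by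
  cases j with
  | zero => exact ne_top_of_le_ne_top ENNReal.ofReal_ne_top (Bt44_zero h0)
  | succ l =>
    exact ne_top_of_le_ne_top (ENNReal.mul_ne_top ENNReal.ofReal_ne_top (fin44_U l)) (hC l hj)

/-- **the prices are finite** -/
theorem fin44_I {G : List ℕ → ℕ → E → ℝ≥0∞} {ep b k2 : ℝ} (hI : S.IB G ep b k2) {j : ℕ}
    (hj : j < S.nl) : S.It G j ≠ ⊤ := by
  refine ne_top_of_le_ne_top ?_ (hI j hj)
  have h : ∀ (s : Finset ℕ) (c : ℕ → ℝ), ENNReal.ofReal ep *
      ∑ i ∈ s, ENNReal.ofReal (c i) * S.Ut i ≠ ⊤ := fun s c =>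
    ENNReal.mul_ne_top ENNReal.ofReal_ne_top (ENNReal.sum_ne_top.2 fun i _ =>
      ENNReal.mul_ne_top ENNReal.ofReal_ne_top (fin44_U i))
  exact ENNReal.add_ne_top.2 ⟨h _ _, h _ _⟩

lemma PsiE_le_44 (p : List ℕ) (m : ℕ) (x : E) {s : ℝ≥0∞} (hs : s ≤ 1) : S.PsiE p m x s ≤ 1 := by
  have hA := AR_pos (S := S) p m x
  have hs1 : s.toReal ≤ 1 := by
    have := ENNReal.toReal_mono ENNReal.one_ne_top hs
    simpa using this
  have hs0 : 0 ≤ s.toReal := ENNReal.toReal_nonneg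
  rw [PsiE_eq, ← ENNReal.ofReal_one]
  apply ENNReal.ofReal_le_ofReal
  have h1 := Vale.Agent.P262.H148.Psi_sub_le (th := S.th) S.hth.le hA hs0
  rw [Vale.Agent.P262.H148.Psi_zero, sub_zero, sub_zero] at h1
  have h2 : slope S.th (S.A p m x).toReal 0 ≤ 1 := by
    unfold Vale.Agent.P262.H148.slope
    refine Real.rpow_le_one (by positivity) ?_ S.hth.le
    rw [div_le_one (by positivity)]
    exact le_max_left _ _
  nlinarith

lemma intPsi_le_44 (j m : ℕ) (k : ℕ) : ∫⁻ x, iw (S.omj j m) x *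
      S.PsiE (S.nd m x j) m x (S.F (S.nd m x j) k x) ∂stdGaussian E ≤ 1 :=
  lint_one_44 fun x => mul_le_one' (iw_le_one_44 _ _) (PsiE_le_44 _ _ _ (F_le_one _ _ _))

/-- **the star activity is finite** -/
theorem fin44_R {G : List ℕ → ℕ → E → ℝ≥0∞} {C : ℝ} (hS : S.STARF G C) {j : ℕ} (hj : j < S.nl) :
    S.Rt G j ≠ ⊤ := by
  unfold Rt
  refine ENNReal.sum_ne_top.2 fun m hm => ?_
  split_ifs with h
  · refine ne_top_of_le_ne_top ?_ (le_self_add.trans (hS j hj m (Finset.mem_range.1 hm) h))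
    exact ENNReal.mul_ne_top ENNReal.ofReal_ne_top
      (ne_top_of_le_ne_top ENNReal.one_ne_top (intPsi_le_44 j m m))
  · simp

end Vale.Agent.P262.M2.Sys
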