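import Vale.Agent.P262.H44.L2Move
import Vale.Agent.P262.H941.Lbl
import Vale.Agent.P262.H852.Slice

/-!
# P262, milestone 2, block LBL: complete windows of labels of class `≥ 1`

`MPath.own` : the form on a Euclidean space.  `own_fib` : the form at a label `x` of a label space
`W`, all data being functions on `E`.
-/

set_option linter.unusedSectionVars false
set_option linter.unusedVariables false

namespace Vale.Agent.P262.H44

open MeasureTheory ProbabilityTheory Set Filter Topology Module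
open scoped RealInnerProductSpace ENNReal
open Vale.Agent.P262.H847 Vale.Agent.P262.H912 Vale.Agent.P262.H941
open Vale.Agent.P262.H274 (Slow SlowEx Cost Gam mix mix_even mix_odd mix_UI sum_Ico_double)
open Vale.Agent.P262.H174 (Soft)
open Vale.Agent.P262.H395 (fib)
open Vale.Agent.P262.H852 (sl slice measurable_sl_right measurableSet_slice convex_slice real_slice
  indicator_slice fib_eq fib_ofReal)

noncomputable section

section euclid

variable {E : Type*} [NormedAddCommGroup E] [InnerProductSpace ℝ E] [FiniteDimensional ℝ E]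
  [MeasurableSpace E] [BorelSpace E]

lemma int_ind_compl {K : Set E} (hK : MeasurableSet K) :
    ∫ x, Kᶜ.indicator (fun _ => (1:ℝ)) x ∂(stdGaussian E) = (stdGaussian E).real Kᶜ := by
  rw [integral_indicator_const _ hK.compl]
  simp

lemma int_close {f : E → ℝ} (hf : UI f) {K : Set E} (hK : MeasurableSet K) {c : ℝ}
    (h : ∫ x, |f x - Kᶜ.indicator (fun _ => (1:ℝ)) x| ∂(stdGaussian E) ≤ c) :
    |∫ x, f x ∂(stdGaussian E) - (stdGaussian E).real Kᶜ| ≤ c := by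
  have hi : Integrable (Kᶜ.indicator (fun _ => (1:ℝ))) (stdGaussian E) :=
    (integrable_const (1:ℝ)).indicator hK.compl
  rw [← int_ind_compl hK, ← integral_sub (hf.integrable _) hi]
  exact (abs_integral_le_integral_abs).trans h

namespace MPath

variable {u : ℕ → E} {n : ℕ → ℕ} {fe fh : ℕ → E → ℝ} {F al be al' be' : ℕ → ℝ} {s e : ℕ}

/-- the state of the real time `t` -/
def stt (n : ℕ → ℕ) (e t : ℕ) : ℕ := if t < e then n t else n e - 1

lemma stt_mem (H : MPath u n fe fh F al be al' be' s e) (hse : s < e) {t : ℕ} (h1 : s ≤ t)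
    (h2 : t ≤ e) : n s ≤ stt n e t ∧ stt n e t ≤ n e - 1 := by
  unfold stt
  by_cases h : t < e
  · rw [if_pos h]
    have h3 := H.n_mono.monotone h1
    have h4 := H.n_lt_end h
    exact ⟨h3, by omega⟩
  · rw [if_neg h]
    have h4 := H.n_lt_end hse
    exact ⟨by omega, le_rfl⟩

lemma mix_tau2 {α : Type*} (a b : ℕ → α) (t : ℕ) :
    mix a b (tau2 n e t) = a (stt n e t) := by
  unfold tau2 stt
  split_ifs <;> simp

/-- **LBL, class `≥ 1`, complete window**, in the fibre. -/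
theorem own (H : MPath u n fe fh F al be al' be' s e) (hse : s < e) {K : ℕ → Set E} {N ρ : ℝ}
    (hN0 : 0 < N) (hN1 : N ≤ 1) (hρ0 : 0 < ρ) (hρ1 : ρ ≤ 1 / 324)
    (hK : ∀ m, n s ≤ m → m ≤ n e - 1 → Convex ℝ (K m))
    (hKm : ∀ m, n s ≤ m → m ≤ n e - 1 → MeasurableSet (K m))
    {D c0 : ℝ} (hD0 : 0 < D) (hD1 : D ≤ 7 / 8) (hc0 : 0 ≤ c0) (hc01 : c0 ≤ 1)
    (hlow : c0 / 4 ≤ N * Real.sqrt (1 - Real.log D))
    (hup : N * Real.sqrt (1 - Real.log (D / 4)) ≤ 1 / 10 ^ 9)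
    (hD : ∀ m, n s ≤ m → m ≤ n e - 1 → (stdGaussian E).real (K m)ᶜ ≤ D)
    (hpk : ∃ m, n s ≤ m ∧ m ≤ n e - 1 ∧ 7 / 8 * D ≤ (stdGaussian E).real (K m)ᶜ)
    (hcl : ∀ m, n s ≤ m → m ≤ n e - 1 →
      ∫ x, |fe m x - (K m)ᶜ.indicator (fun _ => (1:ℝ)) x| ∂(stdGaussian E)
        ≤ 1 / (4 * 10 ^ 10) * D)
    (hS : ¬ Slow u N 1 s e) :
    c0 / (16 * 10 ^ 15) * D * Cost (Slow u N) ρ s e
      ≤ ∑ m ∈ Finset.Ico (n s) (n e - 1), chg F al be al' be' m := by
  refine le_trans ?_ (H.total hse)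
  refine lbl_own (e := mix fe fh) H.ui (K := fun t => K (stt n e t)) (v := u)
    (F := fun t => F (n t)) (α := mix al al') (β := mix be be') hN0 hN1 hρ0 hρ1 H.tau2_mono hse
    (σ := fun t => 2 * n t + 1) (fun t _ h2 => H.tau2_sig h2) H.flux2 (H.soft2 hse) (H.beta2 hse)
    (fun t h1 h2 => hK _ (H.stt_mem hse h1 h2).1 (H.stt_mem hse h1 h2).2)
    (fun t h1 h2 => hKm _ (H.stt_mem hse h1 h2).1 (H.stt_mem hse h1 h2).2)
    hD0 hD1 hc0 hc01 hlow hup
    (fun t h1 h2 => hD _ (H.stt_mem hse h1 h2).1 (H.stt_mem hse h1 h2).2) ?_ ?_ ?_ hS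
  · obtain ⟨m, h1, h2, h3⟩ := hpk
    refine ⟨2 * m, ?_, ?_, ?_⟩
    · rw [tau2_lt hse]; omega
    · rw [tau2_end]; omega
    · rw [mix_even]
      have h4 := (abs_le.1 (int_close (H.fe_UI m) (hKm m h1 h2) (hcl m h1 h2))).1
      have h5 : 1 / (4 * 10 ^ 10) * D ≤ 1 / 8 * D :=
        mul_le_mul_of_nonneg_right (by norm_num) hD0.le
      linarith
  · intro t h1 h2
    obtain ⟨h3, h4⟩ := H.stt_mem hse h1 h2
    show ∫ x, mix fe fh (tau2 n e t) x ∂(stdGaussian E) ≤ _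
    rw [mix_tau2]
    have h5 := (abs_le.1 (int_close (H.fe_UI _) (hKm _ h3 h4) (hcl _ h3 h4))).2
    have h6 : 1 / (4 * 10 ^ 10) * D ≤ 1 / 8 * D :=
      mul_le_mul_of_nonneg_right (by norm_num) hD0.le
    linarith
  · intro t h1 h2 h7
    obtain ⟨h3, h4⟩ := H.stt_mem hse h1 h2
    show ∫ x, |mix fe fh (tau2 n e t) x - _| ∂(stdGaussian E) ≤ _
    rw [mix_tau2]
    refine (hcl _ h3 h4).trans ?_
    have h8 : D / 4 ≤ (stdGaussian E).real (K (stt n e t))ᶜ := h7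
    calc 1 / (4 * 10 ^ 10) * D = 1 / 10 ^ 10 * (D / 4) := by ring
      _ ≤ _ := mul_le_mul_of_nonneg_left h8 (by norm_num)

end MPath

end euclid

/-! ### at a label -/

variable {E : Type*} [NormedAddCommGroup E] [InnerProductSpace ℝ E] [FiniteDimensional ℝ E]
  [MeasurableSpace E] [BorelSpace E]

/-- a field seen at the label `P_W x`, as a function on the fibre -/
def sf (W : Submodule ℝ E) (x : E) (f : E → ℝ) : Wᗮ → ℝ := fun z => f (sl W x z)

lemma sf_UI (W : Submodule ℝ E) (x : E) {f : E → ℝ} (hf : UI f) : UI (sf W x f) :=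
  ⟨hf.meas.comp (measurable_sl_right W x), fun z => hf.nonneg _, fun z => hf.le_one _⟩

/-- distance of a field to the indicator of the complement of a set, at a label -/
def dst (W : Submodule ℝ E) (f : E → ℝ) (K : Set E) (x : E) : ℝ≥0∞ :=
  fib W (fun y => ENNReal.ofReal |f y - Kᶜ.indicator (fun _ => (1:ℝ)) y|) x

lemma int_sf_close {W : Submodule ℝ E} {x : E} {f : E → ℝ} (hf : UI f) {K : Set E}
    (hK : MeasurableSet K) :
    ENNReal.ofReal (∫ z, |sf W x f z - (slice W x K)ᶜ.indicator (fun _ => (1:ℝ)) z|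
      ∂(stdGaussian Wᗮ)) = dst W f K x := by
  have hg : Measurable fun y => |f y - Kᶜ.indicator (fun _ => (1:ℝ)) y| :=
    (hf.meas.sub (measurable_const.indicator hK.compl)).abs
  have e : ∀ z, |sf W x f z - (slice W x K)ᶜ.indicator (fun _ => (1:ℝ)) z|
      = |f (sl W x z) - Kᶜ.indicator (fun _ => (1:ℝ)) (sl W x z)| := by
    intro z
    have := indicator_slice W x Kᶜ (1:ℝ) z
    rw [H852.slice_compl] at this
    rw [this]
    rfl
  simp_rw [e]
  have hbd : ∀ y, |f y - Kᶜ.indicator (fun _ => (1:ℝ)) y| ≤ 1 := by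
    intro y
    have h1 := hf.nonneg y
    have h2 := hf.le_one y
    by_cases hy : y ∈ Kᶜ
    · rw [indicator_of_mem hy, abs_le]; constructor <;> linarith
    · rw [indicator_of_notMem hy, abs_le]; constructor <;> linarith
  unfold dst
  rw [fib_ofReal W hg (fun y => abs_nonneg _) x]
  exact Integrable.of_bound (hg.comp (measurable_sl_right W x)).aestronglyMeasurable 1
    (Eventually.of_forall fun z => by
      rw [Real.norm_eq_abs, abs_abs]; exact hbd _)

/-- **LBL, class `≥ 1`, complete window, at a label.** -/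
theorem own_fib {W : Submodule ℝ E} {x : E} {n : ℕ → ℕ} {s e : ℕ} (hse : s < e)
    (hn : ∀ t, n t + 2 ≤ n (t + 1)) {f : ℕ → E → ℝ} (hf : ∀ m, UI (f m)) {u : ℕ → Wᗮ}
    {G : ℕ → ℝ≥0∞}
    (hstar : ∀ t, s ≤ t → t < e →
      StarAt (u t) (sf W x (f (n t))) (sf W x (f (n t + 1))) (G (n t)))
    (hsoft : ∀ m, n s ≤ m → m < n e - 1 → (∀ t, m ≠ n t) →
      SoftAt (sf W x (f m)) (sf W x (f (m + 1))) (G m))
    {K : ℕ → Set E} {N ρ : ℝ} (hN0 : 0 < N) (hN1 : N ≤ 1) (hρ0 : 0 < ρ) (hρ1 : ρ ≤ 1 / 324)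
    (hK : ∀ m, n s ≤ m → m ≤ n e - 1 → Convex ℝ (K m))
    (hKm : ∀ m, n s ≤ m → m ≤ n e - 1 → MeasurableSet (K m))
    {D c0 : ℝ} (hD0 : 0 < D) (hD1 : D ≤ 7 / 8) (hc0 : 0 ≤ c0) (hc01 : c0 ≤ 1)
    (hlow : c0 / 4 ≤ N * Real.sqrt (1 - Real.log D))
    (hup : N * Real.sqrt (1 - Real.log (D / 4)) ≤ 1 / 10 ^ 9)
    (hD : ∀ m, n s ≤ m → m ≤ n e - 1 → fib W ((K m)ᶜ.indicator 1) x ≤ ENNReal.ofReal D)
    (hpk : ∃ m, n s ≤ m ∧ m ≤ n e - 1 ∧
      ENNReal.ofReal (7 / 8 * D) ≤ fib W ((K m)ᶜ.indicator 1) x)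
    (hcl : ∀ m, n s ≤ m → m ≤ n e - 1 →
      dst W (f m) (K m) x ≤ ENNReal.ofReal (1 / (4 * 10 ^ 10) * D))
    (hS : ¬ Slow u N 1 s e) :
    ENNReal.ofReal (c0 / (16 * 10 ^ 15) * D * Cost (Slow u N) ρ s e)
      ≤ ∑ m ∈ Finset.Ico (n s) (n e - 1), G m := by
  obtain ⟨fh, F, al, be, al', be', H, hG⟩ :=
    exists_mpath (u := u) (f := fun m => sf W x (f m)) hn (fun m => sf_UI W x (hf m)) hstar hsoft
  refine le_trans (ENNReal.ofReal_le_ofReal ?_) (H.total_le hG)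
  have hfin : ∀ m, fib W ((K m)ᶜ.indicator 1) x ≠ ∞ := fun m =>
    ((H395.fib_le_one (fun y => by
      by_cases hy : y ∈ (K m)ᶜ
      · rw [indicator_of_mem hy]; exact le_rfl
      · rw [indicator_of_notMem hy]; exact zero_le_one) x).trans_lt ENNReal.one_lt_top).ne
  refine H.own hse (K := fun m => slice W x (K m)) hN0 hN1 hρ0 hρ1
    (fun m h1 h2 => convex_slice W x (hK m h1 h2))
    (fun m h1 h2 => measurableSet_slice W x (hKm m h1 h2)) hD0 hD1 hc0 hc01 hlow hup ?_ ?_ ?_ hS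
  · intro m h1 h2
    rw [← H852.slice_compl, real_slice W x (hKm m h1 h2).compl]
    exact ENNReal.toReal_le_of_le_ofReal hD0.le (hD m h1 h2)
  · obtain ⟨m, h1, h2, h3⟩ := hpk
    refine ⟨m, h1, h2, ?_⟩
    rw [← H852.slice_compl, real_slice W x (hKm m h1 h2).compl]
    exact (ENNReal.ofReal_le_iff_le_toReal (hfin m)).1 h3
  · intro m h1 h2
    have h3 := hcl m h1 h2
    rw [← int_sf_close (hf m) (hKm m h1 h2),
      ENNReal.ofReal_le_ofReal_iff (by positivity)] at h3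
    exact h3

end

end Vale.Agent.P262.H44
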