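import Mathlib
import Vale.Agent.P262.H493.StarN

/-!
# P262, block STAR-TREE, part 1: the abstract nested star theorem with weaker thresholds

`star_abstract` of `H493.StarN` with `deep ≥ 1/4` and `root ≥ 1/8` (instead of `1/2`, `1/4`).
-/

set_option linter.all false

open MeasureTheory Set Filter
open scoped ENNReal NNReal Topology

namespace Vale.Agent.P262.H44

open Vale.Agent.P262.H493

theorem log_const8 : 2 * (1 + Real.log (256 / (1 / 8 : ℝ) ^ 3)) ≤ 26 := by
  have h1 : (256 / (1 / 8 : ℝ) ^ 3) = 2 ^ 17 := by norm_num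
  rw [h1, Real.log_pow]
  have := Real.log_two_lt_d9
  push_cast
  linarith

/-- pointwise inequalities when `g1 ≥ g0/8`. -/
theorem pt_thin8 {a t c : ℝ≥0∞} {Θ : ℝ} (hΘ : 0 < Θ) (hΘ1 : Θ ≤ 1 / 2) (ha : a ≠ ⊤)
    (hta : t ≤ a) (hct : c ≤ t)
    (hmix : a ^ (1 - Θ) * c ^ Θ ≤ t) (hc : ENNReal.ofReal (1 / 8) * a ≤ c) :
    a ≤ t + ENNReal.ofReal (26 * Θ) * a ∧
    a + ENNReal.ofReal (88 * Θ) * c ≤ t + ENNReal.ofReal (88 * Θ) * t := by
  have ht : t ≠ ⊤ := ne_top_of_le_ne_top ha hta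
  have hcc : c ≠ ⊤ := ne_top_of_le_ne_top ht hct
  by_cases ha0 : a = 0
  · subst ha0
    have h1 : t = 0 := le_antisymm hta bot_le
    have h2 : c = 0 := le_antisymm (hct.trans h1.le) bot_le
    subst h1; subst h2
    simp
  lift a to ℝ≥0 using ha
  lift t to ℝ≥0 using ht
  lift c to ℝ≥0 using hcc
  have ha0' : (0 : ℝ) < a := by
    have : a ≠ 0 := by simpa using ha0
    exact_mod_cast pos_iff_ne_zero.mpr this
  have hta' : (t : ℝ) ≤ a := by exact_mod_cast hta
  have hct' : (c : ℝ) ≤ t := by exact_mod_cast hct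
  have hc' : (1 / 8 : ℝ) * a ≤ c := by
    have h1 : ENNReal.ofReal ((1 / 8 : ℝ) * a) ≤ ENNReal.ofReal c := by
      rw [ENNReal.ofReal_mul (by norm_num), ENNReal.ofReal_coe_nnreal, ENNReal.ofReal_coe_nnreal]
      exact hc
    exact (ENNReal.ofReal_le_ofReal_iff c.coe_nonneg).mp h1
  have hmix' : (a : ℝ) ^ (1 - Θ) * (c : ℝ) ^ Θ ≤ t := by
    have h1 : ENNReal.ofReal ((a : ℝ) ^ (1 - Θ) * (c : ℝ) ^ Θ) ≤ ENNReal.ofReal t := by
      rw [ENNReal.ofReal_mul (by positivity), ← ENNReal.ofReal_rpow_of_nonneg a.coe_nonneg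
        (by linarith), ← ENNReal.ofReal_rpow_of_nonneg c.coe_nonneg hΘ.le,
        ENNReal.ofReal_coe_nnreal, ENNReal.ofReal_coe_nnreal, ENNReal.ofReal_coe_nnreal]
      exact hmix
    exact (ENNReal.ofReal_le_ofReal_iff t.coe_nonneg).mp h1
  -- the ratio
  set r : ℝ := c / a with hr
  have hr1 : 1 / 8 ≤ r := by rw [hr, le_div_iff₀ ha0']; linarith
  have hr2 : r ≤ 1 := by rw [hr, div_le_one ha0']; linarith
  set v : ℝ := Real.sqrt r with hv
  have hv2 : v ^ 2 = r := Real.sq_sqrt (by linarith)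
  have hvpos : 0 ≤ v := Real.sqrt_nonneg _
  have hvh : 1 / 3 ≤ v := by nlinarith
  have hv1 : v ≤ 1 := by nlinarith
  have hca : (c : ℝ) = r * a := by rw [hr]; field_simp
  have htr : (v ^ 2) ^ Θ * a ≤ t := by
    refine le_trans (le_of_eq ?_) hmix'
    rw [hca, Real.mul_rpow (by linarith) ha0'.le, hv2]
    have : (a : ℝ) ^ (1 - Θ) * (a : ℝ) ^ Θ = a := by
      rw [← Real.rpow_add ha0']; simp
    calc r ^ Θ * a = r ^ Θ * ((a : ℝ) ^ (1 - Θ) * (a : ℝ) ^ Θ) := by rw [this]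
      _ = _ := by ring
  have haux : 1 - 2 * Θ * (1 / v - 1) ≤ (v ^ 2) ^ Θ := by
    have hv0 : 0 < v := by linarith
    have h1 : (v ^ 2) ^ Θ = Real.exp (2 * Θ * Real.log v) := by
      rw [Real.rpow_def_of_pos (by positivity), Real.log_pow]
      push_cast
      congr 1; ring
    rw [h1]
    have h2 := Real.add_one_le_exp (2 * Θ * Real.log v)
    have h3 : Real.log (1 / v) ≤ 1 / v - 1 := Real.log_le_sub_one_of_pos (by positivity)
    rw [Real.log_div one_ne_zero hv0.ne', Real.log_one] at h3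
    nlinarith
  have hinv : 1 / v - 1 ≤ 3 * (1 - v) := by
    rw [div_sub_one (by linarith), div_le_iff₀ (by linarith)]
    nlinarith
  have hX : 1 - 6 * Θ * (1 - v) ≤ (v ^ 2) ^ Θ := by nlinarith
  have hX2 : v ≤ (v ^ 2) ^ Θ := by
    have h1 : (v ^ 2) ^ (1 / 2 : ℝ) ≤ (v ^ 2) ^ Θ :=
      Real.rpow_le_rpow_of_exponent_ge (by positivity) (by nlinarith) hΘ1
    rwa [← Real.sqrt_eq_rpow, Real.sqrt_sq hvpos] at h1
  set X := (v ^ 2) ^ Θ with hXdef
  constructor
  · have h1 : (a : ℝ) ≤ t + 26 * Θ * a := by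
      have : (1 - 6 * Θ * (1 - v)) * a ≤ t := le_trans (by gcongr) htr
      nlinarith [mul_nonneg hΘ.le ha0'.le, mul_nonneg (mul_nonneg hΘ.le ha0'.le) hvpos]
    have h2 : ENNReal.ofReal a ≤ ENNReal.ofReal (t + 26 * Θ * a) := ENNReal.ofReal_le_ofReal h1
    rw [ENNReal.ofReal_add t.coe_nonneg (by positivity),
      ENNReal.ofReal_mul (p := 26 * Θ) (q := (a : ℝ)) (by positivity),
      ENNReal.ofReal_coe_nnreal, ENNReal.ofReal_coe_nnreal] at h2
    exact h2
  · have h1 : (a : ℝ) + 88 * Θ * c ≤ t + 88 * Θ * t := by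
      rw [hca]
      have h3 : 1 + 88 * Θ * r ≤ (1 + 88 * Θ) * X := by
        rw [← hv2]
        -- 1 - X ≤ 6Θ(1-v), X - v² ≥ v - v² ≥ (1-v)/3
        nlinarith [mul_nonneg hΘ.le (sub_nonneg.mpr hv1), mul_nonneg hΘ.le (sub_nonneg.mpr hX2),
          mul_nonneg (mul_nonneg hΘ.le (sub_nonneg.mpr hv1)) (by linarith : (0 : ℝ) ≤ v - 1 / 3)]
      have h4 : (1 + 88 * Θ) * (X * a) ≤ (1 + 88 * Θ) * t := by gcongr
      nlinarith
    have h2 : ENNReal.ofReal (a + 88 * Θ * c) ≤ ENNReal.ofReal (t + 88 * Θ * t) :=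
      ENNReal.ofReal_le_ofReal h1
    rw [ENNReal.ofReal_add a.coe_nonneg (by positivity),
      ENNReal.ofReal_add t.coe_nonneg (by positivity),
      ENNReal.ofReal_mul (p := 88 * Θ) (q := (c : ℝ)) (by positivity),
      ENNReal.ofReal_mul (p := 88 * Θ) (q := (t : ℝ)) (by positivity),
      ENNReal.ofReal_coe_nnreal, ENNReal.ofReal_coe_nnreal, ENNReal.ofReal_coe_nnreal] at h2
    exact h2

/-- **Theorem L**, thresholds `1/4` and `1/8`. -/
theorem thin_Low8 : ∀ (n : ℕ) {Θ : ℝ} (hΘ : 0 < Θ) (hΘ1 : Θ ≤ 1 / 2)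
    {g0 gT g1 : (Fin n → ℝ) → ℝ≥0∞} (h : Reg Θ g0 gT g1)
    (hroot : ENNReal.ofReal (1 / 8) * ∫⁻ x, g0 x ≤ ∫⁻ x, g1 x),
    ∫⁻ x in Low n (ENNReal.ofReal (1 / 4)) g0 g1, g0 x ≤
      (∫⁻ x in Low n (ENNReal.ofReal (1 / 4)) g0 g1, gT x) +
      ENNReal.ofReal (26 * Θ) * ∫⁻ x in Low n (ENNReal.ofReal (1 / 4)) g0 g1, g0 x := by
  intro n
  induction n with
  | zero =>
    intro Θ hΘ hΘ1 g0 gT g1 h hroot
    have hL : Low 0 (ENNReal.ofReal (1 / 4)) g0 g1 = univ := by
      ext x; simp [Low]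
    rw [hL, Measure.restrict_univ, lintegral_fin_zero, lintegral_fin_zero]
    rw [lintegral_fin_zero, lintegral_fin_zero] at hroot
    have hm := h.mix default default
    have e : (1 - Θ) • (default : Fin 0 → ℝ) + Θ • (default : Fin 0 → ℝ) = default :=
      Subsingleton.elim _ _
    rw [e] at hm
    have hfin : g0 default ≠ ⊤ := by
      have := h.int0
      rwa [lintegral_fin_zero] at this
    exact (pt_thin8 hΘ hΘ1 hfin (h.leT _) (h.le1 _) hm hroot).1
  | succ n ih =>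
    intro Θ hΘ hΘ1 g0 gT g1 h hroot
    set τ := ENNReal.ofReal (1 / 4) with hτ
    have hτtop : τ ≠ ⊤ := ENNReal.ofReal_ne_top
    set L := Low (n + 1) τ g0 g1 with hL
    have hLm : MeasurableSet L := measurableSet_Low h.m0 h.m1
    -- marginals
    set b : ℝ → ℝ≥0∞ := fun s => ∫⁻ x, sl g0 s x with hb
    set q : ℝ → ℝ≥0∞ := fun s => ∫⁻ x, sl gT s x with hq
    set c : ℝ → ℝ≥0∞ := fun s => ∫⁻ x, sl g1 s x with hc
    have hbm : Measurable b := measurable_lintegral_sl g0 h.m0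
    have hqm : Measurable q := measurable_lintegral_sl gT h.mT
    have hcm : Measurable c := measurable_lintegral_sl g1 h.m1
    obtain ⟨M', hM', hbM⟩ := h.bdd_marg
    have hbint : ∫⁻ s, b s ≠ ⊤ := by
      have := h.int0
      rwa [lintegral_cons _ h.m0] at this
    set R := {s | c s < ENNReal.ofReal (1 / 8) * b s} with hR
    have hRm : MeasurableSet R := measurableSet_lt hcm (hbm.const_mul _)
    have h1D := oneD hbm hqm hcm h.marg_lc hM' hbM hbint
      (fun s => lintegral_mono fun x => (h.le1 _).trans (h.leT _)) h.marg_usc hΘ (by linarith)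
      (fun x y => h.marg_mix hΘ (by linarith) x y) (τ := 1 / 8) (by norm_num) (by norm_num)
      (by
        rw [← lintegral_cons _ h.m0, ← lintegral_cons _ h.m1]
        exact hroot)
    -- slices
    set a0 : ℝ → ℝ≥0∞ := fun s => ∫⁻ x in {x : Fin n → ℝ | (Fin.cons s x : Fin (n + 1) → ℝ) ∈ L},
      sl g0 s x with ha0
    set aT : ℝ → ℝ≥0∞ := fun s => ∫⁻ x in {x : Fin n → ℝ | (Fin.cons s x : Fin (n + 1) → ℝ) ∈ L},
      sl gT s x with haT
    have ha0m : Measurable a0 := measurable_lintegral_cons_set g0 h.m0 hLm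
    have haTm : Measurable aT := measurable_lintegral_cons_set gT h.mT hLm
    rw [lintegral_cons_set g0 h.m0 hLm, lintegral_cons_set gT h.mT hLm]
    change ∫⁻ s, a0 s ≤ (∫⁻ s, aT s) + ENNReal.ofReal (26 * Θ) * ∫⁻ s, a0 s
    have hsplit : ∀ f : ℝ → ℝ≥0∞, ∫⁻ s, f s = (∫⁻ s in R, f s) + ∫⁻ s in Rᶜ, f s :=
      fun f => (lintegral_add_compl f hRm).symm
    -- outside R
    have hout : ∫⁻ s in Rᶜ, a0 s ≤
        (∫⁻ s in Rᶜ, aT s) + ENNReal.ofReal (26 * Θ) * ∫⁻ s in Rᶜ, a0 s := by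
      rw [← lintegral_const_mul' _ _ ENNReal.ofReal_ne_top, ← lintegral_add_left haTm]
      refine setLIntegral_mono' hRm.compl ?_
      intro s hs
      have hs' : ENNReal.ofReal (1 / 8) * ∫⁻ x, sl g0 s x ≤ ∫⁻ x, sl g1 s x := by
        simpa only [hR, mem_compl_iff, mem_setOf_eq, not_lt] using hs
      by_cases hlt : ∫⁻ z, sl g1 s z < τ * ∫⁻ z, sl g0 s z
      · have := ih hΘ hΘ1 (h.slice s) hs'
        simp only [ha0, haT, hL, Low_slice_lt hlt]
        exact this
      · simp only [ha0, haT, hL, Low_slice_ge hlt]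
        simp
    -- inside R
    have hin : ∫⁻ s in R, a0 s ≤
        (∫⁻ s in R, aT s) + ENNReal.ofReal (26 * Θ) * ∫⁻ s in R, a0 s := by
      have hslm : ∀ s, MeasurableSet {x : Fin n → ℝ | (Fin.cons s x : Fin (n + 1) → ℝ) ∈ L} :=
        fun s => (continuous_cons s).measurable hLm
      -- thin part of a slice is at most the whole thin part
      have h1 : ∀ s, a0 s + q s ≤ aT s + b s := by
        intro s
        set Ls := {x : Fin n → ℝ | (Fin.cons s x : Fin (n + 1) → ℝ) ∈ L} with hLs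
        have e1 : q s = (∫⁻ x in Ls, sl gT s x) + ∫⁻ x in Lsᶜ, sl gT s x :=
          (lintegral_add_compl _ (hslm s)).symm
        have e2 : b s = (∫⁻ x in Ls, sl g0 s x) + ∫⁻ x in Lsᶜ, sl g0 s x :=
          (lintegral_add_compl _ (hslm s)).symm
        rw [e1, e2]
        change (∫⁻ x in Ls, sl g0 s x) + _ ≤ (∫⁻ x in Ls, sl gT s x) + _
        have h3 : ∫⁻ x in Lsᶜ, sl gT s x ≤ ∫⁻ x in Lsᶜ, sl g0 s x :=
          lintegral_mono fun x => h.leT _
        calc (∫⁻ x in Ls, sl g0 s x) + ((∫⁻ x in Ls, sl gT s x) + ∫⁻ x in Lsᶜ, sl gT s x)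
            ≤ (∫⁻ x in Ls, sl g0 s x) + ((∫⁻ x in Ls, sl gT s x) + ∫⁻ x in Lsᶜ, sl g0 s x) := by
              gcongr
          _ = _ := by ring
      -- at least half of the slice is in L
      have h2 : ∀ s ∈ R, b s ≤ 2 * a0 s := by
        intro s hs
        have hs' : ∫⁻ z, sl g1 s z < ENNReal.ofReal (1 / 8) * ∫⁻ z, sl g0 s z := hs
        have hlt : ∫⁻ z, sl g1 s z < τ * ∫⁻ z, sl g0 s z := by
          refine lt_of_lt_of_le hs' ?_
          gcongr
          rw [hτ]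
          exact ENNReal.ofReal_le_ofReal (by norm_num)
        have hmax := maximal n hτtop (measurable_sl g0 h.m0 s) (measurable_sl g1 h.m1 s)
        rw [← Low_slice_lt hlt] at hmax
        set Ls := {x : Fin n → ℝ | (Fin.cons s x : Fin (n + 1) → ℝ) ∈ L} with hLs
        have e2 : b s = (∫⁻ x in Ls, sl g0 s x) + ∫⁻ x in Lsᶜ, sl g0 s x :=
          (lintegral_add_compl _ (hslm s)).symm
        have hq4 : ENNReal.ofReal (1 / 8) = τ * ENNReal.ofReal (1 / 2) := by
          rw [hτ, ← ENNReal.ofReal_mul (by norm_num)]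
          congr 1; norm_num
        have h3 : τ * ∫⁻ x in Lsᶜ, sl g0 s x ≤ τ * (ENNReal.ofReal (1 / 2) * b s) := by
          rw [← mul_assoc, ← hq4]
          exact hmax.trans hs'.le
        have hτ0 : τ ≠ 0 := by
          rw [hτ]; simp
        have h4 : ∫⁻ x in Lsᶜ, sl g0 s x ≤ ENNReal.ofReal (1 / 2) * b s :=
          (ENNReal.mul_le_mul_iff_right hτ0 hτtop).mp h3
        have hbs : b s ≠ ⊤ := ne_top_of_le_ne_top hM' (hbM s)
        have h5 : b s ≤ a0 s + ENNReal.ofReal (1 / 2) * b s := by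
          calc b s = (∫⁻ x in Ls, sl g0 s x) + ∫⁻ x in Lsᶜ, sl g0 s x := e2
            _ ≤ _ := by gcongr
        have h6 : b s = ENNReal.ofReal (1 / 2) * b s + ENNReal.ofReal (1 / 2) * b s := by
          rw [← add_mul, ← ENNReal.ofReal_add (by norm_num) (by norm_num)]
          norm_num
        have h7 : ENNReal.ofReal (1 / 2) * b s ≤ a0 s := by
          have : ENNReal.ofReal (1 / 2) * b s + ENNReal.ofReal (1 / 2) * b s ≤
              a0 s + ENNReal.ofReal (1 / 2) * b s := by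
            rw [← h6]; exact h5
          exact (ENNReal.add_le_add_iff_right
            (ENNReal.mul_ne_top ENNReal.ofReal_ne_top hbs)).mp this
        calc b s = 2 * (ENNReal.ofReal (1 / 2) * b s) := by
              rw [← mul_assoc]
              have : (2 : ℝ≥0∞) * ENNReal.ofReal (1 / 2) = 1 := by
                rw [show (2 : ℝ≥0∞) = ENNReal.ofReal 2 by norm_num, ← ENNReal.ofReal_mul (by norm_num)]
                norm_num
              rw [this, one_mul]
          _ ≤ 2 * a0 s := by gcongr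
      have hqR : ∫⁻ s in R, q s ≠ ⊤ := by
        refine ne_top_of_le_ne_top hbint ?_
        refine (setLIntegral_le_lintegral _ _).trans ?_
        exact lintegral_mono fun s => lintegral_mono fun x => h.leT _
      have h3 : (∫⁻ s in R, a0 s) + ∫⁻ s in R, q s ≤ (∫⁻ s in R, aT s) + ∫⁻ s in R, b s := by
        rw [← lintegral_add_left ha0m, ← lintegral_add_left haTm]
        exact lintegral_mono fun s => h1 s
      have h4 : ∫⁻ s in R, b s ≤ 2 * ∫⁻ s in R, a0 s := by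
        rw [← lintegral_const_mul' _ _ (by norm_num)]
        exact setLIntegral_mono' hRm h2
      have h5 : (∫⁻ s in R, a0 s) + ∫⁻ s in R, q s ≤
          ((∫⁻ s in R, aT s) + ENNReal.ofReal (26 * Θ) * ∫⁻ s in R, a0 s) + ∫⁻ s in R, q s := by
        calc (∫⁻ s in R, a0 s) + ∫⁻ s in R, q s
            ≤ (∫⁻ s in R, aT s) + ∫⁻ s in R, b s := h3
          _ ≤ (∫⁻ s in R, aT s) + ((∫⁻ s in R, q s) +
                ENNReal.ofReal (Θ * (1 + Real.log (256 / (1 / 8 : ℝ) ^ 3))) *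
                ∫⁻ s in R, b s) := by gcongr
          _ ≤ (∫⁻ s in R, aT s) + ((∫⁻ s in R, q s) +
                ENNReal.ofReal (Θ * (1 + Real.log (256 / (1 / 8 : ℝ) ^ 3))) *
                (2 * ∫⁻ s in R, a0 s)) := by gcongr
          _ = (∫⁻ s in R, aT s) + ((∫⁻ s in R, q s) +
                ENNReal.ofReal (Θ * (2 * (1 + Real.log (256 / (1 / 8 : ℝ) ^ 3)))) *
                (∫⁻ s in R, a0 s)) := by
              congr 2
              rw [← mul_assoc]
              congr 1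
              rw [show (2 : ℝ≥0∞) = ENNReal.ofReal 2 by norm_num, ← ENNReal.ofReal_mul' (by norm_num)]
              congr 1; ring
          _ ≤ (∫⁻ s in R, aT s) + ((∫⁻ s in R, q s) +
                ENNReal.ofReal (26 * Θ) * (∫⁻ s in R, a0 s)) := by
              have hG : ENNReal.ofReal (Θ * (2 * (1 + Real.log (256 / (1 / 8 : ℝ) ^ 3)))) ≤
                  ENNReal.ofReal (26 * Θ) := by
                apply ENNReal.ofReal_le_ofReal
                have := log_const8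
                nlinarith
              gcongr
          _ = _ := by ring
      exact (ENNReal.add_le_add_iff_right hqR).mp h5
    rw [hsplit a0, hsplit aT, mul_add]
    calc (∫⁻ s in R, a0 s) + ∫⁻ s in Rᶜ, a0 s
        ≤ ((∫⁻ s in R, aT s) + ENNReal.ofReal (26 * Θ) * ∫⁻ s in R, a0 s) +
          ((∫⁻ s in Rᶜ, aT s) + ENNReal.ofReal (26 * Θ) * ∫⁻ s in Rᶜ, a0 s) := add_le_add hin hout
      _ = _ := by ring

/-- the deep labels see at least a quarter of long chords -/
def DeepOK8 {n : ℕ} (D : Fin n → Set (Fin n → ℝ)) (g0 g1 : (Fin n → ℝ) → ℝ≥0∞) : Prop :=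
  ∀ i, ∀ x ∈ D i, ENNReal.ofReal (1 / 4) * mg n g0 i x ≤ mg n g1 i x

theorem DeepOK8.slice {n : ℕ} {D : Fin (n + 1) → Set (Fin (n + 1) → ℝ)}
    {g0 g1 : (Fin (n + 1) → ℝ) → ℝ≥0∞} (h : DeepOK8 D g0 g1) (s : ℝ) :
    DeepOK8 (slD D s) (sl g0 s) (sl g1 s) := by
  intro i x hx
  have := h i.succ (Fin.cons s x) hx
  simpa using this

theorem Low_subset_NN8 {n : ℕ} {D : Fin n → Set (Fin n → ℝ)} {g0 g1 : (Fin n → ℝ) → ℝ≥0∞}
    (h : DeepOK8 D g0 g1) : Low n (ENNReal.ofReal (1 / 4)) g0 g1 ⊆ NN D := by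
  intro x hx i hi
  exact absurd (h i x hi) (not_le.mpr (hx i))

/-- The inequality on the nowhere-long set. -/
theorem ineq_Low8 {n : ℕ} {Θ : ℝ} (hΘ : 0 < Θ) (hΘ1 : Θ ≤ 1 / 88)
    {g0 gT g1 : (Fin (n + 1) → ℝ) → ℝ≥0∞} (h : Reg Θ g0 gT g1)
    (hroot : ENNReal.ofReal (1 / 8) * ∫⁻ x, g0 x ≤ ∫⁻ x, g1 x) :
    Ineq Θ g0 gT g1 (Low (n + 1) (ENNReal.ofReal (1 / 4)) g0 g1) := by
  set L := Low (n + 1) (ENNReal.ofReal (1 / 4)) g0 g1 with hL
  have hLm : MeasurableSet L := measurableSet_Low h.m0 h.m1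
  have h1 := thin_Low8 (n + 1) hΘ (by linarith) h hroot
  have h2 : ∫⁻ x in L, g1 x ≤ ENNReal.ofReal (1 / 4) * ∫⁻ x in L, g0 x := by
    rw [← lintegral_const_mul' _ _ ENNReal.ofReal_ne_top]
    exact setLIntegral_mono' hLm (Low_int_long (τ := ENNReal.ofReal (1 / 4)))
  have hTa : ∫⁻ x in L, gT x ≤ ∫⁻ x in L, g0 x := lintegral_mono fun x => h.leT x
  have h1T : ∫⁻ x in L, g1 x ≤ ∫⁻ x in L, gT x := lintegral_mono fun x => h.le1 x
  have ha : ∫⁻ x in L, g0 x ≠ ⊤ :=
    ne_top_of_le_ne_top h.int0 (setLIntegral_le_lintegral _ _)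
  simp only [Ineq]
  generalize ∫⁻ x in L, g0 x = a at *
  generalize ∫⁻ x in L, gT x = t at *
  generalize ∫⁻ x in L, g1 x = c at *
  have ht : t ≠ ⊤ := ne_top_of_le_ne_top ha hTa
  have hc : c ≠ ⊤ := ne_top_of_le_ne_top ht h1T
  lift a to ℝ≥0 using ha
  lift t to ℝ≥0 using ht
  lift c to ℝ≥0 using hc
  have e1 : (a : ℝ) ≤ t + 26 * Θ * a := by
    have : ENNReal.ofReal a ≤ ENNReal.ofReal (t + 26 * Θ * a) := by
      rw [ENNReal.ofReal_add t.coe_nonneg (by positivity),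
        ENNReal.ofReal_mul (p := 26 * Θ) (q := (a : ℝ)) (by positivity),
        ENNReal.ofReal_coe_nnreal, ENNReal.ofReal_coe_nnreal]
      exact h1
    exact (ENNReal.ofReal_le_ofReal_iff (by positivity)).mp this
  have e2 : (c : ℝ) ≤ 1 / 4 * a := by
    have : ENNReal.ofReal c ≤ ENNReal.ofReal (1 / 4 * a) := by
      rw [ENNReal.ofReal_mul (p := 1 / 4) (q := (a : ℝ)) (by positivity),
        ENNReal.ofReal_coe_nnreal, ENNReal.ofReal_coe_nnreal]
      exact h2
    exact (ENNReal.ofReal_le_ofReal_iff (by positivity)).mp this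
  have ha0 : (0 : ℝ) ≤ a := a.coe_nonneg
  have e3 : (a : ℝ) + 88 * Θ * c ≤ t + 88 * Θ * t := by
    have h3 : 88 * Θ * c ≤ 88 * Θ * (1 / 4 * a) := by gcongr
    have h4 : 88 * Θ * (a - 26 * Θ * a) ≤ 88 * Θ * t := by
      gcongr
      linarith
    have h5 : Θ * (Θ * a) ≤ (1 / 88) * (Θ * a) := by
      have : 0 ≤ Θ * a := by positivity
      nlinarith
    nlinarith
  have e4 := ENNReal.ofReal_le_ofReal e3
  rw [ENNReal.ofReal_add a.coe_nonneg (by positivity),
      ENNReal.ofReal_add t.coe_nonneg (by positivity),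
      ENNReal.ofReal_mul (p := 88 * Θ) (q := (c : ℝ)) (by positivity),
      ENNReal.ofReal_mul (p := 88 * Θ) (q := (t : ℝ)) (by positivity),
      ENNReal.ofReal_coe_nnreal, ENNReal.ofReal_coe_nnreal, ENNReal.ofReal_coe_nnreal] at e4
  exact e4

theorem star_aux8 {Θ : ℝ} (hΘ : 0 < Θ) (hΘ1 : Θ ≤ 1 / 88) : ∀ (n : ℕ),
    (∀ {g0 gT g1 : (Fin n → ℝ) → ℝ≥0∞} (h : Reg Θ g0 gT g1) {D : Fin n → Set (Fin n → ℝ)}
      (hD : ∀ i, MeasurableSet (D i)) (hcyl : Cyl D) (hdeep : DeepOK8 D g0 g1)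
      (hroot : ENNReal.ofReal (1 / 8) * ∫⁻ x, g0 x ≤ ∫⁻ x, g1 x), Ineq Θ g0 gT g1 (NN D)) ∧
    (∀ {g0 gT g1 : (Fin n → ℝ) → ℝ≥0∞} (h : Reg Θ g0 gT g1) {D : Fin n → Set (Fin n → ℝ)}
      (hD : ∀ i, MeasurableSet (D i)) (hcyl : Cyl D) (hdeep : DeepOK8 D g0 g1),
      Ineq Θ g0 gT g1 (NN D \ Low n (ENNReal.ofReal (1 / 4)) g0 g1)) := by
  intro n
  induction n with
  | zero =>
    constructor
    · intro g0 gT g1 h D hD hcyl hdeep hroot
      have hN : NN D = univ := by ext x; simp [NN]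
      rw [hN]
      simp only [Ineq, Measure.restrict_univ, lintegral_fin_zero]
      rw [lintegral_fin_zero, lintegral_fin_zero] at hroot
      have hm := h.mix default default
      have e : (1 - Θ) • (default : Fin 0 → ℝ) + Θ • (default : Fin 0 → ℝ) = default :=
        Subsingleton.elim _ _
      rw [e] at hm
      have hfin : g0 default ≠ ⊤ := by
        have := h.int0
        rwa [lintegral_fin_zero] at this
      exact (pt_thin8 hΘ (by linarith) hfin (h.leT _) (h.le1 _) hm hroot).2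
    · intro g0 gT g1 h D hD hcyl hdeep
      have hL : NN D \ Low 0 (ENNReal.ofReal (1 / 4)) g0 g1 = ∅ := by
        ext x; simp [Low]
      rw [hL]
      exact Ineq.empty
  | succ n ih =>
    obtain ⟨ihP, ihQ⟩ := ih
    have hQ : ∀ {g0 gT g1 : (Fin (n + 1) → ℝ) → ℝ≥0∞} (h : Reg Θ g0 gT g1)
      {D : Fin (n + 1) → Set (Fin (n + 1) → ℝ)}
      (hD : ∀ i, MeasurableSet (D i)) (hcyl : Cyl D) (hdeep : DeepOK8 D g0 g1),
      Ineq Θ g0 gT g1 (NN D \ Low (n + 1) (ENNReal.ofReal (1 / 4)) g0 g1) := by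
      intro g0 gT g1 h D hD hcyl hdeep
      have hm : MeasurableSet (NN D \ Low (n + 1) (ENNReal.ofReal (1 / 4)) g0 g1) :=
        (measurableSet_NN hD).diff (measurableSet_Low h.m0 h.m1)
      refine Ineq.cons h.m0 h.mT h.m1 hm ?_
      intro s
      have hDs : ∀ i, MeasurableSet (slD D s i) := fun i =>
        (continuous_cons s).measurable (hD i.succ)
      by_cases hlt : ∫⁻ z, sl g1 s z < ENNReal.ofReal (1 / 4) * ∫⁻ z, sl g0 s z
      · have hset : {x : Fin n → ℝ | (Fin.cons s x : Fin (n + 1) → ℝ) ∈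
            NN D \ Low (n + 1) (ENNReal.ofReal (1 / 4)) g0 g1} =
            NN (slD D s) \ Low n (ENNReal.ofReal (1 / 4)) (sl g0 s) (sl g1 s) := by
          rw [← Low_slice_lt hlt]
          ext x
          simp only [mem_diff, mem_setOf_eq, NN, Fin.forall_fin_succ, slD]
          constructor
          · rintro ⟨⟨h1, h2⟩, h3⟩
            exact ⟨h2, h3⟩
          · rintro ⟨h2, h3⟩
            refine ⟨⟨fun h1 => ?_, h2⟩, h3⟩
            have := hdeep 0 _ h1
            rw [mg_zero, mg_zero] at this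
            exact absurd this (not_le.mpr hlt)
        rw [hset]
        exact ihQ (h.slice s) hDs (hcyl.slice s) (hdeep.slice s)
      · have hset0 : {x : Fin n → ℝ | (Fin.cons s x : Fin (n + 1) → ℝ) ∈
            NN D \ Low (n + 1) (ENNReal.ofReal (1 / 4)) g0 g1} =
            {x : Fin n → ℝ | (Fin.cons s x : Fin (n + 1) → ℝ) ∈ NN D} := by
          have hemp := Low_slice_ge (τ := ENNReal.ofReal (1 / 4)) (g0 := g0) (g1 := g1) hlt
          ext x
          have hx : (Fin.cons s x : Fin (n + 1) → ℝ) ∉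
              Low (n + 1) (ENNReal.ofReal (1 / 4)) g0 g1 := by
            intro hx
            have : x ∈ {x : Fin n → ℝ | (Fin.cons s x : Fin (n + 1) → ℝ) ∈
              Low (n + 1) (ENNReal.ofReal (1 / 4)) g0 g1} := hx
            rw [hemp] at this
            exact this
          simp only [mem_diff, mem_setOf_eq]
          exact ⟨fun h => h.1, fun h => ⟨h, hx⟩⟩
        rw [hset0]
        by_cases h0 : (Fin.cons s (0 : Fin n → ℝ) : Fin (n + 1) → ℝ) ∈ D 0
        · have hset : {x : Fin n → ℝ | (Fin.cons s x : Fin (n + 1) → ℝ) ∈ NN D} = ∅ := by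
            ext x
            simp only [mem_setOf_eq, NN, mem_empty_iff_false, iff_false, not_forall, not_not]
            refine ⟨0, hcyl 0 _ _ ?_ h0⟩
            intro j hj
            have : j = 0 := le_antisymm hj (Fin.zero_le _)
            subst this
            simp
          rw [hset]
          exact Ineq.empty
        · have hset : {x : Fin n → ℝ | (Fin.cons s x : Fin (n + 1) → ℝ) ∈ NN D} =
              NN (slD D s) := by
            ext x
            simp only [mem_setOf_eq, NN, Fin.forall_fin_succ, slD]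
            constructor
            · exact fun h => h.2
            · intro h2
              refine ⟨fun h1 => h0 (hcyl 0 _ _ ?_ h1), h2⟩
              intro j hj
              have : j = 0 := le_antisymm hj (Fin.zero_le _)
              subst this
              simp
          rw [hset]
          refine ihP (h.slice s) hDs (hcyl.slice s) (hdeep.slice s) ?_
          refine le_trans ?_ (not_lt.mp hlt)
          gcongr
          norm_num
    refine ⟨?_, hQ⟩
    intro g0 gT g1 h D hD hcyl hdeep hroot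
    have hLm : MeasurableSet (Low (n + 1) (ENNReal.ofReal (1 / 4)) g0 g1) :=
      measurableSet_Low h.m0 h.m1
    have hL := ineq_Low8 hΘ hΘ1 h hroot
    have hB := hQ h hD hcyl hdeep
    have hsplit : ∀ g : (Fin (n + 1) → ℝ) → ℝ≥0∞, ∫⁻ x in NN D, g x =
        (∫⁻ x in Low (n + 1) (ENNReal.ofReal (1 / 4)) g0 g1, g x) +
        ∫⁻ x in NN D \ Low (n + 1) (ENNReal.ofReal (1 / 4)) g0 g1, g x := by
      intro g
      rw [← lintegral_inter_add_diff g (NN D) hLm, inter_eq_right.mpr (Low_subset_NN8 hdeep)]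
    simp only [Ineq] at hL hB ⊢
    rw [hsplit g0, hsplit gT, hsplit g1]
    have := add_le_add hL hB
    refine le_trans (le_of_eq ?_) (this.trans (le_of_eq ?_))
    · ring
    · ring

/-- **Nested star theorem, abstract form, thresholds `1/4` (deep) and `1/8` (root)**. -/
theorem star_abstract8 {n : ℕ} {Θ : ℝ} (hΘ : 0 < Θ) (hΘ1 : Θ ≤ 1 / 88)
    {g0 gT g1 : (Fin n → ℝ) → ℝ≥0∞} (h : Reg Θ g0 gT g1) {D : Fin n → Set (Fin n → ℝ)}
    (hD : ∀ i, MeasurableSet (D i)) (hcyl : Cyl D) (hdeep : DeepOK8 D g0 g1)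
    (hroot : ENNReal.ofReal (1 / 8) * ∫⁻ x, g0 x ≤ ∫⁻ x, g1 x) :
    (∫⁻ x in NN D, g0 x) + ENNReal.ofReal (88 * Θ) * ∫⁻ x in NN D, g1 x ≤
      (∫⁻ x in NN D, gT x) + ENNReal.ofReal (88 * Θ) * ∫⁻ x in NN D, gT x :=
  (star_aux8 hΘ hΘ1 n).1 h hD hcyl hdeep hroot

end Vale.Agent.P262.H44
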