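import Mathlib
import Vale.Agent.P262.H44.Star8
import Vale.Agent.P262.H493.Flag
import Vale.Agent.P262.H395.Fib

/-!
# P262, block STAR-TREE, part 2: regular triples relative to the Gaussian measure, one block

`RegG Θ h0 hT h1` : bounded measurable functions on an inner product space `E`, `h1 ≤ hT ≤ h0`,
`h0` log-concave, mixed Prékopa–Leindler condition, `h1` upper semicontinuous.

* `RegG.leaf`  : root fat ⇒ the inequality on the whole fibre;
* `RegG.block` : root fat ⇒ the inequality on `R = {fib W h1 < (1/4) fib W h0}`.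
-/

set_option linter.all false

open MeasureTheory Set Filter ProbabilityTheory
open scoped ENNReal NNReal Topology RealInnerProductSpace

namespace Vale.Agent.P262.H44

open Vale.Agent.P262.H493 hiding fib
open Vale.Agent.P262.H395

variable {E : Type*} [NormedAddCommGroup E] [InnerProductSpace ℝ E] [FiniteDimensional ℝ E]
  [MeasurableSpace E] [BorelSpace E]

/-- regular triples on `E`, relative to the Gaussian measure -/
structure RegG (Θ : ℝ) (h0 hT h1 : E → ℝ≥0∞) : Prop where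
  m0 : Measurable h0
  mT : Measurable hT
  m1 : Measurable h1
  le1 : ∀ x, h1 x ≤ hT x
  leT : ∀ x, hT x ≤ h0 x
  lc : LogConc h0
  mix : ∀ x y, h0 x ^ (1 - Θ) * h1 y ^ Θ ≤ hT ((1 - Θ) • x + Θ • y)
  usc : UpperSemicontinuous h1
  bdd : ∃ M : ℝ≥0∞, M ≠ ⊤ ∧ ∀ x, h0 x ≤ M

lemma mix_lin (W : Submodule ℝ E) (x : E) (s t : ℝ) (hst : s + t = 1) (z z' : E) :
    s • mix W x z + t • mix W x z' = mix W x (s • z + t • z') := by
  unfold Vale.Agent.P262.H395.mix
  have h1 : W.starProjection x = s • W.starProjection x + t • W.starProjection x := by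
    rw [← add_smul, hst, one_smul]
  conv_rhs => rw [h1]
  simp only [map_add, map_smul, smul_add, smul_sub]
  abel

lemma usc_comp {X Y : Type*} [TopologicalSpace X] [TopologicalSpace Y] {f : Y → ℝ≥0∞}
    (hf : UpperSemicontinuous f) {φ : X → Y} (hφ : Continuous φ) :
    UpperSemicontinuous fun x => f (φ x) :=
  fun x r hr => (hφ.tendsto x).eventually (hf (φ x) r hr)

/-- restriction to a fibre -/
theorem RegG.comp_mix {Θ : ℝ} {h0 hT h1 : E → ℝ≥0∞} (h : RegG Θ h0 hT h1) (W : Submodule ℝ E)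
    (x : E) : RegG Θ (fun z => h0 (Vale.Agent.P262.H395.mix W x z))
      (fun z => hT (Vale.Agent.P262.H395.mix W x z))
      (fun z => h1 (Vale.Agent.P262.H395.mix W x z)) where
  m0 := h.m0.comp (measurable_mix_right W x)
  mT := h.mT.comp (measurable_mix_right W x)
  m1 := h.m1.comp (measurable_mix_right W x)
  le1 := fun z => h.le1 _
  leT := fun z => h.leT _
  lc := by
    intro z z' s t hs ht hst
    have := h.lc (Vale.Agent.P262.H395.mix W x z) (Vale.Agent.P262.H395.mix W x z') s t hs ht hst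
    rwa [mix_lin W x s t hst] at this
  mix := by
    intro z z'
    have := h.mix (Vale.Agent.P262.H395.mix W x z) (Vale.Agent.P262.H395.mix W x z')
    rwa [mix_lin W x (1 - Θ) Θ (by ring)] at this
  usc := by
    have hc : Continuous fun z => Vale.Agent.P262.H395.mix W x z := by
      unfold Vale.Agent.P262.H395.mix
      fun_prop
    exact usc_comp h.usc hc
  bdd := by
    obtain ⟨M, hM, hb⟩ := h.bdd
    exact ⟨M, hM, fun z => hb _⟩

/-- multiplication by the indicator of a closed convex set -/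
theorem RegG.indicator {Θ : ℝ} (hΘ : 0 < Θ) (hΘ1 : Θ < 1) {h0 hT h1 : E → ℝ≥0∞}
    (h : RegG Θ h0 hT h1) {C : Set E} (hC : IsClosed C) (hCc : Convex ℝ C) :
    RegG Θ (C.indicator h0) (C.indicator hT) (C.indicator h1) where
  m0 := h.m0.indicator hC.measurableSet
  mT := h.mT.indicator hC.measurableSet
  m1 := h.m1.indicator hC.measurableSet
  le1 := fun x => indicator_le_indicator (h.le1 x)
  leT := fun x => indicator_le_indicator (h.leT x)
  lc := by
    intro x y s t hs ht hst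
    by_cases hx : x ∈ C
    · by_cases hy : y ∈ C
      · rw [indicator_of_mem hx, indicator_of_mem hy,
          indicator_of_mem (hCc hx hy hs.le ht.le hst)]
        exact h.lc x y s t hs ht hst
      · rw [indicator_of_notMem hy, ENNReal.zero_rpow_of_pos ht, mul_zero]
        exact bot_le
    · rw [indicator_of_notMem hx, ENNReal.zero_rpow_of_pos hs, zero_mul]
      exact bot_le
  mix := by
    intro x y
    have h1Θ : 0 < 1 - Θ := by linarith
    by_cases hx : x ∈ C
    · by_cases hy : y ∈ C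
      · rw [indicator_of_mem hx, indicator_of_mem hy,
          indicator_of_mem (hCc hx hy h1Θ.le hΘ.le (by ring))]
        exact h.mix x y
      · rw [indicator_of_notMem hy, ENNReal.zero_rpow_of_pos hΘ, mul_zero]
        exact bot_le
    · rw [indicator_of_notMem hx, ENNReal.zero_rpow_of_pos h1Θ, zero_mul]
      exact bot_le
  usc := by
    intro x r hr
    by_cases hx : x ∈ C
    · rw [indicator_of_mem hx] at hr
      filter_upwards [h.usc x r hr] with y hy
      exact lt_of_le_of_lt (indicator_le_self' (fun _ _ => bot_le) y) hy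
    · rw [indicator_of_notMem hx] at hr
      filter_upwards [hC.isOpen_compl.mem_nhds hx] with y hy
      rw [indicator_of_notMem hy]
      exact hr
  bdd := by
    obtain ⟨M, hM, hb⟩ := h.bdd
    exact ⟨M, hM, fun z => (indicator_le_self' (fun _ _ => bot_le) z).trans (hb z)⟩

lemma fib_comp_mix {W0 W : Submodule ℝ E} (hW : W0 ≤ W) (f : E → ℝ≥0∞) (x z : E) :
    fib W (fun y => f (mix W0 x y)) z = fib W f (mix W0 x z) := by
  unfold fib
  simp_rw [mix_mix hW]

/-! ### coordinates -/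

/-- coordinates -/
noncomputable def SC {N : ℕ} (c : OrthonormalBasis (Fin N) ℝ E) (y : Fin N → ℝ) : E :=
  ∑ j, y j • c j

lemma continuous_SC {N : ℕ} (c : OrthonormalBasis (Fin N) ℝ E) : Continuous (SC c) := by
  unfold SC
  fun_prop

lemma SC_mp {N : ℕ} (c : OrthonormalBasis (Fin N) ℝ E) :
    MeasurePreserving (SC c) (gB N) (stdGaussian E) := by
  refine ⟨(continuous_SC c).measurable, ?_⟩
  rw [stdGaussian_eq_map_pi_orthonormalBasis c]
  rfl

lemma SC_lin {N : ℕ} (c : OrthonormalBasis (Fin N) ℝ E) (s t : ℝ) (x y : Fin N → ℝ) :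
    SC c (s • x + t • y) = s • SC c x + t • SC c y := by
  unfold SC
  simp only [Pi.add_apply, Pi.smul_apply, smul_eq_mul, add_smul, Finset.sum_add_distrib,
    Finset.smul_sum, mul_smul]

lemma lintegral_SC {N : ℕ} (c : OrthonormalBasis (Fin N) ℝ E) {f : E → ℝ≥0∞} (hf : Measurable f) :
    ∫⁻ x, f x ∂stdGaussian E = ∫⁻ y, PP y * f (SC c y) := by
  rw [← gB_lintegral N (fun y => f (SC c y)) (hf.comp (continuous_SC c).measurable)]
  exact ((SC_mp c).lintegral_comp hf).symm

lemma setLIntegral_SC {N : ℕ} (c : OrthonormalBasis (Fin N) ℝ E) {f : E → ℝ≥0∞}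
    (hf : Measurable f) {A : Set E} (hA : MeasurableSet A) :
    ∫⁻ x in A, f x ∂stdGaussian E = ∫⁻ y in SC c ⁻¹' A, PP y * f (SC c y) := by
  rw [← lintegral_indicator hA, lintegral_SC c (hf.indicator hA),
    ← lintegral_indicator ((continuous_SC c).measurable hA)]
  refine lintegral_congr fun y => ?_
  by_cases h : SC c y ∈ A
  · rw [indicator_of_mem h, indicator_of_mem (by exact h)]
  · rw [indicator_of_notMem h, indicator_of_notMem (by exact h), mul_zero]

/-- product of two finite usc functions -/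
lemma usc_mul' {X : Type*} [TopologicalSpace X] {p : X → ℝ≥0∞} {f : X → ℝ≥0∞}
    (hp : UpperSemicontinuous p) (hpt : ∀ x, p x ≠ ⊤) (hf : UpperSemicontinuous f)
    (hft : ∀ x, f x ≠ ⊤) :
    UpperSemicontinuous fun x => p x * f x := by
  intro x r hr
  have h1 : Tendsto (fun q : ℝ≥0∞ × ℝ≥0∞ => q.1 * q.2) (𝓝 (p x, f x)) (𝓝 (p x * f x)) :=
    ENNReal.tendsto_mul (Or.inr (hft x)) (Or.inr (hpt x))
  have h2 : ∀ᶠ q : ℝ≥0∞ × ℝ≥0∞ in 𝓝 (p x, f x), q.1 * q.2 < r := h1.eventually (gt_mem_nhds hr)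
  rw [nhds_prod_eq, Filter.eventually_prod_iff] at h2
  obtain ⟨P, hP, Q, hQ, hPQ⟩ := h2
  have hx1 : (𝓝[>] (p x)).NeBot := nhdsGT_neBot_of_exists_gt ⟨⊤, lt_top_iff_ne_top.mpr (hpt x)⟩
  have hx2 : (𝓝[>] (f x)).NeBot := nhdsGT_neBot_of_exists_gt ⟨⊤, lt_top_iff_ne_top.mpr (hft x)⟩
  obtain ⟨a, ha1, ha2⟩ := ((hP.filter_mono nhdsWithin_le_nhds).and
    (self_mem_nhdsWithin : Ioi (p x) ∈ 𝓝[>] (p x))).exists
  obtain ⟨b, hb1, hb2⟩ := ((hQ.filter_mono nhdsWithin_le_nhds).and
    (self_mem_nhdsWithin : Ioi (f x) ∈ 𝓝[>] (f x))).exists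
  have e1 : ∀ᶠ y in 𝓝 x, p y < a := hp x a ha2
  have e2 : ∀ᶠ y in 𝓝 x, f y < b := hf x b hb2
  filter_upwards [e1, e2] with y h3 h4
  exact lt_of_le_of_lt (mul_le_mul' h3.le h4.le) (hPQ ha1 hb1)

/-- product of a continuous finite density and a finite usc function -/
lemma usc_mul {X : Type*} [TopologicalSpace X] {p : X → ℝ≥0∞} {f : X → ℝ≥0∞}
    (hp : Continuous p) (hpt : ∀ x, p x ≠ ⊤) (hf : UpperSemicontinuous f) (hft : ∀ x, f x ≠ ⊤) :
    UpperSemicontinuous fun x => p x * f x :=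
  usc_mul' hp.upperSemicontinuous hpt hf hft

lemma continuous_PP {N : ℕ} : Continuous (PP (n := N)) :=
  ENNReal.continuous_ofReal.comp continuous_pr

/-- coordinate form of a regular triple -/
theorem RegG.coord {Θ : ℝ} (hΘ : 0 < Θ) (hΘ1 : Θ < 1) {h0 hT h1 : E → ℝ≥0∞}
    (h : RegG Θ h0 hT h1) {N : ℕ}
    (c : OrthonormalBasis (Fin N) ℝ E) :
    Reg Θ (fun y => PP y * h0 (SC c y)) (fun y => PP y * hT (SC c y))
      (fun y => PP y * h1 (SC c y)) where
  m0 := mPP (h.m0.comp (continuous_SC c).measurable)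
  mT := mPP (h.mT.comp (continuous_SC c).measurable)
  m1 := mPP (h.m1.comp (continuous_SC c).measurable)
  le1 := fun y => mul_le_mul' le_rfl (h.le1 _)
  leT := fun y => mul_le_mul' le_rfl (h.leT _)
  lc := by
    intro x y s t hs ht hst
    show (PP x * h0 (SC c x)) ^ s * (PP y * h0 (SC c y)) ^ t ≤
      PP (s • x + t • y) * h0 (SC c (s • x + t • y))
    rw [ENNReal.mul_rpow_of_nonneg _ _ hs.le, ENNReal.mul_rpow_of_nonneg _ _ ht.le, SC_lin]
    calc PP x ^ s * h0 (SC c x) ^ s * (PP y ^ t * h0 (SC c y) ^ t)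
        = (PP x ^ s * PP y ^ t) * (h0 (SC c x) ^ s * h0 (SC c y) ^ t) := by ring
      _ ≤ _ := mul_le_mul' (PP_lc x y s t hs ht hst) (h.lc _ _ s t hs ht hst)
  mix := by
    intro x y
    have h1Θ : 0 < 1 - Θ := by linarith
    show (PP x * h0 (SC c x)) ^ (1 - Θ) * (PP y * h1 (SC c y)) ^ Θ ≤
      PP ((1 - Θ) • x + Θ • y) * hT (SC c ((1 - Θ) • x + Θ • y))
    rw [ENNReal.mul_rpow_of_nonneg _ _ h1Θ.le, ENNReal.mul_rpow_of_nonneg _ _ hΘ.le, SC_lin]
    calc PP x ^ (1 - Θ) * h0 (SC c x) ^ (1 - Θ) * (PP y ^ Θ * h1 (SC c y) ^ Θ)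
        = (PP x ^ (1 - Θ) * PP y ^ Θ) * (h0 (SC c x) ^ (1 - Θ) * h1 (SC c y) ^ Θ) := by ring
      _ ≤ _ := mul_le_mul' (PP_lc x y _ _ h1Θ hΘ (by ring)) (h.mix _ _)
  usc := by
    obtain ⟨M, hM, hb⟩ := h.bdd
    refine usc_mul continuous_PP (fun y => ENNReal.ofReal_ne_top)
      (usc_comp h.usc (continuous_SC c)) fun y => ?_
    exact ne_top_of_le_ne_top hM ((h.le1 _).trans ((h.leT _).trans (hb _)))
  dom := by
    obtain ⟨M, hM, hb⟩ := h.bdd
    refine ⟨M, ENNReal.ofReal ((Real.sqrt (2 * Real.pi))⁻¹), gaussianPDF 0 1, hM,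
      ENNReal.ofReal_ne_top, measurable_gaussianPDF 0 1, ?_, ?_, ?_⟩
    · intro s
      rw [gpdf_eq]
      calc _ ≤ ENNReal.ofReal ((Real.sqrt (2 * Real.pi))⁻¹) * 1 := by
            gcongr
            exact ee_le_one s
        _ = _ := mul_one _
    · rw [lintegral_gaussianPDF_eq_one 0 one_ne_zero]
      exact ENNReal.one_ne_top
    · intro y
      rw [← PP_eq, mul_comm M]
      gcongr
      exact hb _

/-- the combined inequality on a set -/
def IneqG (k : ℝ≥0∞) (h0 hT h1 : E → ℝ≥0∞) (A : Set E) : Prop :=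
  (∫⁻ x in A, h0 x ∂stdGaussian E) + k * ∫⁻ x in A, h1 x ∂stdGaussian E ≤
    (∫⁻ x in A, hT x ∂stdGaussian E) + k * ∫⁻ x in A, hT x ∂stdGaussian E

/-- root fat ⇒ inequality on the whole space (general input: coordinate form regular) -/
theorem leaf0_of {Θ : ℝ} (hΘ : 0 < Θ) (hΘ1 : Θ ≤ 1 / 88) {h0 hT h1 : E → ℝ≥0∞}
    (m0 : Measurable h0) (mT : Measurable hT) (m1 : Measurable h1)
    (hco : ∀ (N : ℕ) (c : OrthonormalBasis (Fin N) ℝ E), Reg Θ (fun y => PP y * h0 (SC c y))
      (fun y => PP y * hT (SC c y)) (fun y => PP y * h1 (SC c y)))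
    (hroot : ENNReal.ofReal (1 / 8) * ∫⁻ x, h0 x ∂stdGaussian E ≤ ∫⁻ x, h1 x ∂stdGaussian E) :
    IneqG (ENNReal.ofReal (88 * Θ)) h0 hT h1 univ := by
  set c := stdOrthonormalBasis ℝ E with hc
  have hreg := hco _ c
  rw [lintegral_SC c m0, lintegral_SC c m1] at hroot
  have key := star_abstract8 hΘ hΘ1 hreg (D := fun _ => ∅) (fun _ => MeasurableSet.empty)
    (fun i x y _ hx => hx.elim) (fun i x hx => hx.elim) hroot
  have hN : NN (fun _ : Fin (Module.finrank ℝ E) => (∅ : Set (Fin (Module.finrank ℝ E) → ℝ)))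
      = univ := by
    ext x; simp [NN]
  rw [hN, Measure.restrict_univ] at key
  unfold IneqG
  rw [Measure.restrict_univ, lintegral_SC c m0, lintegral_SC c mT, lintegral_SC c m1]
  exact key

/-- root fat ⇒ inequality on the whole space -/
theorem RegG.leaf0 {Θ : ℝ} (hΘ : 0 < Θ) (hΘ1 : Θ ≤ 1 / 88) {h0 hT h1 : E → ℝ≥0∞}
    (h : RegG Θ h0 hT h1)
    (hroot : ENNReal.ofReal (1 / 8) * ∫⁻ x, h0 x ∂stdGaussian E ≤ ∫⁻ x, h1 x ∂stdGaussian E) :
    IneqG (ENNReal.ofReal (88 * Θ)) h0 hT h1 univ :=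
  leaf0_of hΘ hΘ1 h.m0 h.mT h.m1 (fun N c => h.coord hΘ (by linarith) c) hroot

lemma proj_congr_of {W : Submodule ℝ E} {N : ℕ} {c : OrthonormalBasis (Fin N) ℝ E}
    {P : Fin N → Prop} (hc : ∀ j, ¬ P j → c j ∈ Wᗮ) {x y : Fin N → ℝ}
    (hxy : ∀ j, P j → x j = y j) : W.starProjection (SC c x) = W.starProjection (SC c y) := by
  rw [← sub_eq_zero, ← map_sub]
  apply proj_eq_zero
  have : SC c x - SC c y = ∑ j, (x j - y j) • c j := by
    unfold SC
    simp only [sub_smul, Finset.sum_sub_distrib]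
  rw [this]
  refine Submodule.sum_mem _ fun j _ => ?_
  by_cases hj : P j
  · rw [hxy j hj, sub_self, zero_smul]; exact Submodule.zero_mem _
  · exact Submodule.smul_mem _ _ (hc j hj)

/-- root fat ⇒ inequality on the thin labels of one block (general input) -/
theorem block0_of {Θ : ℝ} (hΘ : 0 < Θ) (hΘ1 : Θ ≤ 1 / 88) {h0 hT h1 : E → ℝ≥0∞}
    (m0 : Measurable h0) (mT : Measurable hT) (m1 : Measurable h1)
    (hco : ∀ (N : ℕ) (c : OrthonormalBasis (Fin N) ℝ E), Reg Θ (fun y => PP y * h0 (SC c y))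
      (fun y => PP y * hT (SC c y)) (fun y => PP y * h1 (SC c y))) (W : Submodule ℝ E)
    (hroot : ENNReal.ofReal (1 / 8) * ∫⁻ x, h0 x ∂stdGaussian E ≤ ∫⁻ x, h1 x ∂stdGaussian E) :
    IneqG (ENNReal.ofReal (88 * Θ)) h0 hT h1
      {x | fib W h1 x < ENNReal.ofReal (1 / 4) * fib W h0 x} := by
  set R : Set E := {x | fib W h1 x < ENNReal.ofReal (1 / 4) * fib W h0 x} with hR
  have hRm : MeasurableSet R :=
    measurableSet_lt (measurable_fib m1) ((measurable_fib m0).const_mul _)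
  obtain ⟨N, hN⟩ : ∃ N, Module.finrank ℝ E = N := ⟨_, rfl⟩
  obtain ⟨c, lev, hlev, hcl⟩ := adapted' hN (fun _ : Fin 1 => W) (fun _ _ _ => le_rfl)
  have hcW : ∀ j, (lev j ≤ 0 → c j ∈ W) ∧ (¬ lev j ≤ 0 → c j ∈ Wᗮ) := by
    intro j
    have := hcl 0 j
    simp only [Fin.val_eq_zero, Fin.coe_ofNat_eq_mod, Nat.zero_mod] at this
    exact ⟨this.1, fun hj => this.2 (not_le.mp hj)⟩
  have hreg := hco N c
  by_cases hex : ∃ k : Fin N, lev k ≤ 0
  swap
  · -- `W = ⊥`
    push Not at hex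
    have hall : ∀ x : E, x ∈ Wᗮ := by
      intro x
      rw [← c.sum_repr' x]
      refine Submodule.sum_mem _ fun j _ => Submodule.smul_mem _ _ ?_
      exact (hcW j).2 (not_le.mpr (hex j))
    have hRc : R = univ ∨ R = ∅ := by
      by_cases h0R : (0 : E) ∈ R
      · left
        ext x
        simp only [mem_univ, iff_true]
        have e1 := inv_fib W h1 0 x (hall x)
        have e0 := inv_fib W h0 0 x (hall x)
        rw [zero_add] at e1 e0
        simp only [hR, mem_setOf_eq] at h0R ⊢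
        rw [e1, e0]; exact h0R
      · right
        ext x
        simp only [mem_empty_iff_false, iff_false]
        intro hx
        apply h0R
        have e1 := inv_fib W h1 0 x (hall x)
        have e0 := inv_fib W h0 0 x (hall x)
        rw [zero_add] at e1 e0
        simp only [hR, mem_setOf_eq] at hx ⊢
        rw [← e1, ← e0]; exact hx
    rcases hRc with hu | he
    · rw [hu]; exact leaf0_of hΘ hΘ1 m0 mT m1 hco hroot
    · rw [he]; simp [IneqG]
  -- the last index of `W`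
  obtain ⟨k, hk, hkmax⟩ : ∃ k : Fin N, lev k ≤ 0 ∧ ∀ j : Fin N, lev j ≤ 0 ↔ j ≤ k := by
    classical
    obtain ⟨k0, hk0⟩ := hex
    obtain ⟨k, hk, hkm⟩ := Finset.exists_maximal
      (s := Finset.univ.filter fun k' : Fin N => lev k' ≤ 0)
      ⟨k0, Finset.mem_filter.mpr ⟨Finset.mem_univ _, hk0⟩⟩
    have hk1 : lev k ≤ 0 := (Finset.mem_filter.mp hk).2
    refine ⟨k, hk1, fun j => ⟨fun hj => ?_, fun hj => (hlev hj).trans hk1⟩⟩
    by_contra hlt
    push Not at hlt
    have := hkm (Finset.mem_filter.mpr ⟨Finset.mem_univ _, hj⟩) hlt.le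
    exact absurd this (not_le.mpr hlt)
  have hSm : Measurable (SC c) := (continuous_SC c).measurable
  -- projections
  have hproj : ∀ x y : Fin N → ℝ, (∀ j ≤ k, x j = y j) →
      W.starProjection (SC c x) = W.starProjection (SC c y) := by
    intro x y hxy
    refine proj_congr_of (P := fun j => lev j ≤ 0) (fun j hj => (hcW j).2 hj) fun j hj => ?_
    exact hxy j ((hkmax j).mp hj)
  have hmerge : ∀ x z : Fin N → ℝ,
      SC c (merge k x z) = Vale.Agent.P262.H395.mix W (SC c x) (SC c z) := by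
    intro x z
    have m1 : W.starProjection (SC c (merge k x z)) = W.starProjection (SC c x) :=
      hproj _ _ fun j hj => by simp [merge, hj]
    have m2 : SC c (merge k x z) - SC c z ∈ W := by
      have : SC c (merge k x z) - SC c z = ∑ j, (merge k x z j - z j) • c j := by
        unfold SC
        simp only [sub_smul, Finset.sum_sub_distrib]
      rw [this]
      refine Submodule.sum_mem _ fun j _ => ?_
      by_cases hj : j ≤ k
      · exact Submodule.smul_mem _ _ ((hcW j).1 ((hkmax j).mpr hj))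
      · have : merge k x z j - z j = 0 := by simp [merge, hj]
        rw [this, zero_smul]; exact Submodule.zero_mem _
    have p2 := (Submodule.starProjection_eq_self_iff (K := W)).mpr m2
    rw [map_sub, m1] at p2
    unfold Vale.Agent.P262.H395.mix
    rw [sub_eq_sub_iff_add_eq_add] at p2
    rw [add_sub, p2]
    abel
  have hmg : ∀ f : E → ℝ≥0∞, Measurable f → ∀ x : Fin N → ℝ,
      ∫⁻ z, f (SC c (merge k x z)) ∂(gB N) = fib W f (SC c x) := by
    intro f hf x
    unfold fib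
    have e := (SC_mp c).lintegral_comp (hf.comp (measurable_mix_right W (SC c x)))
    simp only [Function.comp] at e
    rw [← e]
    refine lintegral_congr fun z => ?_
    rw [hmerge]
  set D : Fin N → Set (Fin N → ℝ) := fun i => {y | i = k ∧ SC c y ∉ R} with hD
  have hDm : ∀ i, MeasurableSet (D i) := by
    intro i
    by_cases hi : i = k
    · have : D i = SC c ⁻¹' Rᶜ := by
        ext y; simp [hD, hi]
      rw [this]
      exact hSm hRm.compl
    · have : D i = ∅ := by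
        ext y; simp [hD, hi]
      rw [this]; exact MeasurableSet.empty
  have hRinv : ∀ x y : Fin N → ℝ, (∀ j ≤ k, x j = y j) → SC c x ∈ R → SC c y ∈ R := by
    intro x y hxy hx
    have hp := hproj x y hxy
    simp only [hR, mem_setOf_eq] at hx ⊢
    rw [← (inv_fib W h1).eq_of hp, ← (inv_fib W h0).eq_of hp]
    exact hx
  have hcyl : Cyl D := by
    rintro i x y hxy ⟨hi, hx⟩
    refine ⟨hi, fun hy => hx ?_⟩
    subst hi
    exact hRinv y x (fun j hj => (hxy j hj).symm) hy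
  have hdeep : DeepOK8 D (fun y => PP y * h0 (SC c y)) (fun y => PP y * h1 (SC c y)) := by
    rintro i x ⟨hi, hx⟩
    subst hi
    obtain ⟨κ, hκ⟩ := mg_gauss N i x
    rw [hκ (fun y => h0 (SC c y)) (m0.comp hSm), hκ (fun y => h1 (SC c y)) (m1.comp hSm),
      hmg h0 m0, hmg h1 m1]
    simp only [hR, mem_setOf_eq, not_lt] at hx
    calc ENNReal.ofReal (1 / 4) * (κ * fib W h0 (SC c x))
        = κ * (ENNReal.ofReal (1 / 4) * fib W h0 (SC c x)) := by ring
      _ ≤ κ * fib W h1 (SC c x) := by gcongr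
  rw [lintegral_SC c m0, lintegral_SC c m1] at hroot
  have key := star_abstract8 hΘ hΘ1 hreg hDm hcyl hdeep hroot
  have hNN : NN D = SC c ⁻¹' R := by
    ext y
    simp only [NN, hD, mem_setOf_eq, mem_preimage, not_and, not_not]
    exact ⟨fun h => h k rfl, fun h i hi => h⟩
  rw [hNN] at key
  unfold IneqG
  rw [setLIntegral_SC c m0 hRm, setLIntegral_SC c mT hRm, setLIntegral_SC c m1 hRm]
  exact key

/-- root fat ⇒ inequality on the thin labels of one block -/
theorem RegG.block0 {Θ : ℝ} (hΘ : 0 < Θ) (hΘ1 : Θ ≤ 1 / 88) {h0 hT h1 : E → ℝ≥0∞}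
    (h : RegG Θ h0 hT h1) (W : Submodule ℝ E)
    (hroot : ENNReal.ofReal (1 / 8) * ∫⁻ x, h0 x ∂stdGaussian E ≤ ∫⁻ x, h1 x ∂stdGaussian E) :
    IneqG (ENNReal.ofReal (88 * Θ)) h0 hT h1
      {x | fib W h1 x < ENNReal.ofReal (1 / 4) * fib W h0 x} :=
  block0_of hΘ hΘ1 h.m0 h.mT h.m1 (fun N c => h.coord hΘ (by linarith) c) W hroot

/-! ### fibre versions -/

/-- the combined inequality on a set, in the fibre of the label `x` of `W0` -/
def IneqF (k : ℝ≥0∞) (h0 hT h1 : E → ℝ≥0∞) (W0 : Submodule ℝ E) (x : E) (A : Set E) : Prop :=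
  fib W0 (A.indicator h0) x + k * fib W0 (A.indicator h1) x ≤
    fib W0 (A.indicator hT) x + k * fib W0 (A.indicator hT) x

lemma fib_indicator_eq (W0 : Submodule ℝ E) {A : Set E} (hA : MeasurableSet A) (f : E → ℝ≥0∞)
    (x : E) : fib W0 (A.indicator f) x =
      ∫⁻ z in (fun z => Vale.Agent.P262.H395.mix W0 x z) ⁻¹' A,
        f (Vale.Agent.P262.H395.mix W0 x z) ∂stdGaussian E := by
  rw [← lintegral_indicator (measurable_mix_right W0 x hA)]
  rfl

lemma ineqF_iff (k : ℝ≥0∞) (h0 hT h1 : E → ℝ≥0∞) (W0 : Submodule ℝ E) (x : E) {A : Set E}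
    (hA : MeasurableSet A) : IneqF k h0 hT h1 W0 x A ↔
      IneqG k (fun z => h0 (Vale.Agent.P262.H395.mix W0 x z))
        (fun z => hT (Vale.Agent.P262.H395.mix W0 x z))
        (fun z => h1 (Vale.Agent.P262.H395.mix W0 x z))
        ((fun z => Vale.Agent.P262.H395.mix W0 x z) ⁻¹' A) := by
  unfold IneqF IneqG
  rw [fib_indicator_eq W0 hA, fib_indicator_eq W0 hA, fib_indicator_eq W0 hA]

/-- root fat ⇒ inequality on the fibre -/
theorem RegG.leaf {Θ : ℝ} (hΘ : 0 < Θ) (hΘ1 : Θ ≤ 1 / 88) {h0 hT h1 : E → ℝ≥0∞}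
    (h : RegG Θ h0 hT h1) (W0 : Submodule ℝ E) (x : E)
    (hroot : ENNReal.ofReal (1 / 8) * fib W0 h0 x ≤ fib W0 h1 x) :
    IneqF (ENNReal.ofReal (88 * Θ)) h0 hT h1 W0 x univ := by
  rw [ineqF_iff _ _ _ _ _ _ MeasurableSet.univ, preimage_univ]
  exact (h.comp_mix W0 x).leaf0 hΘ hΘ1 hroot

/-- root fat ⇒ inequality on the thin labels of the next block -/
theorem RegG.block {Θ : ℝ} (hΘ : 0 < Θ) (hΘ1 : Θ ≤ 1 / 88) {h0 hT h1 : E → ℝ≥0∞}
    (h : RegG Θ h0 hT h1) {W0 W : Submodule ℝ E} (hW : W0 ≤ W) (x : E)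
    (hroot : ENNReal.ofReal (1 / 8) * fib W0 h0 x ≤ fib W0 h1 x) :
    IneqF (ENNReal.ofReal (88 * Θ)) h0 hT h1 W0 x
      {y | fib W h1 y < ENNReal.ofReal (1 / 4) * fib W h0 y} := by
  have hRm : MeasurableSet {y | fib W h1 y < ENNReal.ofReal (1 / 4) * fib W h0 y} :=
    measurableSet_lt (measurable_fib h.m1) ((measurable_fib h.m0).const_mul _)
  rw [ineqF_iff _ _ _ _ _ _ hRm]
  have key := (h.comp_mix W0 x).block0 hΘ hΘ1 W hroot
  simp only [fib_comp_mix hW] at key
  exact key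

end Vale.Agent.P262.H44
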