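import Mathlib
import Vale.Agent.P262.H44.RegG

/-!
# P262, block STAR-TREE, part 3: the functional nested star theorem for label-dependent flags

Trees `node W D cls sub`: the label of the node is the projection on `W`, `D` the set of stopped
labels, `cls` the class of the label, which chooses the subtree. All are functions of the label.
-/

set_option linter.all false

open MeasureTheory Set Filter ProbabilityTheory
open scoped ENNReal NNReal Topology RealInnerProductSpace

namespace Vale.Agent.P262.H44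

open Vale.Agent.P262.H493 hiding fib
open Vale.Agent.P262.H395

/-- label-dependent flags -/
inductive STree (E : Type*) [NormedAddCommGroup E] [InnerProductSpace ℝ E] : Type _
  | leaf : STree E
  | node (W : Submodule ℝ E) (D : Set E) (cls : E → ℕ) (sub : ℕ → STree E) : STree E

variable {E : Type*} [NormedAddCommGroup E] [InnerProductSpace ℝ E] [FiniteDimensional ℝ E]
  [MeasurableSpace E] [BorelSpace E]

/-- the set `D` is a union of fibres of the label `P_W` -/
def InvS (W : Submodule ℝ E) (D : Set E) : Prop := ∀ x, ∀ w ∈ Wᗮ, (x + w ∈ D ↔ x ∈ D)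

/-- the class is a function of the label -/
def InvC (W : Submodule ℝ E) (cls : E → ℕ) : Prop := ∀ x, ∀ w ∈ Wᗮ, cls (x + w) = cls x

lemma mix_sub_mem (W : Submodule ℝ E) (x z : E) :
    Vale.Agent.P262.H395.mix W x z - x ∈ Wᗮ := by
  rw [← Submodule.starProjection_apply_eq_zero_iff, map_sub, starProjection_mix, sub_self]

lemma InvS.mix {W : Submodule ℝ E} {D : Set E} (h : InvS W D) (x z : E) :
    Vale.Agent.P262.H395.mix W x z ∈ D ↔ x ∈ D := by
  have := h x _ (mix_sub_mem W x z)
  rwa [add_sub_cancel] at this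

lemma InvC.mix {W : Submodule ℝ E} {cls : E → ℕ} (h : InvC W cls) (x z : E) :
    cls (Vale.Agent.P262.H395.mix W x z) = cls x := by
  have := h x _ (mix_sub_mem W x z)
  rwa [add_sub_cancel] at this

lemma InvS.mono {W W' : Submodule ℝ E} (hW : W ≤ W') {D : Set E} (h : InvS W D) : InvS W' D :=
  fun x w hw => h x w (Submodule.orthogonal_le hW hw)

lemma InvS.compl {W : Submodule ℝ E} {D : Set E} (h : InvS W D) : InvS W Dᶜ :=
  fun x w hw => not_congr (h x w hw)

lemma invS_lt {W : Submodule ℝ E} {f g : E → ℝ≥0∞} (hf : Inv W f) (hg : Inv W g) :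
    InvS W {y | f y < g y} := by
  intro x w hw
  simp only [mem_setOf_eq]
  rw [hf x w hw, hg x w hw]

/-! ### fibre averages of restricted functions -/

lemma fib_ind_congr {W : Submodule ℝ E} {A B : Set E} (f : E → ℝ≥0∞) {x : E}
    (h : ∀ z, Vale.Agent.P262.H395.mix W x z ∈ A ↔ Vale.Agent.P262.H395.mix W x z ∈ B) :
    fib W (A.indicator f) x = fib W (B.indicator f) x := by
  unfold fib
  refine lintegral_congr fun z => ?_
  by_cases hz : Vale.Agent.P262.H395.mix W x z ∈ A
  · rw [indicator_of_mem hz, indicator_of_mem ((h z).mp hz)]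
  · rw [indicator_of_notMem hz, indicator_of_notMem (fun hz' => hz ((h z).mpr hz'))]

lemma fib_ind_empty {W : Submodule ℝ E} {A : Set E} (f : E → ℝ≥0∞) {x : E}
    (h : ∀ z, Vale.Agent.P262.H395.mix W x z ∉ A) : fib W (A.indicator f) x = 0 := by
  unfold fib
  simp [indicator_of_notMem (h _)]

lemma fib_ind_univ {W : Submodule ℝ E} {A : Set E} (f : E → ℝ≥0∞) {x : E}
    (h : ∀ z, Vale.Agent.P262.H395.mix W x z ∈ A) : fib W (A.indicator f) x = fib W f x := by
  unfold fib
  refine lintegral_congr fun z => ?_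
  rw [indicator_of_mem (h z)]

lemma fib_ind_le {W : Submodule ℝ E} (A : Set E) (f : E → ℝ≥0∞) (x : E) :
    fib W (A.indicator f) x ≤ fib W f x :=
  fib_mono (fun y => indicator_le_self' (fun _ _ => bot_le) y) x

lemma fib_split {W : Submodule ℝ E} {f : E → ℝ≥0∞} (hf : Measurable f) {S A : Set E}
    (hS : MeasurableSet S) (hA : MeasurableSet A) (x : E) :
    fib W (S.indicator f) x =
      fib W ((S ∩ A).indicator f) x + fib W ((S \ A).indicator f) x := by
  rw [← fib_add (hf.indicator (hS.inter hA))]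
  congr 1
  funext y
  by_cases h1 : y ∈ S
  · by_cases h2 : y ∈ A
    · rw [indicator_of_mem h1, indicator_of_mem (show y ∈ S ∩ A from ⟨h1, h2⟩),
        indicator_of_notMem (show y ∉ S \ A from fun h => h.2 h2), add_zero]
    · rw [indicator_of_mem h1, indicator_of_notMem (show y ∉ S ∩ A from fun h => h2 h.2),
        indicator_of_mem (show y ∈ S \ A from ⟨h1, h2⟩), zero_add]
  · rw [indicator_of_notMem h1, indicator_of_notMem (show y ∉ S ∩ A from fun h => h1 h.1),
      indicator_of_notMem (show y ∉ S \ A from fun h => h1 h.1), add_zero]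

lemma fib_split_compl {W : Submodule ℝ E} {f : E → ℝ≥0∞} (hf : Measurable f) {A : Set E}
    (hA : MeasurableSet A) (x : E) :
    fib W f x = fib W (A.indicator f) x + fib W (Aᶜ.indicator f) x := by
  have := fib_split (W := W) hf MeasurableSet.univ hA x
  rwa [indicator_univ, univ_inter, ← compl_eq_univ_diff] at this

lemma fib_lin (W : Submodule ℝ E) {F G : E → ℝ≥0∞} (hF : Measurable F) (hG : Measurable G)
    (c : ℝ≥0∞) (x : E) :
    fib W (fun y => F y + c * G y) x = fib W F x + c * fib W G x := by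
  rw [fib_add hF, fib_mul (inv_const W c) hG]

lemma tower_le {W0 W : Submodule ℝ E} (hW : W0 ≤ W) {F G : E → ℝ≥0∞} (hF : Measurable F)
    (hG : Measurable G) (h : ∀ y, fib W F y ≤ fib W G y) (x : E) : fib W0 F x ≤ fib W0 G x := by
  rw [← fib_tower hW hF, ← fib_tower hW hG]
  exact fib_mono h x

lemma tower_lin {W0 W : Submodule ℝ E} (hW : W0 ≤ W) {F G H K : E → ℝ≥0∞} (hF : Measurable F)
    (hG : Measurable G) (hH : Measurable H) (hK : Measurable K) {c d : ℝ≥0∞}
    (h : ∀ y, fib W F y + c * fib W G y ≤ fib W H y + d * fib W K y) (x : E) :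
    fib W0 F x + c * fib W0 G x ≤ fib W0 H x + d * fib W0 K x := by
  rw [← fib_lin W0 hF hG, ← fib_lin W0 hH hK]
  have m1 : Measurable fun y => F y + c * G y := hF.add (hG.const_mul c)
  have m2 : Measurable fun y => H y + d * K y := hH.add (hK.const_mul d)
  refine tower_le hW m1 m2 (fun y => ?_) x
  rw [fib_lin W hF hG, fib_lin W hH hK]
  exact h y

lemma tower_le_mul {W0 W : Submodule ℝ E} (hW : W0 ≤ W) {F G : E → ℝ≥0∞} (hF : Measurable F)
    (hG : Measurable G) {c : ℝ≥0∞} (h : ∀ y, fib W F y ≤ c * fib W G y) (x : E) :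
    fib W0 F x ≤ c * fib W0 G x := by
  have := tower_lin hW hF measurable_zero measurable_zero hG (c := 0) (d := c) (fun y => by
    have e : fib W (0 : E → ℝ≥0∞) y = 0 := by unfold fib; simp
    rw [zero_mul, add_zero, e, zero_add]; exact h y) x
  have e : fib W0 (0 : E → ℝ≥0∞) x = 0 := by unfold fib; simp
  rwa [zero_mul, add_zero, e, zero_add] at this

lemma ineqF_tower {k : ℝ≥0∞} {h0 hT h1 : E → ℝ≥0∞} (m0 : Measurable h0) (mT : Measurable hT)
    (m1 : Measurable h1) {W0 W : Submodule ℝ E} (hW : W0 ≤ W) {A : Set E} (hA : MeasurableSet A)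
    (h : ∀ y, IneqF k h0 hT h1 W y A) (x : E) : IneqF k h0 hT h1 W0 x A :=
  tower_lin hW (m0.indicator hA) (m1.indicator hA) (mT.indicator hA) (mT.indicator hA) h x

lemma ineqF_empty {k : ℝ≥0∞} {h0 hT h1 : E → ℝ≥0∞} {W : Submodule ℝ E} {x : E} {A : Set E}
    (h : ∀ z, Vale.Agent.P262.H395.mix W x z ∉ A) : IneqF k h0 hT h1 W x A := by
  unfold IneqF
  rw [fib_ind_empty h0 h, fib_ind_empty h1 h, fib_ind_empty hT h]

lemma ineqF_congr {k : ℝ≥0∞} {h0 hT h1 : E → ℝ≥0∞} {W : Submodule ℝ E} {x : E} {A B : Set E}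
    (h : ∀ z, Vale.Agent.P262.H395.mix W x z ∈ A ↔ Vale.Agent.P262.H395.mix W x z ∈ B)
    (hB : IneqF k h0 hT h1 W x B) : IneqF k h0 hT h1 W x A := by
  unfold IneqF at hB ⊢
  rw [fib_ind_congr h0 h, fib_ind_congr h1 h, fib_ind_congr hT h]
  exact hB

lemma ineqF_mono {k k' : ℝ≥0∞} (hk : k ≤ k') (hk' : k' ≠ ⊤) {h0 hT h1 : E → ℝ≥0∞}
    (h1T : ∀ x, h1 x ≤ hT x) {W : Submodule ℝ E} {x : E} {A : Set E}
    (h : IneqF k h0 hT h1 W x A) : IneqF k' h0 hT h1 W x A := by
  unfold IneqF at h ⊢
  obtain ⟨e, rfl⟩ := exists_add_of_le hk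
  have h2 : fib W (A.indicator h1) x ≤ fib W (A.indicator hT) x :=
    fib_mono (fun y => indicator_le_indicator (h1T y)) x
  rw [add_mul, add_mul, ← add_assoc, ← add_assoc]
  gcongr

lemma ineqF_union {k : ℝ≥0∞} {h0 hT h1 : E → ℝ≥0∞} (m0 : Measurable h0) (mT : Measurable hT)
    (m1 : Measurable h1) {W : Submodule ℝ E} {x : E} {S A : Set E} (hS : MeasurableSet S)
    (hA : MeasurableSet A) (i1 : IneqF k h0 hT h1 W x (S ∩ A))
    (i2 : IneqF k h0 hT h1 W x (S \ A)) : IneqF k h0 hT h1 W x S := by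
  unfold IneqF at i1 i2 ⊢
  rw [fib_split m0 hS hA, fib_split m1 hS hA, fib_split mT hS hA]
  have := add_le_add i1 i2
  refine le_trans (le_of_eq ?_) (this.trans (le_of_eq ?_))
  · ring
  · ring

namespace STree

/-- the visible region -/
def reg : STree E → Set E
  | leaf => univ
  | node W D cls sub => {x | x ∉ D ∧ x ∈ (sub (cls x)).reg}

/-- nowhere long -/
def low (h0 h1 : E → ℝ≥0∞) : STree E → Set E
  | leaf => univ
  | node W D cls sub =>
    {x | fib W h1 x < ENNReal.ofReal (1 / 2) * fib W h0 x ∧ x ∈ low h0 h1 (sub (cls x))}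

/-- the flag is increasing, everything depends measurably on the label only -/
def Valid : STree E → Submodule ℝ E → Prop
  | leaf, _ => True
  | node W D cls sub, W0 => W0 ≤ W ∧ MeasurableSet D ∧ InvS W D ∧ Measurable cls ∧ InvC W cls ∧
      ∀ n, (sub n).Valid W

/-- all stopped labels are long -/
def Deep (h0 h1 : E → ℝ≥0∞) : STree E → Prop
  | leaf => True
  | node W D cls sub => (∀ x ∈ D, ENNReal.ofReal (1 / 2) * fib W h0 x ≤ fib W h1 x) ∧
      ∀ n, Deep h0 h1 (sub n)

lemma measurableSet_reg : ∀ (T : STree E) {W0 : Submodule ℝ E}, T.Valid W0 →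
    MeasurableSet T.reg := by
  intro T
  induction T with
  | leaf => intro _ _; exact MeasurableSet.univ
  | node W D cls sub ih =>
    intro W0 hV
    obtain ⟨_, hD, _, hc, _, hs⟩ := hV
    have e : (node W D cls sub).reg = Dᶜ ∩ ⋃ n, (cls ⁻¹' {n} ∩ (sub n).reg) := by
      ext x
      simp only [reg, mem_setOf_eq, mem_inter_iff, mem_compl_iff, mem_iUnion, mem_preimage,
        mem_singleton_iff]
      constructor
      · rintro ⟨h1, h2⟩; exact ⟨h1, cls x, rfl, h2⟩
      · rintro ⟨h1, n, h2, h3⟩; subst h2; exact ⟨h1, h3⟩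
    rw [e]
    exact hD.compl.inter (MeasurableSet.iUnion fun n =>
      (hc (measurableSet_singleton n)).inter (ih n (hs n)))

lemma measurableSet_low {h0 h1 : E → ℝ≥0∞} (m0 : Measurable h0) (m1 : Measurable h1) :
    ∀ (T : STree E) {W0 : Submodule ℝ E}, T.Valid W0 → MeasurableSet (T.low h0 h1) := by
  intro T
  induction T with
  | leaf => intro _ _; exact MeasurableSet.univ
  | node W D cls sub ih =>
    intro W0 hV
    obtain ⟨_, hD, _, hc, _, hs⟩ := hV
    have e : (node W D cls sub).low h0 h1 =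
        {x | fib W h1 x < ENNReal.ofReal (1 / 2) * fib W h0 x} ∩
          ⋃ n, (cls ⁻¹' {n} ∩ (sub n).low h0 h1) := by
      ext x
      simp only [low, mem_setOf_eq, mem_inter_iff, mem_iUnion, mem_preimage,
        mem_singleton_iff]
      constructor
      · rintro ⟨h1, h2⟩; exact ⟨h1, cls x, rfl, h2⟩
      · rintro ⟨h1, n, h2, h3⟩; subst h2; exact ⟨h1, h3⟩
    rw [e]
    exact (measurableSet_lt (measurable_fib m1) ((measurable_fib m0).const_mul _)).inter
      (MeasurableSet.iUnion fun n => (hc (measurableSet_singleton n)).inter (ih n (hs n)))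

/-- slices of the low set, thin label -/
lemma low_slice_lt {h0 h1 : E → ℝ≥0∞} {W : Submodule ℝ E} {D : Set E} {cls : E → ℕ}
    {sub : ℕ → STree E} (hc : InvC W cls) {y : E}
    (h : fib W h1 y < ENNReal.ofReal (1 / 2) * fib W h0 y) (z : E) :
    Vale.Agent.P262.H395.mix W y z ∈ (node W D cls sub).low h0 h1 ↔
      Vale.Agent.P262.H395.mix W y z ∈ (sub (cls y)).low h0 h1 := by
  have hi := invS_lt (inv_fib W h1) ((inv_const W (ENNReal.ofReal (1 / 2))).mul (inv_fib W h0))
  simp only [low, mem_setOf_eq, hc.mix]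
  constructor
  · exact fun h' => h'.2
  · exact fun h' => ⟨(hi.mix y z).mpr h, h'⟩

/-- slices of the low set, long label -/
lemma low_slice_ge {h0 h1 : E → ℝ≥0∞} {W : Submodule ℝ E} {D : Set E} {cls : E → ℕ}
    {sub : ℕ → STree E} {y : E}
    (h : ¬ fib W h1 y < ENNReal.ofReal (1 / 2) * fib W h0 y) (z : E) :
    Vale.Agent.P262.H395.mix W y z ∉ (node W D cls sub).low h0 h1 := by
  have hi := invS_lt (inv_fib W h1) ((inv_const W (ENNReal.ofReal (1 / 2))).mul (inv_fib W h0))
  intro h'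
  exact h ((hi.mix y z).mp h'.1)

/-- maximal inequality along the tree -/
theorem maximal {h0 h1 : E → ℝ≥0∞} (m0 : Measurable h0) (m1 : Measurable h1) :
    ∀ (T : STree E) {W0 : Submodule ℝ E}, T.Valid W0 → ∀ x,
      ENNReal.ofReal (1 / 2) * fib W0 ((T.low h0 h1)ᶜ.indicator h0) x ≤ fib W0 h1 x := by
  intro T
  induction T with
  | leaf =>
    intro W0 _ x
    rw [fib_ind_empty h0 (by intro z; simp [low]), mul_zero]
    exact bot_le
  | node W D cls sub ih =>
    intro W0 hV x
    have hLm := (measurableSet_low m0 m1 _ hV).compl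
    obtain ⟨hW, hD, hDi, hc, hci, hs⟩ := hV
    rw [← fib_mul (inv_const W0 (ENNReal.ofReal (1 / 2))) (m0.indicator hLm)]
    refine tower_le hW ((m0.indicator hLm).const_mul _) m1 (fun y => ?_) x
    rw [fib_mul (inv_const W (ENNReal.ofReal (1 / 2))) (m0.indicator hLm)]
    by_cases hlt : fib W h1 y < ENNReal.ofReal (1 / 2) * fib W h0 y
    · have e : fib W (((node W D cls sub).low h0 h1)ᶜ.indicator h0) y =
          fib W (((sub (cls y)).low h0 h1)ᶜ.indicator h0) y :=
        fib_ind_congr h0 fun z => not_congr (low_slice_lt hci hlt z)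
      rw [e]
      exact ih (cls y) (hs _) y
    · refine le_trans ?_ (not_lt.mp hlt)
      gcongr
      exact fib_ind_le _ _ _

theorem ofReal_add_half (a : ℝ≥0∞) :
    ENNReal.ofReal (1 / 2) * a + ENNReal.ofReal (1 / 2) * a = a := by
  rw [← add_mul, ← ENNReal.ofReal_add (by norm_num) (by norm_num)]
  norm_num

/-- in a label with less than a quarter of long chords, the low set has at least half of the
mass -/
theorem half_low {h0 h1 : E → ℝ≥0∞} (m0 : Measurable h0) (m1 : Measurable h1)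
    {T : STree E} {W : Submodule ℝ E} (hV : T.Valid W) (y : E) (hfin : fib W h0 y ≠ ⊤)
    (h : fib W h1 y ≤ ENNReal.ofReal (1 / 4) * fib W h0 y) :
    fib W h0 y ≤ 2 * fib W ((T.low h0 h1).indicator h0) y := by
  have hmax := maximal m0 m1 T hV y
  have hLm := measurableSet_low m0 m1 T hV
  have hsp := fib_split_compl (W := W) m0 hLm y
  set b := fib W h0 y with hb
  set a := fib W ((T.low h0 h1).indicator h0) y with ha
  set c := fib W ((T.low h0 h1)ᶜ.indicator h0) y with hc
  have h1' : ENNReal.ofReal (1 / 2) * c ≤ ENNReal.ofReal (1 / 2) * (ENNReal.ofReal (1 / 2) * b) := by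
    refine (hmax.trans h).trans (le_of_eq ?_)
    rw [← mul_assoc, ← ENNReal.ofReal_mul (by norm_num)]
    norm_num
  have h2 : c ≤ ENNReal.ofReal (1 / 2) * b :=
    (ENNReal.mul_le_mul_iff_right (by simp) ENNReal.ofReal_ne_top).mp h1'
  have h3 : ENNReal.ofReal (1 / 2) * b + ENNReal.ofReal (1 / 2) * b ≤
      a + ENNReal.ofReal (1 / 2) * b := by
    rw [ofReal_add_half]
    calc b = a + c := hsp
      _ ≤ _ := by gcongr
  have h4 : ENNReal.ofReal (1 / 2) * b ≤ a :=
    (ENNReal.add_le_add_iff_right (ENNReal.mul_ne_top ENNReal.ofReal_ne_top hfin)).mp h3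
  calc b = ENNReal.ofReal (1 / 2) * b + ENNReal.ofReal (1 / 2) * b := (ofReal_add_half b).symm
    _ ≤ a + a := add_le_add h4 h4
    _ = 2 * a := (two_mul a).symm

end STree

section functional

variable {Θ : ℝ} {h0 hT h1 : E → ℝ≥0∞}

/-- what the tree induction needs from a triple of functions -/
structure TIn (Θ : ℝ) (h0 hT h1 : E → ℝ≥0∞) : Prop where
  m0 : Measurable h0
  mT : Measurable hT
  m1 : Measurable h1
  le1 : ∀ x, h1 x ≤ hT x
  leT : ∀ x, hT x ≤ h0 x
  fib_ne_top : ∀ (W : Submodule ℝ E) (x : E), fib W h0 x ≠ ⊤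
  leaf : ∀ (W0 : Submodule ℝ E) (x : E), ENNReal.ofReal (1 / 8) * fib W0 h0 x ≤ fib W0 h1 x →
    IneqF (ENNReal.ofReal (88 * Θ)) h0 hT h1 W0 x univ
  block : ∀ {W0 W : Submodule ℝ E} (_ : W0 ≤ W) (x : E),
    ENNReal.ofReal (1 / 8) * fib W0 h0 x ≤ fib W0 h1 x →
    IneqF (ENNReal.ofReal (88 * Θ)) h0 hT h1 W0 x
      {y | fib W h1 y < ENNReal.ofReal (1 / 4) * fib W h0 y}

/-- **thin mass in the nowhere long region** -/
theorem TIn.thin (hΘ : 0 < Θ) (hΘ1 : Θ ≤ 1 / 88) (h : TIn Θ h0 hT h1) :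
    ∀ (T : STree E) {W0 : Submodule ℝ E}, T.Valid W0 → ∀ x,
      ENNReal.ofReal (1 / 4) * fib W0 h0 x ≤ fib W0 h1 x →
      fib W0 ((T.low h0 h1).indicator h0) x ≤ fib W0 ((T.low h0 h1).indicator hT) x +
        ENNReal.ofReal (176 * Θ) * fib W0 ((T.low h0 h1).indicator h0) x := by
  have h8 : ∀ (W0 : Submodule ℝ E) (x : E), ENNReal.ofReal (1 / 4) * fib W0 h0 x ≤ fib W0 h1 x →
      ENNReal.ofReal (1 / 8) * fib W0 h0 x ≤ fib W0 h1 x := by
    intro W0 x hr
    refine le_trans ?_ hr
    gcongr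
    norm_num
  have hlT : ∀ (W0 : Submodule ℝ E) (A : Set E) (x : E),
      fib W0 (A.indicator hT) x ≤ fib W0 (A.indicator h0) x := fun W0 A x =>
    fib_mono (fun y => indicator_le_indicator (h.leT y)) x
  have h176 : ENNReal.ofReal (88 * Θ) * 2 = ENNReal.ofReal (176 * Θ) := by
    rw [show (2 : ℝ≥0∞) = ENNReal.ofReal 2 by norm_num, ← ENNReal.ofReal_mul (by positivity)]
    congr 1; ring
  intro T
  induction T with
  | leaf =>
    intro W0 _ x hroot
    have key := h.leaf W0 x (h8 W0 x hroot)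
    unfold IneqF at key
    simp only [STree.low]
    calc fib W0 (univ.indicator h0) x
        ≤ fib W0 (univ.indicator h0) x + ENNReal.ofReal (88 * Θ) * fib W0 (univ.indicator h1) x :=
          le_self_add
      _ ≤ fib W0 (univ.indicator hT) x + ENNReal.ofReal (88 * Θ) * fib W0 (univ.indicator hT) x :=
          key
      _ ≤ fib W0 (univ.indicator hT) x +
          ENNReal.ofReal (176 * Θ) * fib W0 (univ.indicator h0) x := by
          gcongr
          · linarith
          · exact hlT W0 univ x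
  | node W D cls sub ih =>
    intro W0 hV x hroot
    have hAm := STree.measurableSet_low h.m0 h.m1 _ hV
    obtain ⟨hW, hD, hDi, hc, hci, hs⟩ := hV
    set A := (STree.node W D cls sub).low h0 h1 with hA
    set R : Set E := {y | fib W h1 y < ENNReal.ofReal (1 / 4) * fib W h0 y} with hR
    have hRm : MeasurableSet R :=
      measurableSet_lt (measurable_fib h.m1) ((measurable_fib h.m0).const_mul _)
    have hRi : InvS W R :=
      invS_lt (inv_fib W h1) ((inv_const W (ENNReal.ofReal (1 / 4))).mul (inv_fib W h0))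
    have hblock := h.block hW x (h8 W0 x hroot)
    rw [← hR] at hblock
    -- at least half of `R` is in `A`
    have hhalf : fib W0 (R.indicator h0) x ≤ 2 * fib W0 ((A ∩ R).indicator h0) x := by
      refine tower_le_mul hW (h.m0.indicator hRm) (h.m0.indicator (hAm.inter hRm)) (fun y => ?_) x
      by_cases hy : y ∈ R
      · have hlt : fib W h1 y < ENNReal.ofReal (1 / 2) * fib W h0 y := by
          refine lt_of_lt_of_le (show fib W h1 y < ENNReal.ofReal (1 / 4) * fib W h0 y from hy) ?_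
          gcongr
          norm_num
        rw [fib_ind_univ h0 (fun z => (hRi.mix y z).mpr hy),
          fib_ind_congr (B := (sub (cls y)).low h0 h1) h0 (fun z => by
            rw [← STree.low_slice_lt (D := D) hci hlt z]
            exact ⟨fun hz => hz.1, fun hz => ⟨hz, (hRi.mix y z).mpr hy⟩⟩)]
        exact STree.half_low h.m0 h.m1 (hs _) y (h.fib_ne_top W y)
          (show fib W h1 y < ENNReal.ofReal (1 / 4) * fib W h0 y from hy).le
      · rw [fib_ind_empty h0 (fun z hz => hy ((hRi.mix y z).mp hz))]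
        exact bot_le
    -- outside `R`
    have hout : fib W0 ((A \ R).indicator h0) x ≤ fib W0 ((A \ R).indicator hT) x +
        ENNReal.ofReal (176 * Θ) * fib W0 ((A \ R).indicator h0) x := by
      have hm := hAm.diff hRm
      have := tower_lin hW (h.m0.indicator hm) measurable_zero (h.mT.indicator hm)
        (h.m0.indicator hm) (c := 0) (d := ENNReal.ofReal (176 * Θ)) (fun y => by
          rw [zero_mul, add_zero]
          by_cases hlt : fib W h1 y < ENNReal.ofReal (1 / 2) * fib W h0 y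
          · by_cases hy : y ∈ R
            · rw [fib_ind_empty h0 (fun z hz => hz.2 ((hRi.mix y z).mpr hy))]
              exact bot_le
            · have hy' : ENNReal.ofReal (1 / 4) * fib W h0 y ≤ fib W h1 y := not_lt.mp hy
              have e : ∀ z, Vale.Agent.P262.H395.mix W y z ∈ A \ R ↔
                  Vale.Agent.P262.H395.mix W y z ∈ (sub (cls y)).low h0 h1 := by
                intro z
                rw [← STree.low_slice_lt (D := D) hci hlt z]
                exact ⟨fun hz => hz.1, fun hz => ⟨hz, fun hz' => hy ((hRi.mix y z).mp hz')⟩⟩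
              rw [fib_ind_congr h0 e, fib_ind_congr hT e]
              exact ih (cls y) (hs _) y hy'
          · rw [fib_ind_empty h0 (fun z hz => STree.low_slice_ge hlt z hz.1)]
            exact bot_le) x
      rwa [zero_mul, add_zero] at this
    -- inside `R`
    have hin : fib W0 ((A ∩ R).indicator h0) x ≤ fib W0 ((A ∩ R).indicator hT) x +
        ENNReal.ofReal (176 * Θ) * fib W0 ((A ∩ R).indicator h0) x := by
      have s0 := fib_split (W := W0) h.m0 hRm hAm x
      have sT := fib_split (W := W0) h.mT hRm hAm x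
      rw [inter_comm] at s0 sT
      unfold IneqF at hblock
      have hfin : fib W0 ((R \ A).indicator h0) x ≠ ⊤ :=
        ne_top_of_le_ne_top (h.fib_ne_top W0 x) (fib_ind_le _ _ _)
      have hcanc : fib W0 ((A ∩ R).indicator h0) x + fib W0 ((R \ A).indicator h0) x ≤
          (fib W0 ((A ∩ R).indicator hT) x +
            ENNReal.ofReal (176 * Θ) * fib W0 ((A ∩ R).indicator h0) x) +
            fib W0 ((R \ A).indicator h0) x := by
        calc fib W0 ((A ∩ R).indicator h0) x + fib W0 ((R \ A).indicator h0) x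
            = fib W0 (R.indicator h0) x := s0.symm
          _ ≤ fib W0 (R.indicator h0) x +
              ENNReal.ofReal (88 * Θ) * fib W0 (R.indicator h1) x := le_self_add
          _ ≤ fib W0 (R.indicator hT) x +
              ENNReal.ofReal (88 * Θ) * fib W0 (R.indicator hT) x := hblock
          _ ≤ fib W0 (R.indicator hT) x +
              ENNReal.ofReal (88 * Θ) * (2 * fib W0 ((A ∩ R).indicator h0) x) := by
              gcongr
              exact (hlT W0 R x).trans hhalf
          _ = fib W0 ((A ∩ R).indicator hT) x + fib W0 ((R \ A).indicator hT) x +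
              ENNReal.ofReal (176 * Θ) * fib W0 ((A ∩ R).indicator h0) x := by
              rw [sT, ← mul_assoc, h176]
          _ ≤ fib W0 ((A ∩ R).indicator hT) x + fib W0 ((R \ A).indicator h0) x +
              ENNReal.ofReal (176 * Θ) * fib W0 ((A ∩ R).indicator h0) x := by
              gcongr
              exact hlT W0 _ x
          _ = _ := by ring
      exact (ENNReal.add_le_add_iff_right hfin).mp hcanc
    rw [fib_split h.m0 hAm hRm, fib_split h.mT hAm hRm, mul_add]
    calc _ ≤ (fib W0 ((A ∩ R).indicator hT) x +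
            ENNReal.ofReal (176 * Θ) * fib W0 ((A ∩ R).indicator h0) x) +
          (fib W0 ((A \ R).indicator hT) x +
            ENNReal.ofReal (176 * Θ) * fib W0 ((A \ R).indicator h0) x) := add_le_add hin hout
      _ = _ := by ring

/-- in the nowhere long region at most half of the mass is long -/
theorem mid_of (m0 : Measurable h0) (m1 : Measurable h1) :
    ∀ (T : STree E) {W0 : Submodule ℝ E}, T.Valid W0 → ∀ x,
      (T = STree.leaf → fib W0 h1 x ≤ ENNReal.ofReal (1 / 2) * fib W0 h0 x) →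
      fib W0 ((T.low h0 h1).indicator h1) x ≤
        ENNReal.ofReal (1 / 2) * fib W0 ((T.low h0 h1).indicator h0) x := by
  intro T
  induction T with
  | leaf =>
    intro W0 _ x hr
    simp only [STree.low, indicator_univ]
    exact hr rfl
  | node W D cls sub ih =>
    intro W0 hV x _
    have hAm := STree.measurableSet_low m0 m1 _ hV
    obtain ⟨hW, hD, hDi, hc, hci, hs⟩ := hV
    refine tower_le_mul hW (m1.indicator hAm) (m0.indicator hAm) (fun y => ?_) x
    by_cases hlt : fib W h1 y < ENNReal.ofReal (1 / 2) * fib W h0 y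
    · rw [fib_ind_congr h1 (STree.low_slice_lt (D := D) hci hlt),
        fib_ind_congr h0 (STree.low_slice_lt (D := D) hci hlt)]
      exact ih (cls y) (hs _) y fun _ => hlt.le
    · rw [fib_ind_empty h1 (STree.low_slice_ge hlt)]
      exact bot_le

theorem TIn.mid (h : TIn Θ h0 hT h1) (T : STree E) {W0 : Submodule ℝ E} (hV : T.Valid W0) (x : E)
    (hleaf : T = STree.leaf → fib W0 h1 x ≤ ENNReal.ofReal (1 / 2) * fib W0 h0 x) :
    fib W0 ((T.low h0 h1).indicator h1) x ≤
      ENNReal.ofReal (1 / 2) * fib W0 ((T.low h0 h1).indicator h0) x :=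
  mid_of h.m0 h.m1 T hV x hleaf

/-- thin and mid give the combined inequality, pure arithmetic -/
lemma ineq_of_thin {a t c : ℝ≥0∞} (hΘ : 0 < Θ) (hΘ1 : Θ ≤ 1 / 704) (ha : a ≠ ⊤) (hta : t ≤ a)
    (hct : c ≤ t) (h1 : a ≤ t + ENNReal.ofReal (176 * Θ) * a)
    (h2 : c ≤ ENNReal.ofReal (1 / 2) * a) :
    a + ENNReal.ofReal (704 * Θ) * c ≤ t + ENNReal.ofReal (704 * Θ) * t := by
  have ht : t ≠ ⊤ := ne_top_of_le_ne_top ha hta
  have hc : c ≠ ⊤ := ne_top_of_le_ne_top ht hct
  lift a to ℝ≥0 using ha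
  lift t to ℝ≥0 using ht
  lift c to ℝ≥0 using hc
  have e1 : (a : ℝ) ≤ t + 176 * Θ * a := by
    have : ENNReal.ofReal a ≤ ENNReal.ofReal (t + 176 * Θ * a) := by
      rw [ENNReal.ofReal_add t.coe_nonneg (by positivity),
        ENNReal.ofReal_mul (p := 176 * Θ) (q := (a : ℝ)) (by positivity),
        ENNReal.ofReal_coe_nnreal, ENNReal.ofReal_coe_nnreal]
      exact h1
    exact (ENNReal.ofReal_le_ofReal_iff (by positivity)).mp this
  have e2 : (c : ℝ) ≤ 1 / 2 * a := by
    have : ENNReal.ofReal c ≤ ENNReal.ofReal (1 / 2 * a) := by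
      rw [ENNReal.ofReal_mul (p := 1 / 2) (q := (a : ℝ)) (by positivity),
        ENNReal.ofReal_coe_nnreal, ENNReal.ofReal_coe_nnreal]
      exact h2
    exact (ENNReal.ofReal_le_ofReal_iff (by positivity)).mp this
  have ha0 : (0 : ℝ) ≤ a := a.coe_nonneg
  have e3 : (a : ℝ) + 704 * Θ * c ≤ t + 704 * Θ * t := by
    have h3 : 704 * Θ * c ≤ 704 * Θ * (1 / 2 * a) := by gcongr
    have h4 : 704 * Θ * (a - 176 * Θ * a) ≤ 704 * Θ * t := by
      gcongr
      linarith
    have h5 : Θ * (Θ * a) ≤ (1 / 704) * (Θ * a) := by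
      have : 0 ≤ Θ * a := by positivity
      nlinarith
    nlinarith
  have e4 := ENNReal.ofReal_le_ofReal e3
  rw [ENNReal.ofReal_add a.coe_nonneg (by positivity),
      ENNReal.ofReal_add t.coe_nonneg (by positivity),
      ENNReal.ofReal_mul (p := 704 * Θ) (q := (c : ℝ)) (by positivity),
      ENNReal.ofReal_mul (p := 704 * Θ) (q := (t : ℝ)) (by positivity),
      ENNReal.ofReal_coe_nnreal, ENNReal.ofReal_coe_nnreal, ENNReal.ofReal_coe_nnreal] at e4
  exact e4

/-- the inequality on the nowhere long region (`T` a node, or the root label itself not long) -/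
theorem TIn.ineq_low (hΘ : 0 < Θ) (hΘ1 : Θ ≤ 1 / 704) (h : TIn Θ h0 hT h1) (T : STree E)
    {W0 : Submodule ℝ E} (hV : T.Valid W0) (x : E)
    (hroot : ENNReal.ofReal (1 / 4) * fib W0 h0 x ≤ fib W0 h1 x)
    (hleaf : T = STree.leaf → fib W0 h1 x ≤ ENNReal.ofReal (1 / 2) * fib W0 h0 x) :
    IneqF (ENNReal.ofReal (704 * Θ)) h0 hT h1 W0 x (T.low h0 h1) := by
  refine ineq_of_thin hΘ hΘ1 (ne_top_of_le_ne_top (h.fib_ne_top W0 x) (fib_ind_le _ _ _))
    (fib_mono (fun y => indicator_le_indicator (h.leT y)) x)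
    (fib_mono (fun y => indicator_le_indicator (h.le1 y)) x)
    (h.thin hΘ (by linarith) T hV x hroot) (h.mid T hV x hleaf)

lemma STree.low_subset_reg : ∀ (T : STree E), T.Deep h0 h1 → T.low h0 h1 ⊆ T.reg := by
  intro T
  induction T with
  | leaf => intro _ x _; trivial
  | node W D cls sub ih =>
    intro hd x hx
    exact ⟨fun hD => absurd (hd.1 x hD) (not_le.mpr hx.1), ih (cls x) (hd.2 _) hx.2⟩

/-- the two inductive statements -/
theorem TIn.star_aux (hΘ : 0 < Θ) (hΘ1 : Θ ≤ 1 / 704) (h : TIn Θ h0 hT h1) :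
    ∀ (T : STree E) {W0 : Submodule ℝ E}, T.Valid W0 → T.Deep h0 h1 →
      (∀ x, ENNReal.ofReal (1 / 4) * fib W0 h0 x ≤ fib W0 h1 x →
        IneqF (ENNReal.ofReal (704 * Θ)) h0 hT h1 W0 x T.reg) ∧
      (∀ x, IneqF (ENNReal.ofReal (704 * Θ)) h0 hT h1 W0 x (T.reg \ T.low h0 h1)) := by
  intro T
  induction T with
  | leaf =>
    intro W0 _ _
    constructor
    · intro x hroot
      have h8 : ENNReal.ofReal (1 / 8) * fib W0 h0 x ≤ fib W0 h1 x := by
        refine le_trans ?_ hroot
        gcongr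
        norm_num
      refine ineqF_mono ?_ ENNReal.ofReal_ne_top h.le1 (h.leaf W0 x h8)
      exact ENNReal.ofReal_le_ofReal (by linarith)
    · intro x
      exact ineqF_empty fun z hz => hz.2 trivial
  | node W D cls sub ih =>
    intro W0 hV hd
    have hQ : ∀ x, IneqF (ENNReal.ofReal (704 * Θ)) h0 hT h1 W0 x
        ((STree.node W D cls sub).reg \ (STree.node W D cls sub).low h0 h1) := by
      intro x
      have hm := (STree.measurableSet_reg _ hV).diff (STree.measurableSet_low h.m0 h.m1 _ hV)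
      obtain ⟨hW, hD, hDi, hc, hci, hs⟩ := hV
      refine ineqF_tower h.m0 h.mT h.m1 hW hm (fun y => ?_) x
      obtain ⟨ihP, ihQ⟩ := ih (cls y) (hs _) (hd.2 _)
      by_cases hyD : y ∈ D
      · exact ineqF_empty fun z hz => hz.1.1 ((hDi.mix y z).mpr hyD)
      by_cases hlt : fib W h1 y < ENNReal.ofReal (1 / 2) * fib W h0 y
      · refine ineqF_congr (B := (sub (cls y)).reg \ (sub (cls y)).low h0 h1) (fun z => ?_) (ihQ y)
        rw [mem_diff, mem_diff, STree.low_slice_lt (D := D) hci hlt z]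
        simp only [STree.reg, mem_setOf_eq, hci.mix, hDi.mix]
        exact ⟨fun hz => ⟨hz.1.2, hz.2⟩, fun hz => ⟨⟨hyD, hz.1⟩, hz.2⟩⟩
      · refine ineqF_congr (B := (sub (cls y)).reg) (fun z => ?_) (ihP y ?_)
        · rw [mem_diff]
          simp only [STree.reg, mem_setOf_eq, hci.mix, hDi.mix]
          exact ⟨fun hz => hz.1.2, fun hz => ⟨⟨hyD, hz⟩, STree.low_slice_ge hlt z⟩⟩
        · refine le_trans ?_ (not_lt.mp hlt)
          gcongr
          norm_num
    refine ⟨fun x hroot => ?_, hQ⟩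
    have hsub := STree.low_subset_reg _ hd
    refine ineqF_union h.m0 h.mT h.m1 (STree.measurableSet_reg _ hV)
      (STree.measurableSet_low h.m0 h.m1 _ hV) ?_ (hQ x)
    rw [inter_eq_right.mpr hsub]
    exact h.ineq_low hΘ hΘ1 _ hV x hroot (fun he => by simp at he)

/-- **Functional nested star theorem for label-dependent flags.** -/
theorem TIn.star_tree (hΘ : 0 < Θ) (hΘ1 : Θ ≤ 1 / 704) (h : TIn Θ h0 hT h1) {T : STree E}
    {W0 : Submodule ℝ E} (hV : T.Valid W0) (hd : T.Deep h0 h1) (x : E)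
    (hroot : ENNReal.ofReal (1 / 4) * fib W0 h0 x ≤ fib W0 h1 x) :
    IneqF (ENNReal.ofReal (704 * Θ)) h0 hT h1 W0 x T.reg :=
  (h.star_aux hΘ hΘ1 T hV hd).1 x hroot

/-! ### the bounded log-concave case -/

lemma RegG.fib_ne_top (h : RegG Θ h0 hT h1) (W : Submodule ℝ E) (x : E) : fib W h0 x ≠ ⊤ := by
  obtain ⟨M, hM, hb⟩ := h.bdd
  refine ne_top_of_le_ne_top hM ((fib_mono hb x).trans_eq (fib_const W M x))

theorem RegG.toTIn (hΘ : 0 < Θ) (hΘ1 : Θ ≤ 1 / 88) (h : RegG Θ h0 hT h1) : TIn Θ h0 hT h1 where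
  m0 := h.m0
  mT := h.mT
  m1 := h.m1
  le1 := h.le1
  leT := h.leT
  fib_ne_top := h.fib_ne_top
  leaf := fun W0 x hr => h.leaf hΘ hΘ1 W0 x hr
  block := fun hW x hr => h.block hΘ hΘ1 hW x hr

theorem RegG.thin (hΘ : 0 < Θ) (hΘ1 : Θ ≤ 1 / 88) (h : RegG Θ h0 hT h1) (T : STree E)
    {W0 : Submodule ℝ E} (hV : T.Valid W0) (x : E)
    (hroot : ENNReal.ofReal (1 / 4) * fib W0 h0 x ≤ fib W0 h1 x) :
    fib W0 ((T.low h0 h1).indicator h0) x ≤ fib W0 ((T.low h0 h1).indicator hT) x +
      ENNReal.ofReal (176 * Θ) * fib W0 ((T.low h0 h1).indicator h0) x :=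
  (h.toTIn hΘ hΘ1).thin hΘ hΘ1 T hV x hroot

theorem RegG.mid (h : RegG Θ h0 hT h1) : ∀ (T : STree E)
    {W0 : Submodule ℝ E}, T.Valid W0 → ∀ (x : E),
    (T = STree.leaf → fib W0 h1 x ≤ ENNReal.ofReal (1 / 2) * fib W0 h0 x) →
    fib W0 ((T.low h0 h1).indicator h1) x ≤
      ENNReal.ofReal (1 / 2) * fib W0 ((T.low h0 h1).indicator h0) x :=
  fun T _ hV x hleaf => mid_of h.m0 h.m1 T hV x hleaf

/-- the inequality on the nowhere long region (`T` a node, or the root label itself not long) -/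
theorem RegG.ineq_low (hΘ : 0 < Θ) (hΘ1 : Θ ≤ 1 / 704) (h : RegG Θ h0 hT h1) (T : STree E)
    {W0 : Submodule ℝ E} (hV : T.Valid W0) (x : E)
    (hroot : ENNReal.ofReal (1 / 4) * fib W0 h0 x ≤ fib W0 h1 x)
    (hleaf : T = STree.leaf → fib W0 h1 x ≤ ENNReal.ofReal (1 / 2) * fib W0 h0 x) :
    IneqF (ENNReal.ofReal (704 * Θ)) h0 hT h1 W0 x (T.low h0 h1) :=
  (h.toTIn hΘ (by linarith)).ineq_low hΘ hΘ1 T hV x hroot hleaf

theorem RegG.star_aux (hΘ : 0 < Θ) (hΘ1 : Θ ≤ 1 / 704) (h : RegG Θ h0 hT h1) (T : STree E)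
    {W0 : Submodule ℝ E} (hV : T.Valid W0) (hd : T.Deep h0 h1) :
      (∀ x, ENNReal.ofReal (1 / 4) * fib W0 h0 x ≤ fib W0 h1 x →
        IneqF (ENNReal.ofReal (704 * Θ)) h0 hT h1 W0 x T.reg) ∧
      (∀ x, IneqF (ENNReal.ofReal (704 * Θ)) h0 hT h1 W0 x (T.reg \ T.low h0 h1)) :=
  (h.toTIn hΘ (by linarith)).star_aux hΘ hΘ1 T hV hd

/-- **Functional nested star theorem for label-dependent flags.** -/
theorem RegG.star_tree (hΘ : 0 < Θ) (hΘ1 : Θ ≤ 1 / 704) (h : RegG Θ h0 hT h1) {T : STree E}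
    {W0 : Submodule ℝ E} (hV : T.Valid W0) (hd : T.Deep h0 h1) (x : E)
    (hroot : ENNReal.ofReal (1 / 4) * fib W0 h0 x ≤ fib W0 h1 x) :
    IneqF (ENNReal.ofReal (704 * Θ)) h0 hT h1 W0 x T.reg :=
  (h.star_aux hΘ hΘ1 T hV hd).1 x hroot

end functional

end Vale.Agent.P262.H44
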