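import Mathlib
import Vale.Agent.P262.H44.Tree

/-!
# P262, block STAR-TREE, part 4: line functionals of a convex body, transfer to loss and gain
-/

set_option linter.all false

open MeasureTheory Set Filter ProbabilityTheory
open scoped ENNReal NNReal Topology RealInnerProductSpace

namespace Vale.Agent.P262.H44

open Vale.Agent.P262.H493 hiding fib
open Vale.Agent.P262.H395

variable {E : Type*} [NormedAddCommGroup E] [InnerProductSpace ℝ E] [FiniteDimensional ℝ E]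
  [MeasurableSpace E] [BorelSpace E]

/-- an orthonormal basis whose last vector is `± v / ‖v‖` -/
theorem exists_basis {v : E} (hv : v ≠ 0) : ∃ (n : ℕ) (c : OrthonormalBasis (Fin (n + 1)) ℝ E),
    (‖v‖ • c (Fin.last n) = v ∨ ‖v‖ • c (Fin.last n) = -v) := by
  haveI : Nontrivial E := ⟨v, 0, hv⟩
  obtain ⟨n, hn⟩ : ∃ n, Module.finrank ℝ E = n + 1 :=
    ⟨Module.finrank ℝ E - 1, by have := Module.finrank_pos (R := ℝ) (M := E); omega⟩
  obtain ⟨c, lev, hlev, hc⟩ := adapted' hn (fun _ : Fin 1 => (ℝ ∙ v)ᗮ) (fun _ _ _ => le_rfl)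
  refine ⟨n, c, ?_⟩
  have hcH : ∀ j, (lev j ≤ 0 → c j ∈ (ℝ ∙ v)ᗮ) ∧ (0 < lev j → c j ∈ (ℝ ∙ v)ᗮᗮ) := by
    intro j
    have := hc 0 j
    simpa using this
  have hlast : 0 < lev (Fin.last n) := by
    by_contra hcon
    push Not at hcon
    apply hv
    have h1 : ∀ j, ⟪c j, v⟫ = 0 := by
      intro j
      have := (hcH j).1 ((hlev (Fin.le_last j)).trans hcon)
      rw [Submodule.mem_orthogonal_singleton_iff_inner_left] at this
      exact this
    rw [← c.sum_repr' v]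
    simp [h1]
  obtain ⟨t, ht⟩ : ∃ t : ℝ, t • v = c (Fin.last n) := by
    have := (hcH (Fin.last n)).2 hlast
    rw [Submodule.orthogonal_orthogonal] at this
    exact Submodule.mem_span_singleton.mp this
  have htδ : |t| * ‖v‖ = 1 := by
    have := congrArg norm ht
    rw [norm_smul, c.orthonormal.1, Real.norm_eq_abs] at this
    exact this
  rw [← ht, smul_smul]
  rcases le_total 0 t with h | h
  · left
    rw [abs_of_nonneg h] at htδ
    rw [mul_comm, htδ, one_smul]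
  · right
    rw [abs_of_nonpos h] at htδ
    have : ‖v‖ * t = -1 := by linarith
    rw [this, neg_one_smul]

/-- dimension of the base -/
noncomputable def nb {v : E} (hv : v ≠ 0) : ℕ := (exists_basis hv).choose

/-- the chosen basis -/
noncomputable def cb {v : E} (hv : v ≠ 0) : OrthonormalBasis (Fin (nb hv + 1)) ℝ E :=
  (exists_basis hv).choose_spec.choose

lemma cb_spec {v : E} (hv : v ≠ 0) :
    ‖v‖ • cb hv (Fin.last _) = v ∨ ‖v‖ • cb hv (Fin.last _) = -v :=
  (exists_basis hv).choose_spec.choose_spec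

/-- the line functionals: maximal (non normalised) Gaussian density on the chord of `K` in the
direction `v`, if the chord is at least `ℓ` long -/
noncomputable def hl (K : Set E) (v : E) (ℓ : ℝ) (x : E) : ℝ≥0∞ :=
  open Classical in
  if hv : v ≠ 0 then ff (SS (cb hv) ⁻¹' K) ℓ (TT (cb hv) x).1 else 0

section

variable {K : Set E} {v : E}

lemma hl_eq (hv : v ≠ 0) (K : Set E) (ℓ : ℝ) (x : E) :
    hl K v ℓ x = ff (SS (cb hv) ⁻¹' K) ℓ (TT (cb hv) x).1 := by
  unfold hl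
  rw [dif_pos hv]

lemma convex_pre (hv : v ≠ 0) (hKc : Convex ℝ K) : Convex ℝ (SS (cb hv) ⁻¹' K) := by
  intro p hp q hq s t hs ht hst
  simp only [mem_preimage] at hp hq ⊢
  rw [SS_lin]
  exact hKc hp hq hs ht hst

lemma vb_pre (hv : v ≠ 0) (hK : IsClosed K) (hb : ∃ R : ℝ, ∀ x ∈ K, |⟪v, x⟫| ≤ R) :
    VB (SS (cb hv) ⁻¹' K) := by
  refine ⟨hK.preimage (continuous_SS _), ?_⟩
  obtain ⟨R, hR⟩ := hb
  have hδ : 0 < ‖v‖ := norm_pos_iff.mpr hv
  refine ⟨R / ‖v‖, fun p hp => ?_⟩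
  have h1 := hR _ hp
  have h2 : |⟪‖v‖ • cb hv (Fin.last _), SS (cb hv) p⟫| ≤ R := by
    rcases cb_spec hv with h | h
    · rw [h]; exact h1
    · rw [h, inner_neg_left, abs_neg]; exact h1
  rw [inner_smul_left, inner_last_SS] at h2
  simp only [conj_trivial] at h2
  rw [abs_mul, abs_of_pos hδ] at h2
  rw [le_div_iff₀ hδ]; linarith

lemma bstar_pre (hv : v ≠ 0) (K : Set E) :
    bstar (SS (cb hv) ⁻¹' K) ‖v‖ = SS (cb hv) ⁻¹' (star K v) := by
  have hstar : star K (‖v‖ • cb hv (Fin.last _)) = star K v := by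
    rcases cb_spec hv with h | h
    · rw [h]
    · rw [h, Vale.Agent.P262.H493.star_neg]
  rw [← hstar]
  exact bstar_transfer (cb hv) K (norm_pos_iff.mpr hv) rfl

lemma isClosed_star' (hv : v ≠ 0) (hK : IsClosed K) (hKc : Convex ℝ K)
    (hb : ∃ R : ℝ, ∀ x ∈ K, |⟪v, x⟫| ≤ R) : IsClosed (star K v) := by
  have h1 : star K v = TT (cb hv) ⁻¹' (SS (cb hv) ⁻¹' (star K v)) := by
    ext x
    simp only [mem_preimage, SS_TT]
  rw [h1, ← bstar_pre hv]
  exact (isClosed_bstar (vb_pre hv hK hb) (convex_pre hv hKc) (norm_nonneg v)).preimage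
    (continuous_TT _)

lemma TT_fst_lin {n : ℕ} (c : OrthonormalBasis (Fin (n + 1)) ℝ E) (s t : ℝ) (x y : E) :
    (TT c (s • x + t • y)).1 = s • (TT c x).1 + t • (TT c y).1 := by
  funext j
  simp [TT, inner_add_right, inner_smul_right]

lemma measurable_hl (hv : v ≠ 0) (hK : IsClosed K) (hb : ∃ R : ℝ, ∀ x ∈ K, |⟪v, x⟫| ≤ R)
    (ℓ : ℝ) : Measurable (hl K v ℓ) := by
  have e : hl K v ℓ = fun x => ff (SS (cb hv) ⁻¹' K) ℓ (TT (cb hv) x).1 := by
    funext x; exact hl_eq hv K ℓ x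
  rw [e]
  exact (measurable_ff (vb_pre hv hK hb) ℓ).comp
    (continuous_fst.comp (continuous_TT (cb hv))).measurable

lemma hl_le_one (hv : v ≠ 0) (K : Set E) (ℓ : ℝ) (x : E) : hl K v ℓ x ≤ 1 := by
  rw [hl_eq hv]
  exact ff_le_one _ _ _

/-- the regular triple of a body -/
theorem regG_body (hv : v ≠ 0) (hv' : ‖v‖ < 1 / 4) (hK : IsClosed K) (hKc : Convex ℝ K)
    (hb : ∃ R : ℝ, ∀ x ∈ K, |⟪v, x⟫| ≤ R) :
    RegG (4 * ‖v‖) (hl K v 0) (hl K v (2 * ‖v‖)) (hl K v (1 / 2)) := by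
  have hδ : 0 < ‖v‖ := norm_pos_iff.mpr hv
  have hVB := vb_pre hv hK hb
  have hc := convex_pre hv hKc
  set δ := ‖v‖ with hδdef
  exact
  { m0 := measurable_hl hv hK hb 0
    mT := measurable_hl hv hK hb _
    m1 := measurable_hl hv hK hb _
    le1 := fun x => by
      rw [hl_eq hv, hl_eq hv]
      exact ff_mono hc (by linarith) (by linarith) _
    leT := fun x => by
      rw [hl_eq hv, hl_eq hv]
      exact ff_mono hc le_rfl (by linarith) _
    lc := by
      intro x y s t hs ht hst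
      rw [hl_eq hv, hl_eq hv, hl_eq hv, ff_zero, ff_zero, ff_zero, TT_fst_lin]
      exact WW_lc hVB hc _ _ s t hs ht hst
    mix := by
      intro x y
      have h1 : 0 < 1 - 4 * δ := by linarith
      have h2 : 0 < 4 * δ := by linarith
      have h3 : 1 - 4 * δ + 4 * δ = 1 := by ring
      rw [hl_eq hv, hl_eq hv, hl_eq hv, ff_zero, TT_fst_lin]
      set K' := SS (cb hv) ⁻¹' K with hK'
      set a := (TT (cb hv) x).1
      set b := (TT (cb hv) y).1
      by_cases hx : ∃ r, (a, r) ∈ K'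
      · by_cases hy : b ∈ CL K' (1 / 2)
        · have hz : (1 - 4 * δ) • a + (4 * δ) • b ∈ CL K' (2 * δ) := by
            obtain ⟨r, hr⟩ := hx
            obtain ⟨q, hb1, hb2⟩ := hy
            refine ⟨(1 - 4 * δ) * r + 4 * δ * q, ?_, ?_⟩
            · have := hc hr hb1 h1.le h2.le h3
              simpa using this
            · have := hc hr hb2 h1.le h2.le h3
              have e : (1 - 4 * δ) • ((a, r) : Pt (nb hv)) + (4 * δ) • ((b, q + 1 / 2) : Pt (nb hv)) =
                  ((1 - 4 * δ) • a + (4 * δ) • b, (1 - 4 * δ) * r + 4 * δ * q + 2 * δ) := by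
                ext i
                · simp
                · simp; ring
              rwa [e] at this
          rw [ff, indicator_of_mem hy, ff, indicator_of_mem hz]
          exact WW_lc hVB hc a b _ _ h1 h2 h3
        · rw [ff, indicator_of_notMem hy, ENNReal.zero_rpow_of_pos h2, mul_zero]
          exact bot_le
      · push Not at hx
        rw [WW_empty hx, ENNReal.zero_rpow_of_pos h1, zero_mul]
        exact bot_le
    usc := by
      have h1 := usc_gen hVB (1 / 2) (p := fun _ => 1) continuous_const (fun _ => zero_le_one)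
      simp only [ENNReal.ofReal_one, one_mul] at h1
      have e : hl K v (1 / 2) = fun x => ff (SS (cb hv) ⁻¹' K) (1 / 2) (TT (cb hv) x).1 := by
        funext x; exact hl_eq hv K _ x
      rw [e]
      exact usc_comp h1 (continuous_fst.comp (continuous_TT (cb hv)))
    bdd := ⟨1, ENNReal.one_ne_top, fun x => hl_le_one hv K 0 x⟩ }

/-! ### lines -/

lemma cb_mem (hv : v ≠ 0) (j : Fin (nb hv)) : cb hv j.castSucc ∈ (ℝ ∙ v)ᗮ := by
  rw [Submodule.mem_orthogonal_singleton_iff_inner_right]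
  have h0 : ⟪cb hv (Fin.last _), cb hv j.castSucc⟫ = 0 :=
    (cb hv).orthonormal.2 (Fin.castSucc_lt_last j).ne'
  have h1 : ⟪‖v‖ • cb hv (Fin.last _), cb hv j.castSucc⟫ = 0 := by
    rw [inner_smul_left, h0, mul_zero]
  rcases cb_spec hv with h | h
  · rwa [h] at h1
  · rw [h, inner_neg_left] at h1
    linarith

lemma cb_last_mem (hv : v ≠ 0) : cb hv (Fin.last _) ∈ (ℝ ∙ v)ᗮᗮ := by
  rw [Submodule.orthogonal_orthogonal, Submodule.mem_span_singleton]
  have hδ : ‖v‖ ≠ 0 := norm_ne_zero_iff.mpr hv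
  have e : ‖v‖⁻¹ • (‖v‖ • cb hv (Fin.last _)) = cb hv (Fin.last _) := by
    rw [smul_smul, inv_mul_cancel₀ hδ, one_smul]
  rcases cb_spec hv with h | h
  · refine ⟨‖v‖⁻¹, ?_⟩
    rw [h] at e
    exact e
  · refine ⟨-‖v‖⁻¹, ?_⟩
    rw [h, smul_neg] at e
    rw [neg_smul]
    exact e

lemma proj_SS (hv : v ≠ 0) (p : Pt (nb hv)) :
    (ℝ ∙ v)ᗮ.starProjection (SS (cb hv) p) = SS (cb hv) (p.1, 0) := by
  have e : SS (cb hv) p = SS (cb hv) (p.1, 0) + p.2 • cb hv (Fin.last _) := by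
    unfold SS
    simp
  have h1 : SS (cb hv) (p.1, 0) ∈ (ℝ ∙ v)ᗮ := by
    unfold SS
    simp only [zero_smul, add_zero]
    exact Submodule.sum_mem _ fun j _ => Submodule.smul_mem _ _ (cb_mem hv j)
  rw [e, map_add, map_smul, proj_eq_zero (cb_last_mem hv), smul_zero, add_zero]
  exact Submodule.starProjection_eq_self_iff.mpr h1

lemma mix_SS (hv : v ≠ 0) (x : E) (p : Pt (nb hv)) :
    Vale.Agent.P262.H395.mix (ℝ ∙ v)ᗮ x (SS (cb hv) p) = SS (cb hv) ((TT (cb hv) x).1, p.2) := by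
  have hx : x = SS (cb hv) (TT (cb hv) x) := (SS_TT _ x).symm
  unfold Vale.Agent.P262.H395.mix
  rw [proj_SS hv p]
  conv_lhs => rw [hx]
  rw [proj_SS hv]
  unfold SS
  simp

/-- fibre average along the line -/
lemma fib_line (hv : v ≠ 0) {f : E → ℝ≥0∞} (hf : Measurable f) (x : E) :
    fib (ℝ ∙ v)ᗮ f x = ∫⁻ t, f (SS (cb hv) ((TT (cb hv) x).1, t)) ∂(gaussianReal 0 1) := by
  unfold fib
  have e := (SS_mp (cb hv)).lintegral_comp (hf.comp (measurable_mix_right (ℝ ∙ v)ᗮ x))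
  simp only [Function.comp] at e
  rw [← e]
  simp only [mix_SS hv]
  have hg : Measurable fun t : ℝ => f (SS (cb hv) ((TT (cb hv) x).1, t)) :=
    hf.comp ((continuous_SS (cb hv)).comp (by fun_prop)).measurable
  have := (measurePreserving_snd (μ := gB (nb hv)) (ν := gaussianReal 0 1)).lintegral_comp hg
  exact this

lemma fib_line_set (hv : v ≠ 0) {S : Set E} (hS : MeasurableSet S) (x : E) :
    fib (ℝ ∙ v)ᗮ (S.indicator 1) x =
      gaussianReal 0 1 {t | SS (cb hv) ((TT (cb hv) x).1, t) ∈ S} := by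
  rw [fib_line hv (measurable_one.indicator hS)]
  have hm : MeasurableSet {t : ℝ | SS (cb hv) ((TT (cb hv) x).1, t) ∈ S} :=
    ((continuous_SS (cb hv)).comp (by fun_prop : Continuous fun t : ℝ =>
      (((TT (cb hv) x).1, t) : Pt (nb hv)))).measurable hS
  rw [← lintegral_indicator_one hm]
  refine lintegral_congr fun t => ?_
  by_cases h : SS (cb hv) ((TT (cb hv) x).1, t) ∈ S
  · rw [indicator_of_mem h, indicator_of_mem (by exact h)]; rfl
  · rw [indicator_of_notMem h, indicator_of_notMem (by exact h)]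

lemma inv_hl (hv : v ≠ 0) (K : Set E) (ℓ : ℝ) : Inv (ℝ ∙ v)ᗮ (hl K v ℓ) := by
  intro x w hw
  rw [hl_eq hv, hl_eq hv]
  congr 1
  have hw' : w ∈ (ℝ ∙ v) := by rwa [Submodule.orthogonal_orthogonal] at hw
  obtain ⟨t, rfl⟩ := Submodule.mem_span_singleton.mp hw'
  funext j
  have := cb_mem hv j
  rw [Submodule.mem_orthogonal_singleton_iff_inner_left] at this
  simp [TT, inner_add_right, inner_smul_right, this]

lemma mem_line_iff (hv : v ≠ 0) {N : Set E} (hN : InvS (ℝ ∙ v)ᗮ N) (x : E) (t : ℝ) :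
    SS (cb hv) ((TT (cb hv) x).1, t) ∈ N ↔ x ∈ N := by
  have h := hN.mix x (SS (cb hv) ((TT (cb hv) x).1, t))
  rw [mix_SS hv] at h
  exact h

/-- measure of a line of `K` against long chords -/
theorem deep_line' {n : ℕ} {K : Set (Pt n)} (hK : VB K) (hKc : Convex ℝ K) (y : Fin n → ℝ) :
    gaussianReal 0 1 {x | (y, x) ∈ K} ≤
      ENNReal.ofReal (11 / 20) + ENNReal.ofReal (23 / 50) * ff K (1 / 2) y := by
  by_cases hm : gaussianReal 0 1 {x | (y, x) ∈ K} ≤ ENNReal.ofReal (11 / 20)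
  · exact hm.trans le_self_add
  push Not at hm
  have hne : {x | (y, x) ∈ K}.Nonempty := by
    by_contra h
    rw [not_nonempty_iff_eq_empty] at h
    rw [h, measure_empty] at hm
    exact absurd hm (by simp)
  obtain ⟨x1, hx1⟩ := hne
  obtain ⟨l, r, hl, hr, hlr⟩ := chord hK hx1
  have hsub : {x | (y, x) ∈ K} ⊆ Icc l r := fun x hx => hlr x hx
  have hlen : 11 / 20 * (5 / 2) ≤ r - l := by
    have e1 : ENNReal.ofReal (11 / 20) ≤ kk * 1 * volume (Icc l r) :=
      (hm.le.trans (measure_mono hsub)).trans (gauss_le (fun x _ => ee_le_one x) measurableSet_Icc)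
    have hlrle := (hlr l hl).2
    rw [mul_one, Real.volume_Icc, kk, ← ENNReal.ofReal_mul (by positivity),
      ENNReal.ofReal_le_ofReal_iff (by apply mul_nonneg (by positivity); linarith)] at e1
    have hs := sqrt_two_pi_ge
    have hspos : 0 < Real.sqrt (2 * Real.pi) := by linarith
    rw [inv_mul_eq_div, le_div_iff₀ hspos] at e1
    nlinarith
  have hy : y ∈ CL K (1 / 2) := ⟨l, hl, mem_between hKc hl hr (by linarith) (by linarith)⟩
  have h12 : (1 / 2 : ℝ≥0∞) < ENNReal.ofReal (11 / 20) := by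
    rw [show (1 / 2 : ℝ≥0∞) = ENNReal.ofReal (1 / 2) by
      rw [ENNReal.ofReal_div_of_pos (by norm_num)]; norm_num]
    exact (ENNReal.ofReal_lt_ofReal_iff (by norm_num)).mpr (by norm_num)
  have hl0 : l ≤ 0 := by
    by_contra hcon
    push Not at hcon
    have : {x | (y, x) ∈ K} ⊆ Ioi 0 := fun x hx => lt_of_lt_of_le hcon (hsub hx).1
    have := (hm.trans_le (measure_mono this)).trans_le gauss_half.1
    exact absurd this (not_lt.mpr h12.le)
  have hr0 : 0 ≤ r := by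
    by_contra hcon
    push Not at hcon
    have : {x | (y, x) ∈ K} ⊆ Iio 0 := fun x hx => lt_of_le_of_lt (hsub hx).2 hcon
    have := (hm.trans_le (measure_mono this)).trans_le gauss_half.2
    exact absurd this (not_lt.mpr h12.le)
  have hW : ee 0 ≤ WW K y := ee_le_WW (mem_between hKc hl hr hl0 hr0)
  rw [ff, indicator_of_mem hy]
  calc gaussianReal 0 1 {x | (y, x) ∈ K} ≤ 1 := prob_le_one
    _ ≤ ENNReal.ofReal (11 / 20) + ENNReal.ofReal (23 / 50) * ee 0 := by
        unfold ee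
        rw [← ENNReal.ofReal_mul (by norm_num), ← ENNReal.ofReal_add (by norm_num) (by positivity),
          ← ENNReal.ofReal_one]
        apply ENNReal.ofReal_le_ofReal
        norm_num
    _ ≤ _ := by gcongr

lemma eq_univ_or_empty_line (hv : v ≠ 0) {C : Set E} (hC : InvS (ℝ ∙ v)ᗮ C) (S : Set E) (x : E) :
    {t | SS (cb hv) ((TT (cb hv) x).1, t) ∈ S ∩ C} =
      {t | SS (cb hv) ((TT (cb hv) x).1, t) ∈ S ∧ x ∈ C} := by
  ext t
  simp only [mem_setOf_eq, mem_inter_iff, mem_line_iff hv hC]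

/-- fibre measure against long chords; `S` is `K` or `star K v` -/
theorem fib_le_long_aux (hv : v ≠ 0) (hK : IsClosed K)
    (hb : ∃ R : ℝ, ∀ x ∈ K, |⟪v, x⟫| ≤ R) {S : Set E} (hS : MeasurableSet S)
    (hline : ∀ x, gaussianReal 0 1 {t | SS (cb hv) ((TT (cb hv) x).1, t) ∈ S} ≤
      ENNReal.ofReal (11 / 20) + ENNReal.ofReal (23 / 50) * hl K v (1 / 2) x)
    {C : Set E} (hC : MeasurableSet C) (hCi : InvS (ℝ ∙ v)ᗮ C)
    {W : Submodule ℝ E} (hW : W ≤ (ℝ ∙ v)ᗮ) (x : E) :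
    fib W ((S ∩ C).indicator 1) x ≤
      ENNReal.ofReal (11 / 20) + ENNReal.ofReal (23 / 50) *
        fib W (C.indicator (hl K v (1 / 2))) x := by
  have m1 := (measurable_hl hv hK hb (1 / 2)).indicator hC
  have hSC : Measurable ((S ∩ C).indicator (1 : E → ℝ≥0∞)) := measurable_one.indicator (hS.inter hC)
  have hInv : Inv (ℝ ∙ v)ᗮ (C.indicator (hl K v (1 / 2))) := by
    intro y w hw
    by_cases hy : y ∈ C
    · rw [indicator_of_mem hy, indicator_of_mem ((hCi y w hw).mpr hy)]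
      exact inv_hl hv K _ y w hw
    · rw [indicator_of_notMem hy, indicator_of_notMem (fun h => hy ((hCi y w hw).mp h))]
  have e : fib W (fun _ : E => ENNReal.ofReal (11 / 20)) x = ENNReal.ofReal (11 / 20) :=
    fib_const W _ x
  rw [← e, ← fib_lin W measurable_const m1]
  have m2 : Measurable fun y => ENNReal.ofReal (11 / 20) +
      ENNReal.ofReal (23 / 50) * C.indicator (hl K v (1 / 2)) y :=
    measurable_const.add (m1.const_mul _)
  refine tower_le hW hSC m2 (fun y => ?_) x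
  rw [fib_lin _ measurable_const m1, fib_const, fib_eq_self hInv, fib_line_set hv (hS.inter hC),
    eq_univ_or_empty_line hv hCi]
  by_cases hy : y ∈ C
  · simp only [hy, and_true]
    rw [indicator_of_mem hy]
    exact hline y
  · simp only [hy, and_false, setOf_false, measure_empty]
    exact bot_le

theorem line_star (hv : v ≠ 0) (hv' : ‖v‖ ≤ 1 / 100) (hK : IsClosed K) (hKc : Convex ℝ K)
    (hb : ∃ R : ℝ, ∀ x ∈ K, |⟪v, x⟫| ≤ R) (x : E) :
    gaussianReal 0 1 {t | SS (cb hv) ((TT (cb hv) x).1, t) ∈ star K v} ≤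
      ENNReal.ofReal (11 / 20) + ENNReal.ofReal (23 / 50) * hl K v (1 / 2) x := by
  have := deep_line (vb_pre hv hK hb) (convex_pre hv hKc) (norm_pos_iff.mpr hv) hv'
    (TT (cb hv) x).1
  rw [bstar_pre hv] at this
  rw [hl_eq hv]
  exact this

theorem line_body (hv : v ≠ 0) (hK : IsClosed K) (hKc : Convex ℝ K)
    (hb : ∃ R : ℝ, ∀ x ∈ K, |⟪v, x⟫| ≤ R) (x : E) :
    gaussianReal 0 1 {t | SS (cb hv) ((TT (cb hv) x).1, t) ∈ K} ≤
      ENNReal.ofReal (11 / 20) + ENNReal.ofReal (23 / 50) * hl K v (1 / 2) x := by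
  rw [hl_eq hv]
  exact deep_line' (vb_pre hv hK hb) (convex_pre hv hKc) (TT (cb hv) x).1

theorem fib_star_le_long (hv : v ≠ 0) (hv' : ‖v‖ ≤ 1 / 100) (hK : IsClosed K)
    (hKc : Convex ℝ K) (hb : ∃ R : ℝ, ∀ x ∈ K, |⟪v, x⟫| ≤ R)
    {C : Set E} (hC : MeasurableSet C) (hCi : InvS (ℝ ∙ v)ᗮ C)
    {W : Submodule ℝ E} (hW : W ≤ (ℝ ∙ v)ᗮ) (x : E) :
    fib W ((star K v ∩ C).indicator 1) x ≤
      ENNReal.ofReal (11 / 20) + ENNReal.ofReal (23 / 50) *
        fib W (C.indicator (hl K v (1 / 2))) x :=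
  fib_le_long_aux hv hK hb (isClosed_star' hv hK hKc hb).measurableSet
    (line_star hv hv' hK hKc hb) hC hCi hW x

theorem fib_body_le_long (hv : v ≠ 0) (hK : IsClosed K)
    (hKc : Convex ℝ K) (hb : ∃ R : ℝ, ∀ x ∈ K, |⟪v, x⟫| ≤ R)
    {C : Set E} (hC : MeasurableSet C) (hCi : InvS (ℝ ∙ v)ᗮ C)
    {W : Submodule ℝ E} (hW : W ≤ (ℝ ∙ v)ᗮ) (x : E) :
    fib W ((K ∩ C).indicator 1) x ≤
      ENNReal.ofReal (11 / 20) + ENNReal.ofReal (23 / 50) *
        fib W (C.indicator (hl K v (1 / 2))) x :=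
  fib_le_long_aux hv hK hb hK.measurableSet (line_body hv hK hKc hb) hC hCi hW x

lemma fib_hl_le_one (hv : v ≠ 0) (K : Set E) (C : Set E) (ℓ : ℝ) (W : Submodule ℝ E) (x : E) :
    fib W (C.indicator (hl K v ℓ)) x ≤ 1 :=
  fib_le_one (fun y => (indicator_le_self' (fun _ _ => bot_le) y).trans (hl_le_one hv K ℓ y)) x

/-- pure arithmetic: `4/5` healthy gives `1/2` long, `2/3` gives `1/4` -/
lemma long_of_le {p m b : ℝ≥0∞} (hb : b ≤ 1) (hm : m ≤ 1)
    (h : p ≤ ENNReal.ofReal (11 / 20) + ENNReal.ofReal (23 / 50) * m) :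
    (ENNReal.ofReal (4 / 5) ≤ p → ENNReal.ofReal (1 / 2) * b ≤ m) ∧
    (ENNReal.ofReal (2 / 3) ≤ p → ENNReal.ofReal (1 / 4) * b ≤ m) := by
  have hmt : m ≠ ⊤ := ne_top_of_le_ne_top ENNReal.one_ne_top hm
  have key : ∀ s t : ℝ, 0 ≤ s → 0 ≤ t → t * (23 / 50) ≤ s - 11 / 20 → ENNReal.ofReal s ≤ p →
      ENNReal.ofReal t * b ≤ m := by
    intro s t hs ht hst hp
    have h4 := hp.trans h
    rw [← ENNReal.ofReal_toReal hmt, ← ENNReal.ofReal_mul (by norm_num),
      ← ENNReal.ofReal_add (by norm_num) (by positivity),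
      ENNReal.ofReal_le_ofReal_iff (by positivity)] at h4
    calc ENNReal.ofReal t * b ≤ ENNReal.ofReal t * 1 := by gcongr
      _ = ENNReal.ofReal t := mul_one _
      _ ≤ ENNReal.ofReal m.toReal := ENNReal.ofReal_le_ofReal (by linarith)
      _ = m := ENNReal.ofReal_toReal hmt
  exact ⟨key (4 / 5) (1 / 2) (by norm_num) (by norm_num) (by norm_num),
    key (2 / 3) (1 / 4) (by norm_num) (by norm_num) (by norm_num)⟩

/-- **deep lemma**: labels healthy for `star K v` inside `C` see mostly long chords -/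
theorem deep_star (hv : v ≠ 0) (hv' : ‖v‖ ≤ 1 / 100) (hK : IsClosed K)
    (hKc : Convex ℝ K) (hb : ∃ R : ℝ, ∀ x ∈ K, |⟪v, x⟫| ≤ R)
    {C : Set E} (hC : MeasurableSet C) (hCi : InvS (ℝ ∙ v)ᗮ C)
    {W : Submodule ℝ E} (hW : W ≤ (ℝ ∙ v)ᗮ) (x : E) :
    (ENNReal.ofReal (4 / 5) ≤ fib W ((star K v ∩ C).indicator 1) x →
      ENNReal.ofReal (1 / 2) * fib W (C.indicator (hl K v 0)) x ≤
        fib W (C.indicator (hl K v (1 / 2))) x) ∧
    (ENNReal.ofReal (2 / 3) ≤ fib W ((star K v ∩ C).indicator 1) x →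
      ENNReal.ofReal (1 / 4) * fib W (C.indicator (hl K v 0)) x ≤
        fib W (C.indicator (hl K v (1 / 2))) x) :=
  long_of_le (fib_hl_le_one hv K C 0 W x) (fib_hl_le_one hv K C (1 / 2) W x)
    (fib_star_le_long hv hv' hK hKc hb hC hCi hW x)

/-- the same with `K` in place of `star K v` -/
theorem deep_body (hv : v ≠ 0) (hK : IsClosed K)
    (hKc : Convex ℝ K) (hb : ∃ R : ℝ, ∀ x ∈ K, |⟪v, x⟫| ≤ R)
    {C : Set E} (hC : MeasurableSet C) (hCi : InvS (ℝ ∙ v)ᗮ C)
    {W : Submodule ℝ E} (hW : W ≤ (ℝ ∙ v)ᗮ) (x : E) :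
    (ENNReal.ofReal (4 / 5) ≤ fib W ((K ∩ C).indicator 1) x →
      ENNReal.ofReal (1 / 2) * fib W (C.indicator (hl K v 0)) x ≤
        fib W (C.indicator (hl K v (1 / 2))) x) ∧
    (ENNReal.ofReal (2 / 3) ≤ fib W ((K ∩ C).indicator 1) x →
      ENNReal.ofReal (1 / 4) * fib W (C.indicator (hl K v 0)) x ≤
        fib W (C.indicator (hl K v (1 / 2))) x) :=
  long_of_le (fib_hl_le_one hv K C 0 W x) (fib_hl_le_one hv K C (1 / 2) W x)
    (fib_body_le_long hv hK hKc hb hC hCi hW x)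

end

end Vale.Agent.P262.H44
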