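import Mathlib
import Vale.Agent.P262.H44.Body

/-!
# P262, block STAR-TREE, part 5: the nested star theorem for label-dependent flags
-/

set_option linter.all false

open MeasureTheory Set Filter ProbabilityTheory
open scoped ENNReal NNReal Topology RealInnerProductSpace

namespace Vale.Agent.P262.H44

open Vale.Agent.P262.H493 hiding fib
open Vale.Agent.P262.H395

variable {E : Type*} [NormedAddCommGroup E] [InnerProductSpace ℝ E] [FiniteDimensional ℝ E]
  [MeasurableSpace E] [BorelSpace E]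

lemma fib_zero_fun (W : Submodule ℝ E) (x : E) : fib W (0 : E → ℝ≥0∞) x = 0 := by
  unfold fib; simp

/-- pure arithmetic of the transfer -/
lemma transfer_arith {A B G0 GT G1 : ℝ≥0∞} {δ k : ℝ} (hδ : 0 < δ) (hk : 0 ≤ k)
    (hA : A ≠ ⊤) (hB : B ≠ ⊤) (h0 : G0 ≠ ⊤) (hT : GT ≠ ⊤) (h1 : G1 ≠ ⊤)
    (hloss : A + kk * ENNReal.ofReal (2 * δ) * GT ≤ kk * ENNReal.ofReal (2 * δ) * G0)
    (hgain : kk * ENNReal.ofReal δ * ENNReal.ofReal (Real.exp (-1 / 2)) * GT ≤
      B + kk * ENNReal.ofReal δ * ENNReal.ofReal (Real.exp (-1 / 2)) * G1)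
    (hmain : G0 + ENNReal.ofReal k * G1 ≤ GT + ENNReal.ofReal k * GT) :
    A ≤ ENNReal.ofReal (7 / 2 * k) * B := by
  have hktop := kk_ne_top
  have hk0 : 0 ≤ kk.toReal := ENNReal.toReal_nonneg
  have hkeq : kk = ENNReal.ofReal kk.toReal := (ENNReal.ofReal_toReal hktop).symm
  rw [← ENNReal.ofReal_toReal h0, ← ENNReal.ofReal_toReal hT, hkeq,
    ← ENNReal.ofReal_toReal hA, ← ENNReal.ofReal_mul (by positivity),
    ← ENNReal.ofReal_mul (by positivity), ← ENNReal.ofReal_mul (by positivity),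
    ← ENNReal.ofReal_add (by positivity) (by positivity),
    ENNReal.ofReal_le_ofReal_iff (by positivity)] at hloss
  rw [← ENNReal.ofReal_toReal h1, ← ENNReal.ofReal_toReal hT, hkeq,
    ← ENNReal.ofReal_toReal hB, ← ENNReal.ofReal_mul (by positivity),
    ← ENNReal.ofReal_mul (by positivity), ← ENNReal.ofReal_mul (by positivity),
    ← ENNReal.ofReal_mul (by positivity),
    ← ENNReal.ofReal_add (by positivity) (by positivity),
    ENNReal.ofReal_le_ofReal_iff (by positivity)] at hgain
  rw [← ENNReal.ofReal_toReal h0, ← ENNReal.ofReal_toReal hT,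
    ← ENNReal.ofReal_toReal h1, ← ENNReal.ofReal_mul (by positivity),
    ← ENNReal.ofReal_mul (by positivity),
    ← ENNReal.ofReal_add (by positivity) (by positivity),
    ← ENNReal.ofReal_add (by positivity) (by positivity),
    ENNReal.ofReal_le_ofReal_iff (by positivity)] at hmain
  rw [← ENNReal.ofReal_toReal hA, ← ENNReal.ofReal_toReal hB,
    ← ENNReal.ofReal_mul (by positivity)]
  apply ENNReal.ofReal_le_ofReal
  have hb0 : 0 ≤ B.toReal := ENNReal.toReal_nonneg
  set a := A.toReal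
  set b := B.toReal
  set g0 := G0.toReal
  set gT := GT.toReal
  set g1 := G1.toReal
  set κ := kk.toReal
  have s1 : a ≤ κ * (2 * δ) * (k * (gT - g1)) := by
    have : κ * (2 * δ) * (g0 - gT) ≤ κ * (2 * δ) * (k * (gT - g1)) := by
      gcongr
      linarith
    linarith
  have s2 : κ * δ * (gT - g1) ≤ Real.exp (1 / 2) * b := by
    have h1 : κ * δ * Real.exp (-1 / 2) * (gT - g1) ≤ b := by linarith
    have h2 : Real.exp (1 / 2) * Real.exp (-1 / 2) = 1 := by
      rw [← Real.exp_add]; norm_num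
    calc κ * δ * (gT - g1) = (Real.exp (1 / 2) * Real.exp (-1 / 2)) * (κ * δ * (gT - g1)) := by
          rw [h2, one_mul]
      _ = Real.exp (1 / 2) * (κ * δ * Real.exp (-1 / 2) * (gT - g1)) := by ring
      _ ≤ Real.exp (1 / 2) * b := by gcongr
  have s3 : Real.exp (1 / 2) * b ≤ 17 / 10 * b := by
    gcongr
    exact exp_half_le
  calc a ≤ κ * (2 * δ) * (k * (gT - g1)) := s1
    _ = 2 * k * (κ * δ * (gT - g1)) := by ring
    _ ≤ 2 * k * (17 / 10 * b) := mul_le_mul_of_nonneg_left (s2.trans s3) (by positivity)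
    _ ≤ 7 / 2 * k * b := by nlinarith [mul_nonneg hk hb0]

section

variable {K : Set E} {v : E}

/-- **Transfer**: the combined inequality for the line functionals on a region `N` (invariant in
the direction `v`) gives `loss ≤ C gain` on `N`, pointwise in the label `x0` of `W0`. -/
theorem transfer (hv : v ≠ 0) (hv' : ‖v‖ ≤ 1 / 8) (hK : IsClosed K)
    (hKc : Convex ℝ K) (hb : ∃ R : ℝ, ∀ x ∈ K, |⟪v, x⟫| ≤ R)
    {W0 : Submodule ℝ E} (hW : W0 ≤ (ℝ ∙ v)ᗮ) {N : Set E} (hN : MeasurableSet N)
    (hNi : InvS (ℝ ∙ v)ᗮ N) (x0 : E) {k : ℝ} (hk : 0 ≤ k)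
    (h : IneqF (ENNReal.ofReal k) (hl K v 0) (hl K v (2 * ‖v‖)) (hl K v (1 / 2)) W0 x0 N) :
    fib W0 (((K \ star K v) ∩ N).indicator 1) x0 ≤
      ENNReal.ofReal (7 / 2 * k) * fib W0 (((star K v \ K) ∩ N).indicator 1) x0 := by
  have hδ : 0 < ‖v‖ := norm_pos_iff.mpr hv
  have hVB := vb_pre hv hK hb
  have hcv := convex_pre hv hKc
  have hSc := (isClosed_star' hv hK hKc hb).measurableSet
  have hKm := hK.measurableSet
  have n0 := (measurable_hl hv hK hb 0).indicator hN
  have nT := (measurable_hl hv hK hb (2 * ‖v‖)).indicator hN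
  have n1 := (measurable_hl hv hK hb (1 / 2)).indicator hN
  have mA : Measurable (((K \ star K v) ∩ N).indicator (1 : E → ℝ≥0∞)) :=
    measurable_one.indicator ((hKm.diff hSc).inter hN)
  have mB : Measurable (((star K v \ K) ∩ N).indicator (1 : E → ℝ≥0∞)) :=
    measurable_one.indicator ((hSc.diff hKm).inter hN)
  have hI : ∀ ℓ, Inv (ℝ ∙ v)ᗮ (N.indicator (hl K v ℓ)) := by
    intro ℓ y w hw
    by_cases hy : y ∈ N
    · rw [indicator_of_mem hy, indicator_of_mem ((hNi y w hw).mpr hy)]
      exact inv_hl hv K _ y w hw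
    · rw [indicator_of_notMem hy, indicator_of_notMem (fun h => hy ((hNi y w hw).mp h))]
  have hloss : fib W0 (((K \ star K v) ∩ N).indicator 1) x0 +
      kk * ENNReal.ofReal (2 * ‖v‖) * fib W0 (N.indicator (hl K v (2 * ‖v‖))) x0 ≤
      kk * ENNReal.ofReal (2 * ‖v‖) * fib W0 (N.indicator (hl K v 0)) x0 := by
    have := tower_lin hW mA nT measurable_zero n0 (c := kk * ENNReal.ofReal (2 * ‖v‖))
      (d := kk * ENNReal.ofReal (2 * ‖v‖)) (fun y => by
        rw [fib_zero_fun, zero_add, fib_line_set hv ((hKm.diff hSc).inter hN),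
          eq_univ_or_empty_line hv hNi, fib_eq_self (hI _), fib_eq_self (hI _)]
        by_cases hy : y ∈ N
        · simp only [hy, and_true]
          rw [indicator_of_mem hy, indicator_of_mem hy, hl_eq hv, hl_eq hv]
          have hl := loss_line hVB hcv hδ (TT (cb hv) y).1
          rw [bstar_pre hv] at hl
          exact hl
        · simp only [hy, and_false, setOf_false, measure_empty]
          rw [indicator_of_notMem hy, indicator_of_notMem hy]
          simp) x0
    rwa [fib_zero_fun, zero_add] at this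
  have hgain : kk * ENNReal.ofReal ‖v‖ * ENNReal.ofReal (Real.exp (-1 / 2)) *
      fib W0 (N.indicator (hl K v (2 * ‖v‖))) x0 ≤
      fib W0 (((star K v \ K) ∩ N).indicator 1) x0 +
      kk * ENNReal.ofReal ‖v‖ * ENNReal.ofReal (Real.exp (-1 / 2)) *
        fib W0 (N.indicator (hl K v (1 / 2))) x0 := by
    have := tower_lin hW measurable_zero nT mB n1
      (c := kk * ENNReal.ofReal ‖v‖ * ENNReal.ofReal (Real.exp (-1 / 2)))
      (d := kk * ENNReal.ofReal ‖v‖ * ENNReal.ofReal (Real.exp (-1 / 2))) (fun y => by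
        rw [fib_zero_fun, zero_add, fib_line_set hv ((hSc.diff hKm).inter hN),
          eq_univ_or_empty_line hv hNi, fib_eq_self (hI _), fib_eq_self (hI _)]
        by_cases hy : y ∈ N
        · simp only [hy, and_true]
          rw [indicator_of_mem hy, indicator_of_mem hy, hl_eq hv, hl_eq hv]
          have hl := gain_line hVB hcv hδ (by linarith) (TT (cb hv) y).1
          rw [bstar_pre hv] at hl
          exact hl
        · simp only [hy, and_false, setOf_false, measure_empty]
          rw [indicator_of_notMem hy, indicator_of_notMem hy]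
          simp) x0
    rwa [fib_zero_fun, zero_add] at this
  have hfin : ∀ ℓ, fib W0 (N.indicator (hl K v ℓ)) x0 ≠ ⊤ := fun ℓ =>
    ne_top_of_le_ne_top ENNReal.one_ne_top (fib_hl_le_one hv K N ℓ W0 x0)
  have hfin1 : ∀ S : Set E, fib W0 (S.indicator 1) x0 ≠ ⊤ := fun S =>
    ne_top_of_le_ne_top ENNReal.one_ne_top (fib_le_one (fun y =>
      indicator_le_self' (fun _ _ => bot_le) y) x0)
  exact transfer_arith hδ hk (hfin1 _) (hfin1 _) (hfin _) (hfin _) (hfin _) hloss hgain h

namespace STree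

/-- all label spaces are contained in `H` -/
def Below (H : Submodule ℝ E) : STree E → Prop
  | leaf => True
  | node W D cls sub => W ≤ H ∧ ∀ n, Below H (sub n)

lemma inv_reg {H : Submodule ℝ E} : ∀ (T : STree E) {W0 : Submodule ℝ E}, T.Valid W0 →
    T.Below H → InvS H T.reg := by
  intro T
  induction T with
  | leaf => intro _ _ _ x w _; exact Iff.rfl
  | node W D cls sub ih =>
    intro W0 hV hB x w hw
    obtain ⟨hW, hD, hDi, hc, hci, hs⟩ := hV
    have hw' : w ∈ Wᗮ := Submodule.orthogonal_le hB.1 hw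
    have i1 := ih (cls x) (hs _) (hB.2 _) x w hw
    simp only [reg, mem_setOf_eq]
    rw [hci x w hw', hDi x w hw', i1]

/-- all stopped labels are healthy for the body `S` -/
def Healthy (S : Set E) : STree E → Prop
  | leaf => True
  | node W D cls sub => (∀ x ∈ D, ENNReal.ofReal (4 / 5) ≤ fib W (S.indicator 1) x) ∧
      ∀ n, Healthy S (sub n)

end STree

lemma deep_of_healthy (hv : v ≠ 0) (hv' : ‖v‖ ≤ 1 / 100) (hK : IsClosed K)
    (hKc : Convex ℝ K) (hb : ∃ R : ℝ, ∀ x ∈ K, |⟪v, x⟫| ≤ R) : ∀ (T : STree E),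
    T.Below (ℝ ∙ v)ᗮ → T.Healthy (star K v) → T.Deep (hl K v 0) (hl K v (1 / 2)) := by
  intro T
  induction T with
  | leaf => intro _ _; trivial
  | node W D cls sub ih =>
    intro hB hH
    refine ⟨fun x hx => ?_, fun n => ih n (hB.2 n) (hH.2 n)⟩
    have := (deep_star hv hv' hK hKc hb MeasurableSet.univ (fun _ _ _ => Iff.rfl) hB.1 x).1
    rw [inter_univ, indicator_univ, indicator_univ] at this
    exact this (hH.1 x hx)

/-- **Nested star theorem for label-dependent flags.** `K` closed convex, bounded in the direction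
`v`, `T` a tree of labels orthogonal to `v` with arbitrary measurable sets of stopped labels,
all of them healthy for `star K v`. At every label `x0` of `W0` which is healthy (`≥ 2/3`), the loss
in the visible region is at most `10^4 ‖v‖` times the gain in the visible region. -/
theorem star_tree (hv : v ≠ 0) (hv' : ‖v‖ ≤ 1 / 3000) (hK : IsClosed K)
    (hKc : Convex ℝ K) (hb : ∃ R : ℝ, ∀ x ∈ K, |⟪v, x⟫| ≤ R)
    {W0 : Submodule ℝ E} (hW : W0 ≤ (ℝ ∙ v)ᗮ) {T : STree E} (hV : T.Valid W0)
    (hB : T.Below (ℝ ∙ v)ᗮ) (hH : T.Healthy (star K v)) (x0 : E)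
    (hroot : ENNReal.ofReal (2 / 3) ≤ fib W0 ((star K v).indicator 1) x0) :
    fib W0 (((K \ star K v) ∩ T.reg).indicator 1) x0 ≤
      ENNReal.ofReal (10000 * ‖v‖) * fib W0 (((star K v \ K) ∩ T.reg).indicator 1) x0 := by
  have hδ : 0 < ‖v‖ := norm_pos_iff.mpr hv
  have hreg := regG_body hv (by linarith) hK hKc hb
  have hroot' := (deep_star hv (by linarith) hK hKc hb MeasurableSet.univ (fun _ _ _ => Iff.rfl)
    hW x0).2
  rw [inter_univ, indicator_univ, indicator_univ] at hroot'
  have key := hreg.star_tree (by positivity) (by linarith) hV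
    (deep_of_healthy hv (by linarith) hK hKc hb T hB hH) x0 (hroot' hroot)
  have := transfer hv (by linarith) hK hKc hb hW (STree.measurableSet_reg T hV)
    (STree.inv_reg T hV hB) x0 (k := 704 * (4 * ‖v‖)) (by positivity) key
  exact this.trans (mul_le_mul' (ENNReal.ofReal_le_ofReal (by linarith)) le_rfl)

/-! ### only reachable labels matter -/

namespace STree

/-- all stopped labels which are reachable (`B` = set of reachable points) are healthy -/
def HealthyOn (S : Set E) : STree E → Set E → Prop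
  | leaf, _ => True
  | node W D cls sub, B => (∀ x ∈ D, x ∈ B → ENNReal.ofReal (4 / 5) ≤ fib W (S.indicator 1) x) ∧
      ∀ n, HealthyOn S (sub n) ((B \ D) ∩ cls ⁻¹' {n})

/-- restrict all stopped sets to the reachable labels -/
def cut : STree E → Set E → STree E
  | leaf, _ => leaf
  | node W D cls sub, B => node W (D ∩ B) cls fun n => (sub n).cut ((B \ D) ∩ cls ⁻¹' {n})

lemma mem_reg_cut : ∀ (T : STree E) (B : Set E) (x : E), x ∈ B →
    (x ∈ (T.cut B).reg ↔ x ∈ T.reg) := by
  intro T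
  induction T with
  | leaf => intro _ _ _; exact Iff.rfl
  | node W D cls sub ih =>
    intro B x hx
    simp only [cut, reg, mem_setOf_eq, mem_inter_iff, hx, and_true]
    constructor
    · rintro ⟨h1, h2⟩
      exact ⟨h1, (ih (cls x) ((B \ D) ∩ cls ⁻¹' {cls x}) x ⟨⟨hx, h1⟩, rfl⟩).mp h2⟩
    · rintro ⟨h1, h2⟩
      exact ⟨h1, (ih (cls x) ((B \ D) ∩ cls ⁻¹' {cls x}) x ⟨⟨hx, h1⟩, rfl⟩).mpr h2⟩

lemma reg_cut (T : STree E) : (T.cut univ).reg = T.reg := by
  ext x
  exact mem_reg_cut T univ x trivial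

lemma valid_cut : ∀ (T : STree E) (B : Set E) {W0 : Submodule ℝ E}, MeasurableSet B → InvS W0 B →
    T.Valid W0 → (T.cut B).Valid W0 := by
  intro T
  induction T with
  | leaf => intro _ _ _ _ _; trivial
  | node W D cls sub ih =>
    intro B W0 hBm hBi hV
    obtain ⟨hW, hD, hDi, hc, hci, hs⟩ := hV
    have hBi' : InvS W B := hBi.mono hW
    refine ⟨hW, hD.inter hBm, fun x w hw => and_congr (hDi x w hw) (hBi' x w hw), hc, hci,
      fun n => ih n _ ((hBm.diff hD).inter (hc (measurableSet_singleton n))) ?_ (hs n)⟩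
    intro x w hw
    simp only [mem_inter_iff, mem_diff, mem_preimage, mem_singleton_iff]
    rw [hDi x w hw, hBi' x w hw, hci x w hw]

lemma below_cut {H : Submodule ℝ E} : ∀ (T : STree E) (B : Set E), T.Below H →
    (T.cut B).Below H := by
  intro T
  induction T with
  | leaf => intro _ _; trivial
  | node W D cls sub ih => intro B h; exact ⟨h.1, fun n => ih n _ (h.2 n)⟩

lemma healthy_cut {S : Set E} : ∀ (T : STree E) (B : Set E), T.HealthyOn S B →
    (T.cut B).Healthy S := by
  intro T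
  induction T with
  | leaf => intro _ _; trivial
  | node W D cls sub ih =>
    intro B h
    exact ⟨fun x hx => h.1 x hx.1 hx.2, fun n => ih n _ (h.2 n)⟩

end STree

/-- the nested star theorem, health required only at reachable stopped labels -/
theorem star_tree_on (hv : v ≠ 0) (hv' : ‖v‖ ≤ 1 / 3000) (hK : IsClosed K)
    (hKc : Convex ℝ K) (hb : ∃ R : ℝ, ∀ x ∈ K, |⟪v, x⟫| ≤ R)
    {W0 : Submodule ℝ E} (hW : W0 ≤ (ℝ ∙ v)ᗮ) {T : STree E} (hV : T.Valid W0)
    (hB : T.Below (ℝ ∙ v)ᗮ) (hH : T.HealthyOn (star K v) univ) (x0 : E)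
    (hroot : ENNReal.ofReal (2 / 3) ≤ fib W0 ((star K v).indicator 1) x0) :
    fib W0 (((K \ star K v) ∩ T.reg).indicator 1) x0 ≤
      ENNReal.ofReal (10000 * ‖v‖) * fib W0 (((star K v \ K) ∩ T.reg).indicator 1) x0 := by
  have := star_tree hv hv' hK hKc hb hW
    (STree.valid_cut T univ MeasurableSet.univ (fun _ _ _ => Iff.rfl) hV)
    (STree.below_cut T univ hB) (STree.healthy_cut T univ hH) x0 hroot
  rwa [STree.reg_cut] at this

/-- global form -/
theorem star_tree_global (hv : v ≠ 0) (hv' : ‖v‖ ≤ 1 / 3000) (hK : IsClosed K)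
    (hKc : Convex ℝ K) (hb : ∃ R : ℝ, ∀ x ∈ K, |⟪v, x⟫| ≤ R) {T : STree E} (hV : T.Valid ⊥)
    (hB : T.Below (ℝ ∙ v)ᗮ) (hH : T.HealthyOn (star K v) univ)
    (hroot : ENNReal.ofReal (2 / 3) ≤ stdGaussian E (star K v)) :
    stdGaussian E ((K \ star K v) ∩ T.reg) ≤
      ENNReal.ofReal (10000 * ‖v‖) * stdGaussian E ((star K v \ K) ∩ T.reg) := by
  have hKm := hK.measurableSet
  have hSm := (isClosed_star' hv hK hKc hb).measurableSet
  have hTm := STree.measurableSet_reg T hV
  have key := star_tree_on hv hv' hK hKc hb bot_le hV hB hH 0 (by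
    rw [fib_bot, lintegral_indicator_one hSm]; exact hroot)
  rw [fib_bot, fib_bot, lintegral_indicator_one ((hKm.diff hSm).inter hTm),
    lintegral_indicator_one ((hSm.diff hKm).inter hTm)] at key
  exact key

end

end Vale.Agent.P262.H44
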