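import Mathlib
import Vale.Agent.P262.H44.Tree

/-!
# P262, block STAR-TREE, part 6: tilted triples

`h_i = e^{c|x|^2} *` (log-concave), `0 ≤ c < 1/2`. All fibre averages are with respect to the
untilted standard Gaussian measure.
-/

set_option linter.all false

open MeasureTheory Set Filter ProbabilityTheory
open scoped ENNReal NNReal Topology RealInnerProductSpace

namespace Vale.Agent.P262.H44

open Vale.Agent.P262.H493 hiding fib
open Vale.Agent.P262.H395

variable {E : Type*} [NormedAddCommGroup E] [InnerProductSpace ℝ E] [FiniteDimensional ℝ E]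
  [MeasurableSpace E] [BorelSpace E]

/-- inverse of the tilt -/
noncomputable def ec (c : ℝ) (x : E) : ℝ≥0∞ := ENNReal.ofReal (Real.exp (-(c * ‖x‖ ^ 2)))

lemma ec_ne_top (c : ℝ) (x : E) : ec c x ≠ ⊤ := ENNReal.ofReal_ne_top

lemma ec_ne_zero (c : ℝ) (x : E) : ec c x ≠ 0 := by
  unfold ec
  simp [Real.exp_pos]

lemma continuous_ec (c : ℝ) : Continuous (ec (E := E) c) := by
  unfold ec
  exact ENNReal.continuous_ofReal.comp (by fun_prop)

/-- multiplication by a bounded log-concave usc function -/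
theorem RegG.mul {Θ : ℝ} (hΘ : 0 < Θ) (hΘ1 : Θ < 1) {h0 hT h1 w : E → ℝ≥0∞}
    (h : RegG Θ h0 hT h1) (hwm : Measurable w) (hw : LogConc w) (hwu : UpperSemicontinuous w)
    (hwb : ∃ M : ℝ≥0∞, M ≠ ⊤ ∧ ∀ x, w x ≤ M) :
    RegG Θ (fun x => w x * h0 x) (fun x => w x * hT x) (fun x => w x * h1 x) where
  m0 := hwm.mul h.m0
  mT := hwm.mul h.mT
  m1 := hwm.mul h.m1
  le1 := fun x => mul_le_mul' le_rfl (h.le1 x)
  leT := fun x => mul_le_mul' le_rfl (h.leT x)
  lc := by
    intro x y s t hs ht hst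
    show (w x * h0 x) ^ s * (w y * h0 y) ^ t ≤ w (s • x + t • y) * h0 (s • x + t • y)
    rw [ENNReal.mul_rpow_of_nonneg _ _ hs.le, ENNReal.mul_rpow_of_nonneg _ _ ht.le]
    calc w x ^ s * h0 x ^ s * (w y ^ t * h0 y ^ t)
        = (w x ^ s * w y ^ t) * (h0 x ^ s * h0 y ^ t) := by ring
      _ ≤ _ := mul_le_mul' (hw x y s t hs ht hst) (h.lc x y s t hs ht hst)
  mix := by
    intro x y
    have h1Θ : 0 < 1 - Θ := by linarith
    show (w x * h0 x) ^ (1 - Θ) * (w y * h1 y) ^ Θ ≤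
      w ((1 - Θ) • x + Θ • y) * hT ((1 - Θ) • x + Θ • y)
    rw [ENNReal.mul_rpow_of_nonneg _ _ h1Θ.le, ENNReal.mul_rpow_of_nonneg _ _ hΘ.le]
    calc w x ^ (1 - Θ) * h0 x ^ (1 - Θ) * (w y ^ Θ * h1 y ^ Θ)
        = (w x ^ (1 - Θ) * w y ^ Θ) * (h0 x ^ (1 - Θ) * h1 y ^ Θ) := by ring
      _ ≤ _ := mul_le_mul' (hw x y _ _ h1Θ hΘ (by ring)) (h.mix x y)
  usc := by
    obtain ⟨M, hM, hb⟩ := h.bdd
    obtain ⟨M', hM', hb'⟩ := hwb
    exact usc_mul' hwu (fun x => ne_top_of_le_ne_top hM' (hb' x)) h.usc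
      (fun x => ne_top_of_le_ne_top hM ((h.le1 x).trans ((h.leT x).trans (hb x))))
  bdd := by
    obtain ⟨M, hM, hb⟩ := h.bdd
    obtain ⟨M', hM', hb'⟩ := hwb
    exact ⟨M' * M, ENNReal.mul_ne_top hM' hM, fun x => mul_le_mul' (hb' x) (hb x)⟩

/-- `h0, hT, h1` are `e^{c|x|^2}` times a regular triple -/
structure RegC (c Θ : ℝ) (h0 hT h1 : E → ℝ≥0∞) : Prop where
  reg : RegG Θ (fun x => ec c x * h0 x) (fun x => ec c x * hT x) (fun x => ec c x * h1 x)

section

variable {c Θ : ℝ} {h0 hT h1 : E → ℝ≥0∞}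

lemma ec_cancel (c : ℝ) (h : E → ℝ≥0∞) : h = fun x => (ec c x)⁻¹ * (ec c x * h x) := by
  funext x
  rw [← mul_assoc, ENNReal.inv_mul_cancel (ec_ne_zero c x) (ec_ne_top c x), one_mul]

lemma measurable_of_ec {h : E → ℝ≥0∞} (hm : Measurable fun x => ec c x * h x) : Measurable h := by
  rw [ec_cancel c h]
  exact (continuous_ec c).measurable.inv.mul hm

lemma le_of_ec {h h' : E → ℝ≥0∞} {x : E} (hx : ec c x * h x ≤ ec c x * h' x) : h x ≤ h' x :=
  (ENNReal.mul_le_mul_iff_right (ec_ne_zero c x) (ec_ne_top c x)).mp hx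

lemma RegC.m0 (h : RegC c Θ h0 hT h1) : Measurable h0 := measurable_of_ec h.reg.m0
lemma RegC.mT (h : RegC c Θ h0 hT h1) : Measurable hT := measurable_of_ec h.reg.mT
lemma RegC.m1 (h : RegC c Θ h0 hT h1) : Measurable h1 := measurable_of_ec h.reg.m1
lemma RegC.le1 (h : RegC c Θ h0 hT h1) (x : E) : h1 x ≤ hT x := le_of_ec (h.reg.le1 x)
lemma RegC.leT (h : RegC c Θ h0 hT h1) (x : E) : hT x ≤ h0 x := le_of_ec (h.reg.leT x)

theorem RegG.toRegC (h : RegG Θ h0 hT h1) : RegC 0 Θ h0 hT h1 := by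
  refine ⟨?_⟩
  have e : ∀ x : E, ec 0 x = 1 := by
    intro x; simp [ec]
  simp only [e, one_mul]
  exact h

theorem RegC.indicator (hΘ : 0 < Θ) (hΘ1 : Θ < 1) (h : RegC c Θ h0 hT h1) {C : Set E}
    (hC : IsClosed C) (hCc : Convex ℝ C) :
    RegC c Θ (C.indicator h0) (C.indicator hT) (C.indicator h1) := by
  have e : ∀ h : E → ℝ≥0∞, (fun x => ec c x * C.indicator h x) =
      C.indicator (fun x => ec c x * h x) := by
    intro h
    funext x
    by_cases hx : x ∈ C
    · rw [indicator_of_mem hx, indicator_of_mem hx]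
    · rw [indicator_of_notMem hx, indicator_of_notMem hx, mul_zero]
  refine ⟨?_⟩
  rw [e h0, e hT, e h1]
  exact h.reg.indicator hΘ hΘ1 hC hCc

theorem RegC.mul (hΘ : 0 < Θ) (hΘ1 : Θ < 1) {w : E → ℝ≥0∞}
    (h : RegC c Θ h0 hT h1) (hwm : Measurable w) (hw : LogConc w) (hwu : UpperSemicontinuous w)
    (hwb : ∃ M : ℝ≥0∞, M ≠ ⊤ ∧ ∀ x, w x ≤ M) :
    RegC c Θ (fun x => w x * h0 x) (fun x => w x * hT x) (fun x => w x * h1 x) := by
  refine ⟨?_⟩
  have := h.reg.mul hΘ hΘ1 hwm hw hwu hwb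
  simpa only [mul_left_comm] using this

lemma exp_quad_lc (a : ℝ) (ha : 0 ≤ a) (x y s t : ℝ) (hs : 0 < s) (ht : 0 < t) (hst : s + t = 1) :
    ENNReal.ofReal (Real.exp (-(a * x ^ 2))) ^ s * ENNReal.ofReal (Real.exp (-(a * y ^ 2))) ^ t ≤
      ENNReal.ofReal (Real.exp (-(a * (s * x + t * y) ^ 2))) := by
  rw [ENNReal.ofReal_rpow_of_pos (Real.exp_pos _), ENNReal.ofReal_rpow_of_pos (Real.exp_pos _),
    ← ENNReal.ofReal_mul (by positivity)]
  apply ENNReal.ofReal_le_ofReal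
  rw [← Real.exp_mul, ← Real.exp_mul, ← Real.exp_add]
  apply Real.exp_le_exp.mpr
  have ht' : t = 1 - s := by linarith
  subst ht'
  have : 0 ≤ a * (s * (1 - s) * (x - y) ^ 2) := by positivity
  nlinarith

/-- the tilted one-dimensional density -/
noncomputable def gt (c : ℝ) (s : ℝ) : ℝ≥0∞ :=
  ENNReal.ofReal ((Real.sqrt (2 * Real.pi))⁻¹) * ENNReal.ofReal (Real.exp (-((1 / 2 - c) * s ^ 2)))

lemma continuous_gt (c : ℝ) : Continuous (gt c) := by
  have e : gt c = fun s => ENNReal.ofReal ((Real.sqrt (2 * Real.pi))⁻¹ *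
      Real.exp (-((1 / 2 - c) * s ^ 2))) := by
    funext s
    unfold gt
    rw [ENNReal.ofReal_mul (by positivity)]
  rw [e]
  exact ENNReal.continuous_ofReal.comp (by fun_prop)

lemma gt_eq (c s : ℝ) : gt c s = gaussianPDF 0 1 s * ENNReal.ofReal (Real.exp (c * s ^ 2)) := by
  unfold gt
  rw [gpdf_eq, ee, mul_assoc]
  congr 1
  rw [← ENNReal.ofReal_mul (Real.exp_pos _).le, ← Real.exp_add]
  congr 2
  ring

lemma gt_lc (hc : c < 1 / 2) (a b s t : ℝ) (hs : 0 < s) (ht : 0 < t) (hst : s + t = 1) :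
    gt c a ^ s * gt c b ^ t ≤ gt c (s * a + t * b) := by
  unfold gt
  rw [ENNReal.mul_rpow_of_nonneg _ _ hs.le, ENNReal.mul_rpow_of_nonneg _ _ ht.le]
  set k := ENNReal.ofReal ((Real.sqrt (2 * Real.pi))⁻¹)
  calc k ^ s * ENNReal.ofReal (Real.exp (-((1 / 2 - c) * a ^ 2))) ^ s *
        (k ^ t * ENNReal.ofReal (Real.exp (-((1 / 2 - c) * b ^ 2))) ^ t)
      = (k ^ s * k ^ t) * (ENNReal.ofReal (Real.exp (-((1 / 2 - c) * a ^ 2))) ^ s *
        ENNReal.ofReal (Real.exp (-((1 / 2 - c) * b ^ 2))) ^ t) := by ring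
    _ ≤ _ := by
      rw [rpow_mul_rpow_self hs ht hst]
      gcongr
      exact exp_quad_lc _ (by linarith) a b s t hs ht hst

lemma lintegral_gt (hc : c < 1 / 2) : ∫⁻ s, gt c s ≠ ⊤ := by
  unfold gt
  rw [lintegral_const_mul' _ _ ENNReal.ofReal_ne_top]
  refine ENNReal.mul_ne_top ENNReal.ofReal_ne_top ?_
  have h1 : Integrable fun s : ℝ => Real.exp (-((1 / 2 - c) * s ^ 2)) := by
    have h2 := integrable_exp_neg_mul_sq (b := 1 / 2 - c) (by linarith)
    have e : (fun s : ℝ => Real.exp (-((1 / 2 - c) * s ^ 2))) =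
        fun s : ℝ => Real.exp (-(1 / 2 - c) * s ^ 2) := by
      funext s; congr 1; ring
    rw [e]
    exact h2
  exact (h1.lintegral_lt_top).ne

lemma gt_le (hc : c < 1 / 2) (s : ℝ) : gt c s ≤ ENNReal.ofReal ((Real.sqrt (2 * Real.pi))⁻¹) := by
  unfold gt
  calc _ ≤ ENNReal.ofReal ((Real.sqrt (2 * Real.pi))⁻¹) * 1 := by
        gcongr
        rw [ENNReal.ofReal_le_one, Real.exp_le_one_iff]
        have : 0 ≤ (1 / 2 - c) * s ^ 2 := mul_nonneg (by linarith) (sq_nonneg s)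
        linarith
    _ = _ := mul_one _

/-- product density -/
noncomputable def PT {N : ℕ} (c : ℝ) (y : Fin N → ℝ) : ℝ≥0∞ := ∏ i, gt c (y i)

lemma norm_SC_sq {N : ℕ} (b : OrthonormalBasis (Fin N) ℝ E) (y : Fin N → ℝ) :
    ‖SC b y‖ ^ 2 = ∑ i, y i ^ 2 := by
  have h : b.repr (SC b y) = WithLp.toLp 2 y := by
    unfold SC
    have := b.sum_repr_symm (WithLp.toLp 2 y)
    rw [show (∑ j, y j • b j) = ∑ i, (WithLp.toLp 2 y : EuclideanSpace ℝ (Fin N)) i • b i from rfl,
      this, LinearIsometryEquiv.apply_symm_apply]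
  rw [← LinearIsometryEquiv.norm_map b.repr, h, EuclideanSpace.norm_sq_eq]
  simp

lemma PP_eq_PT {N : ℕ} (b : OrthonormalBasis (Fin N) ℝ E) (c : ℝ) (y : Fin N → ℝ) (h : E → ℝ≥0∞) :
    PP y * h (SC b y) = PT c y * (ec c (SC b y) * h (SC b y)) := by
  have e1 : PT c y * ec c (SC b y) = PP y := by
    unfold PT ec
    rw [norm_SC_sq, PP_eq]
    simp only [gt_eq, Finset.prod_mul_distrib]
    rw [mul_assoc, ← ENNReal.ofReal_prod_of_nonneg (fun i _ => (Real.exp_pos _).le),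
      ← Real.exp_sum, ← ENNReal.ofReal_mul (Real.exp_pos _).le, ← Real.exp_add,
      ← Finset.mul_sum]
    simp
  rw [← mul_assoc, e1]

lemma continuous_PT {N : ℕ} (hc : c < 1 / 2) : Continuous (PT (N := N) c) := by
  have e : PT (N := N) c = fun y => ENNReal.ofReal (∏ i, ((Real.sqrt (2 * Real.pi))⁻¹ *
      Real.exp (-((1 / 2 - c) * (y i) ^ 2)))) := by
    funext y
    unfold PT gt
    rw [ENNReal.ofReal_prod_of_nonneg (fun i _ => by positivity)]
    refine Finset.prod_congr rfl fun i _ => ?_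
    rw [ENNReal.ofReal_mul (by positivity)]
  rw [e]
  exact ENNReal.continuous_ofReal.comp (by fun_prop)

lemma PT_ne_top {N : ℕ} (hc : c < 1 / 2) (y : Fin N → ℝ) : PT c y ≠ ⊤ := by
  unfold PT
  exact (ENNReal.prod_lt_top fun i _ =>
    lt_of_le_of_lt (gt_le hc _) ENNReal.ofReal_lt_top).ne

lemma PT_lc {N : ℕ} (hc : c < 1 / 2) : LogConc (PT (N := N) c) := by
  intro x y s t hs ht hst
  unfold PT
  rw [← ENNReal.prod_rpow_of_nonneg hs.le, ← ENNReal.prod_rpow_of_nonneg ht.le,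
    ← Finset.prod_mul_distrib]
  refine Finset.prod_le_prod' fun i _ => ?_
  exact gt_lc hc (x i) (y i) s t hs ht hst

/-- coordinate form of a tilted regular triple -/
theorem RegC.coord (hc : c < 1 / 2) (hΘ : 0 < Θ) (hΘ1 : Θ < 1)
    (h : RegC c Θ h0 hT h1) (N : ℕ) (b : OrthonormalBasis (Fin N) ℝ E) :
    Reg Θ (fun y => PP y * h0 (SC b y)) (fun y => PP y * hT (SC b y))
      (fun y => PP y * h1 (SC b y)) := by
  simp only [PP_eq_PT b c]
  have hS : Measurable (SC b) := (continuous_SC b).measurable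
  have hPm : Measurable (PT (N := N) c) := (continuous_PT hc).measurable
  exact
  { m0 := hPm.mul (h.reg.m0.comp hS)
    mT := hPm.mul (h.reg.mT.comp hS)
    m1 := hPm.mul (h.reg.m1.comp hS)
    le1 := fun y => mul_le_mul' le_rfl (h.reg.le1 _)
    leT := fun y => mul_le_mul' le_rfl (h.reg.leT _)
    lc := by
      intro x y s t hs ht hst
      have i1 := PT_lc hc x y s t hs ht hst
      have i2 := h.reg.lc (SC b x) (SC b y) s t hs ht hst
      try simp only at i2 ⊢
      rw [SC_lin, ENNReal.mul_rpow_of_nonneg _ _ hs.le, ENNReal.mul_rpow_of_nonneg (PT c y) _ ht.le]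
      calc PT c x ^ s * (ec c (SC b x) * h0 (SC b x)) ^ s *
            (PT c y ^ t * (ec c (SC b y) * h0 (SC b y)) ^ t)
          = (PT c x ^ s * PT c y ^ t) * ((ec c (SC b x) * h0 (SC b x)) ^ s *
            (ec c (SC b y) * h0 (SC b y)) ^ t) := by ring
        _ ≤ _ := mul_le_mul' i1 i2
    mix := by
      intro x y
      have h1Θ : 0 < 1 - Θ := by linarith
      have i1 := PT_lc hc x y _ _ h1Θ hΘ (by ring)
      have i2 := h.reg.mix (SC b x) (SC b y)
      try simp only at i2 ⊢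
      rw [SC_lin, ENNReal.mul_rpow_of_nonneg _ _ h1Θ.le, ENNReal.mul_rpow_of_nonneg (PT c y) _ hΘ.le]
      calc PT c x ^ (1 - Θ) * (ec c (SC b x) * h0 (SC b x)) ^ (1 - Θ) *
            (PT c y ^ Θ * (ec c (SC b y) * h1 (SC b y)) ^ Θ)
          = (PT c x ^ (1 - Θ) * PT c y ^ Θ) * ((ec c (SC b x) * h0 (SC b x)) ^ (1 - Θ) *
            (ec c (SC b y) * h1 (SC b y)) ^ Θ) := by ring
        _ ≤ _ := mul_le_mul' i1 i2
    usc := by
      obtain ⟨M, hM, hb⟩ := h.reg.bdd
      refine usc_mul (continuous_PT hc) (fun y => PT_ne_top hc y)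
        (usc_comp h.reg.usc (continuous_SC b)) fun y => ?_
      exact ne_top_of_le_ne_top hM ((h.reg.le1 _).trans ((h.reg.leT _).trans (hb _)))
    dom := by
      obtain ⟨M, hM, hb⟩ := h.reg.bdd
      refine ⟨M, ENNReal.ofReal ((Real.sqrt (2 * Real.pi))⁻¹), gt c, hM,
        ENNReal.ofReal_ne_top, (continuous_gt c).measurable, fun s => gt_le hc s,
        lintegral_gt hc, fun y => ?_⟩
      show PT c y * _ ≤ M * PT c y
      rw [mul_comm M]
      gcongr
      exact hb _ }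

/-- restriction to a fibre -/
theorem RegC.comp_mix (hc0 : 0 ≤ c) (hΘ : 0 < Θ) (hΘ1 : Θ < 1) (h : RegC c Θ h0 hT h1)
    (W : Submodule ℝ E) (x : E) :
    RegC c Θ (fun z => h0 (Vale.Agent.P262.H395.mix W x z))
      (fun z => hT (Vale.Agent.P262.H395.mix W x z))
      (fun z => h1 (Vale.Agent.P262.H395.mix W x z)) := by
  refine ⟨?_⟩
  set A := ENNReal.ofReal (Real.exp (c * ‖W.starProjection x‖ ^ 2)) with hA
  set F : E → ℝ≥0∞ := fun z => A * ENNReal.ofReal (Real.exp (-(c * ‖W.starProjection z‖ ^ 2)))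
    with hF
  have key : ∀ z, ec c z = F z * ec c (Vale.Agent.P262.H395.mix W x z) := by
    intro z
    simp only [hF, hA, ec]
    rw [← ENNReal.ofReal_mul (Real.exp_pos _).le, ← Real.exp_add,
      ← ENNReal.ofReal_mul (Real.exp_pos _).le, ← Real.exp_add]
    congr 2
    have e1 : ‖Vale.Agent.P262.H395.mix W x z‖ ^ 2 =
        ‖W.starProjection x‖ ^ 2 + ‖z - W.starProjection z‖ ^ 2 := by
      unfold Vale.Agent.P262.H395.mix
      have h0 : ⟪W.starProjection x, z - W.starProjection z⟫ = 0 := by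
        rw [real_inner_comm]
        exact (Submodule.mem_orthogonal' W _).mp (Submodule.sub_starProjection_mem_orthogonal z) _
          (Submodule.starProjection_apply_mem W x)
      rw [norm_add_sq_real, h0]
      ring
    have e2 : ‖z‖ ^ 2 = ‖W.starProjection z‖ ^ 2 + ‖z - W.starProjection z‖ ^ 2 := by
      have h0 : ⟪W.starProjection z, z - W.starProjection z⟫ = 0 := by
        rw [real_inner_comm]
        exact (Submodule.mem_orthogonal' W _).mp (Submodule.sub_starProjection_mem_orthogonal z) _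
          (Submodule.starProjection_apply_mem W z)
      have h1 := norm_add_sq_real (W.starProjection z) (z - W.starProjection z)
      rw [h0, add_sub_cancel] at h1
      rw [h1]; ring
    rw [e1, e2]
    ring
  have hFc : Continuous F := by
    have : F = fun z => ENNReal.ofReal (Real.exp (c * ‖W.starProjection x‖ ^ 2) *
        Real.exp (-(c * ‖W.starProjection z‖ ^ 2))) := by
      funext z
      simp only [hF, hA]
      rw [ENNReal.ofReal_mul (Real.exp_pos _).le]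
    rw [this]
    exact ENNReal.continuous_ofReal.comp (by fun_prop)
  have hFl : LogConc F := by
    intro y z s t hs ht hst
    simp only [hF]
    rw [ENNReal.mul_rpow_of_nonneg _ _ hs.le, ENNReal.mul_rpow_of_nonneg _ _ ht.le]
    have i1 : ENNReal.ofReal (Real.exp (-(c * ‖W.starProjection y‖ ^ 2))) ^ s *
        ENNReal.ofReal (Real.exp (-(c * ‖W.starProjection z‖ ^ 2))) ^ t ≤
        ENNReal.ofReal (Real.exp (-(c * ‖W.starProjection (s • y + t • z)‖ ^ 2))) := by
      refine (exp_quad_lc c hc0 ‖W.starProjection y‖ ‖W.starProjection z‖ s t hs ht hst).trans ?_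
      apply ENNReal.ofReal_le_ofReal
      apply Real.exp_le_exp.mpr
      have i2 : ‖W.starProjection (s • y + t • z)‖ ≤
          s * ‖W.starProjection y‖ + t * ‖W.starProjection z‖ := by
        rw [map_add, map_smul, map_smul]
        refine (norm_add_le _ _).trans ?_
        rw [norm_smul, norm_smul, Real.norm_of_nonneg hs.le, Real.norm_of_nonneg ht.le]
      have i3 := pow_le_pow_left₀ (norm_nonneg _) i2 2
      nlinarith
    calc A ^ s * ENNReal.ofReal (Real.exp (-(c * ‖W.starProjection y‖ ^ 2))) ^ s *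
          (A ^ t * ENNReal.ofReal (Real.exp (-(c * ‖W.starProjection z‖ ^ 2))) ^ t)
        = (A ^ s * A ^ t) * (ENNReal.ofReal (Real.exp (-(c * ‖W.starProjection y‖ ^ 2))) ^ s *
          ENNReal.ofReal (Real.exp (-(c * ‖W.starProjection z‖ ^ 2))) ^ t) := by ring
      _ ≤ _ := by
        rw [rpow_mul_rpow_self hs ht hst]
        exact mul_le_mul' le_rfl i1
  have hFb : ∃ M : ℝ≥0∞, M ≠ ⊤ ∧ ∀ z, F z ≤ M := by
    refine ⟨A, ENNReal.ofReal_ne_top, fun z => ?_⟩
    simp only [hF]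
    calc _ ≤ A * 1 := by
          gcongr
          rw [ENNReal.ofReal_le_one, Real.exp_le_one_iff]
          have : 0 ≤ c * ‖W.starProjection z‖ ^ 2 := by positivity
          linarith
      _ = A := mul_one _
  have e : ∀ h' : E → ℝ≥0∞, (fun z => ec c z * h' (Vale.Agent.P262.H395.mix W x z)) =
      fun z => F z * (ec c (Vale.Agent.P262.H395.mix W x z) *
        h' (Vale.Agent.P262.H395.mix W x z)) := by
    intro h'
    funext z
    rw [key z, mul_assoc]
  rw [e h0, e hT, e h1]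
  exact (h.reg.comp_mix W x).mul hΘ hΘ1 hFc.measurable hFl hFc.upperSemicontinuous hFb

lemma RegC.lintegral_ne_top (hc : c < 1 / 2) (hΘ : 0 < Θ) (hΘ1 : Θ < 1)
    (h : RegC c Θ h0 hT h1) : ∫⁻ x, h0 x ∂stdGaussian E ≠ ⊤ := by
  rw [lintegral_SC (stdOrthonormalBasis ℝ E) h.m0]
  exact (h.coord hc hΘ hΘ1 _ (stdOrthonormalBasis ℝ E)).int0

/-- tilted triples can be fed to the tree induction -/
theorem RegC.toTIn (hc0 : 0 ≤ c) (hc : c < 1 / 2) (hΘ : 0 < Θ) (hΘ1 : Θ ≤ 1 / 88)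
    (h : RegC c Θ h0 hT h1) : TIn Θ h0 hT h1 where
  m0 := h.m0
  mT := h.mT
  m1 := h.m1
  le1 := h.le1
  leT := h.leT
  fib_ne_top := fun W x =>
    (h.comp_mix hc0 hΘ (by linarith) W x).lintegral_ne_top hc hΘ (by linarith)
  leaf := by
    intro W0 x hroot
    have h' := h.comp_mix hc0 hΘ (by linarith) W0 x
    rw [ineqF_iff _ _ _ _ _ _ MeasurableSet.univ, preimage_univ]
    exact leaf0_of hΘ hΘ1 h'.m0 h'.mT h'.m1 (h'.coord hc hΘ (by linarith)) hroot
  block := by
    intro W0 W hW x hroot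
    have h' := h.comp_mix hc0 hΘ (by linarith) W0 x
    have hRm : MeasurableSet {y | fib W h1 y < ENNReal.ofReal (1 / 4) * fib W h0 y} :=
      measurableSet_lt (measurable_fib h.m1) ((measurable_fib h.m0).const_mul _)
    rw [ineqF_iff _ _ _ _ _ _ hRm]
    have key := block0_of hΘ hΘ1 h'.m0 h'.mT h'.m1 (h'.coord hc hΘ (by linarith)) W hroot
    simp only [fib_comp_mix hW] at key
    exact key

/-- **Functional nested star theorem for label-dependent flags, tilted triples.** -/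
theorem RegC.star_tree (hc0 : 0 ≤ c) (hc : c < 1 / 2) (hΘ : 0 < Θ) (hΘ1 : Θ ≤ 1 / 704)
    (h : RegC c Θ h0 hT h1) {T : STree E}
    {W0 : Submodule ℝ E} (hV : T.Valid W0) (hd : T.Deep h0 h1) (x : E)
    (hroot : ENNReal.ofReal (1 / 4) * fib W0 h0 x ≤ fib W0 h1 x) :
    IneqF (ENNReal.ofReal (704 * Θ)) h0 hT h1 W0 x T.reg :=
  ((h.toTIn hc0 hc hΘ (by linarith)).star_aux hΘ hΘ1 T hV hd).1 x hroot

end

end Vale.Agent.P262.H44
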