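import Mathlib
import Vale.Agent.P262.H44.StarTree
import Vale.Agent.P262.H44.Tilt

/-!
# P262, block STAR-TREE, part 7: the weighted nested star theorem

The weight `w` is `e^{c|x|^2}` times a bounded log-concave upper semicontinuous function,
`0 ≤ c < 1/2`, and does not depend on the direction `v`.
-/

set_option linter.all false

open MeasureTheory Set Filter ProbabilityTheory
open scoped ENNReal NNReal Topology RealInnerProductSpace

namespace Vale.Agent.P262.H44

open Vale.Agent.P262.H493 hiding fib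
open Vale.Agent.P262.H395

variable {E : Type*} [NormedAddCommGroup E] [InnerProductSpace ℝ E] [FiniteDimensional ℝ E]
  [MeasurableSpace E] [BorelSpace E]

section

variable {K : Set E} {v : E}

/-- loss on the lines -/
theorem line_loss (hv : v ≠ 0) (hK : IsClosed K)
    (hKc : Convex ℝ K) (hb : ∃ R : ℝ, ∀ x ∈ K, |⟪v, x⟫| ≤ R)
    {N : Set E} (hN : MeasurableSet N) (hNi : InvS (ℝ ∙ v)ᗮ N) (y : E) :
    fib (ℝ ∙ v)ᗮ (((K \ star K v) ∩ N).indicator 1) y +
      kk * ENNReal.ofReal (2 * ‖v‖) * N.indicator (hl K v (2 * ‖v‖)) y ≤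
      kk * ENNReal.ofReal (2 * ‖v‖) * N.indicator (hl K v 0) y := by
  have hδ : 0 < ‖v‖ := norm_pos_iff.mpr hv
  have hVB := vb_pre hv hK hb
  have hcv := convex_pre hv hKc
  have hSc := (isClosed_star' hv hK hKc hb).measurableSet
  have hKm := hK.measurableSet
  rw [fib_line_set hv ((hKm.diff hSc).inter hN), eq_univ_or_empty_line hv hNi]
  by_cases hy : y ∈ N
  · simp only [hy, and_true]
    rw [indicator_of_mem hy, indicator_of_mem hy, hl_eq hv, hl_eq hv]
    have hl := loss_line hVB hcv hδ (TT (cb hv) y).1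
    rw [bstar_pre hv] at hl
    exact hl
  · simp only [hy, and_false, setOf_false, measure_empty]
    rw [indicator_of_notMem hy, indicator_of_notMem hy]
    simp

/-- gain on the lines -/
theorem line_gain (hv : v ≠ 0) (hv' : ‖v‖ ≤ 1 / 8) (hK : IsClosed K)
    (hKc : Convex ℝ K) (hb : ∃ R : ℝ, ∀ x ∈ K, |⟪v, x⟫| ≤ R)
    {N : Set E} (hN : MeasurableSet N) (hNi : InvS (ℝ ∙ v)ᗮ N) (y : E) :
    kk * ENNReal.ofReal ‖v‖ * ENNReal.ofReal (Real.exp (-1 / 2)) *
      N.indicator (hl K v (2 * ‖v‖)) y ≤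
      fib (ℝ ∙ v)ᗮ (((star K v \ K) ∩ N).indicator 1) y +
      kk * ENNReal.ofReal ‖v‖ * ENNReal.ofReal (Real.exp (-1 / 2)) *
        N.indicator (hl K v (1 / 2)) y := by
  have hδ : 0 < ‖v‖ := norm_pos_iff.mpr hv
  have hVB := vb_pre hv hK hb
  have hcv := convex_pre hv hKc
  have hSc := (isClosed_star' hv hK hKc hb).measurableSet
  have hKm := hK.measurableSet
  rw [fib_line_set hv ((hSc.diff hKm).inter hN), eq_univ_or_empty_line hv hNi]
  by_cases hy : y ∈ N
  · simp only [hy, and_true]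
    rw [indicator_of_mem hy, indicator_of_mem hy, hl_eq hv, hl_eq hv]
    have hl := gain_line hVB hcv hδ (by linarith) (TT (cb hv) y).1
    rw [bstar_pre hv] at hl
    exact hl
  · simp only [hy, and_false, setOf_false, measure_empty]
    rw [indicator_of_notMem hy, indicator_of_notMem hy]
    simp

lemma mul_indicator_eq (w f : E → ℝ≥0∞) (N : Set E) (y : E) :
    N.indicator (fun x => w x * f x) y = w y * N.indicator f y := by
  by_cases hy : y ∈ N
  · rw [indicator_of_mem hy, indicator_of_mem hy]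
  · rw [indicator_of_notMem hy, indicator_of_notMem hy, mul_zero]

lemma inv_ind {H : Submodule ℝ E} {N : Set E} (hN : InvS H N) {f : E → ℝ≥0∞} (hf : Inv H f) :
    Inv H (N.indicator f) := by
  intro y w hw
  by_cases hy : y ∈ N
  · rw [indicator_of_mem hy, indicator_of_mem ((hN y w hw).mpr hy)]
    exact hf y w hw
  · rw [indicator_of_notMem hy, indicator_of_notMem (fun h => hy ((hN y w hw).mp h))]

/-- **Weighted transfer**: the combined inequality for the weighted line functionals on a region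
`N` gives `loss ≤ C gain` with the weight. -/
theorem transferW (hv : v ≠ 0) (hv' : ‖v‖ ≤ 1 / 8) (hK : IsClosed K)
    (hKc : Convex ℝ K) (hb : ∃ R : ℝ, ∀ x ∈ K, |⟪v, x⟫| ≤ R)
    {W0 : Submodule ℝ E} (hW : W0 ≤ (ℝ ∙ v)ᗮ) {N : Set E} (hN : MeasurableSet N)
    (hNi : InvS (ℝ ∙ v)ᗮ N) {w : E → ℝ≥0∞} (hwm : Measurable w) (hwi : Inv (ℝ ∙ v)ᗮ w)
    (x0 : E) {k : ℝ} (hk : 0 ≤ k) (hfin : fib W0 (fun x => w x * hl K v 0 x) x0 ≠ ⊤)
    (h : IneqF (ENNReal.ofReal k) (fun x => w x * hl K v 0 x)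
      (fun x => w x * hl K v (2 * ‖v‖) x) (fun x => w x * hl K v (1 / 2) x) W0 x0 N) :
    fib W0 (fun x => w x * ((K \ star K v) ∩ N).indicator 1 x) x0 ≤
      ENNReal.ofReal (7 / 2 * k) *
        fib W0 (fun x => w x * ((star K v \ K) ∩ N).indicator 1 x) x0 := by
  have hδ : 0 < ‖v‖ := norm_pos_iff.mpr hv
  have hcv := convex_pre hv hKc
  have hSc := (isClosed_star' hv hK hKc hb).measurableSet
  have hKm := hK.measurableSet
  have e : ∀ ℓ, N.indicator (fun x => w x * hl K v ℓ x) = fun y => w y * N.indicator (hl K v ℓ) y :=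
    fun ℓ => funext fun y => mul_indicator_eq w _ N y
  have n0 := (measurable_hl hv hK hb 0).indicator hN
  have nT := (measurable_hl hv hK hb (2 * ‖v‖)).indicator hN
  have n1 := (measurable_hl hv hK hb (1 / 2)).indicator hN
  have mA : Measurable (((K \ star K v) ∩ N).indicator (1 : E → ℝ≥0∞)) :=
    measurable_one.indicator ((hKm.diff hSc).inter hN)
  have mB : Measurable (((star K v \ K) ∩ N).indicator (1 : E → ℝ≥0∞)) :=
    measurable_one.indicator ((hSc.diff hKm).inter hN)
  have hI : ∀ ℓ, Inv (ℝ ∙ v)ᗮ (N.indicator (hl K v ℓ)) := fun ℓ => inv_ind hNi (inv_hl hv K ℓ)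
  have hloss : fib W0 (fun y => w y * ((K \ star K v) ∩ N).indicator 1 y) x0 +
      kk * ENNReal.ofReal (2 * ‖v‖) * fib W0 (fun y => w y * N.indicator (hl K v (2 * ‖v‖)) y) x0 ≤
      kk * ENNReal.ofReal (2 * ‖v‖) * fib W0 (fun y => w y * N.indicator (hl K v 0) y) x0 := by
    have := tower_lin hW (hwm.mul mA) (hwm.mul nT) measurable_zero (hwm.mul n0)
      (c := kk * ENNReal.ofReal (2 * ‖v‖)) (d := kk * ENNReal.ofReal (2 * ‖v‖)) (fun y => by
        have := line_loss hv hK hKc hb hN hNi y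
        have i1 := fib_mul hwi mA y
        have i2 := fib_mul hwi nT y
        have i3 := fib_mul hwi n0 y
        rw [fib_eq_self (hI _)] at i2 i3
        rw [fib_zero_fun, zero_add]
        show fib _ (fun y => w y * _) y + _ * fib _ (fun y => w y * _) y ≤
          _ * fib _ (fun y => w y * _) y
        rw [i1, i2, i3]
        calc w y * fib (ℝ ∙ v)ᗮ (((K \ star K v) ∩ N).indicator 1) y +
              kk * ENNReal.ofReal (2 * ‖v‖) * (w y * N.indicator (hl K v (2 * ‖v‖)) y)
            = w y * (fib (ℝ ∙ v)ᗮ (((K \ star K v) ∩ N).indicator 1) y +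
              kk * ENNReal.ofReal (2 * ‖v‖) * N.indicator (hl K v (2 * ‖v‖)) y) := by ring
          _ ≤ w y * (kk * ENNReal.ofReal (2 * ‖v‖) * N.indicator (hl K v 0) y) := by gcongr
          _ = _ := by ring) x0
    rwa [fib_zero_fun, zero_add] at this
  have hgain : kk * ENNReal.ofReal ‖v‖ * ENNReal.ofReal (Real.exp (-1 / 2)) *
      fib W0 (fun y => w y * N.indicator (hl K v (2 * ‖v‖)) y) x0 ≤
      fib W0 (fun y => w y * ((star K v \ K) ∩ N).indicator 1 y) x0 +
      kk * ENNReal.ofReal ‖v‖ * ENNReal.ofReal (Real.exp (-1 / 2)) *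
        fib W0 (fun y => w y * N.indicator (hl K v (1 / 2)) y) x0 := by
    have := tower_lin hW measurable_zero (hwm.mul nT) (hwm.mul mB) (hwm.mul n1)
      (c := kk * ENNReal.ofReal ‖v‖ * ENNReal.ofReal (Real.exp (-1 / 2)))
      (d := kk * ENNReal.ofReal ‖v‖ * ENNReal.ofReal (Real.exp (-1 / 2))) (fun y => by
        have := line_gain hv hv' hK hKc hb hN hNi y
        have i1 := fib_mul hwi mB y
        have i2 := fib_mul hwi nT y
        have i3 := fib_mul hwi n1 y
        rw [fib_eq_self (hI _)] at i2 i3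
        rw [fib_zero_fun, zero_add]
        show _ * fib _ (fun y => w y * _) y ≤
          fib _ (fun y => w y * _) y + _ * fib _ (fun y => w y * _) y
        rw [i1, i2, i3]
        calc kk * ENNReal.ofReal ‖v‖ * ENNReal.ofReal (Real.exp (-1 / 2)) *
              (w y * N.indicator (hl K v (2 * ‖v‖)) y)
            = w y * (kk * ENNReal.ofReal ‖v‖ * ENNReal.ofReal (Real.exp (-1 / 2)) *
              N.indicator (hl K v (2 * ‖v‖)) y) := by ring
          _ ≤ w y * (fib (ℝ ∙ v)ᗮ (((star K v \ K) ∩ N).indicator 1) y +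
              kk * ENNReal.ofReal ‖v‖ * ENNReal.ofReal (Real.exp (-1 / 2)) *
              N.indicator (hl K v (1 / 2)) y) := by gcongr
          _ = _ := by ring) x0
    rwa [fib_zero_fun, zero_add] at this
  unfold IneqF at h
  rw [e 0, e (2 * ‖v‖), e (1 / 2)] at h
  have f0 : fib W0 (fun y => w y * N.indicator (hl K v 0) y) x0 ≠ ⊤ := by
    refine ne_top_of_le_ne_top hfin (fib_mono (fun y => ?_) x0)
    exact mul_le_mul' le_rfl (indicator_le_self' (fun _ _ => bot_le) y)
  have fT : fib W0 (fun y => w y * N.indicator (hl K v (2 * ‖v‖)) y) x0 ≠ ⊤ := by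
    refine ne_top_of_le_ne_top f0 (fib_mono (fun y => ?_) x0)
    refine mul_le_mul' le_rfl (indicator_le_indicator (f := hl K v (2 * ‖v‖)) ?_)
    rw [hl_eq hv, hl_eq hv]
    exact ff_mono hcv le_rfl (by positivity) _
  have f1 : fib W0 (fun y => w y * N.indicator (hl K v (1 / 2)) y) x0 ≠ ⊤ := by
    refine ne_top_of_le_ne_top f0 (fib_mono (fun y => ?_) x0)
    refine mul_le_mul' le_rfl (indicator_le_indicator (f := hl K v (1 / 2)) ?_)
    rw [hl_eq hv, hl_eq hv]
    exact ff_mono hcv le_rfl (by norm_num) _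
  have fA : fib W0 (fun y => w y * ((K \ star K v) ∩ N).indicator 1 y) x0 ≠ ⊤ := by
    refine ne_top_of_le_ne_top ?_ (le_self_add.trans hloss)
    exact ENNReal.mul_ne_top (ENNReal.mul_ne_top kk_ne_top ENNReal.ofReal_ne_top) f0
  by_cases fB : fib W0 (fun y => w y * ((star K v \ K) ∩ N).indicator 1 y) x0 = ⊤
  · rcases hk.eq_or_lt with hk0 | hk0
    · rw [← hk0, ENNReal.ofReal_zero, zero_mul, zero_mul, add_zero, add_zero] at h
      have h2 : fib W0 (fun y => w y * ((K \ star K v) ∩ N).indicator 1 y) x0 +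
          kk * ENNReal.ofReal (2 * ‖v‖) *
            fib W0 (fun y => w y * N.indicator (hl K v (2 * ‖v‖)) y) x0 ≤
          0 + kk * ENNReal.ofReal (2 * ‖v‖) *
            fib W0 (fun y => w y * N.indicator (hl K v (2 * ‖v‖)) y) x0 := by
        rw [zero_add]
        refine hloss.trans ?_
        gcongr
      have h3 := (ENNReal.add_le_add_iff_right (ENNReal.mul_ne_top
        (ENNReal.mul_ne_top kk_ne_top ENNReal.ofReal_ne_top) fT)).mp h2
      exact h3.trans bot_le
    · rw [fB, ENNReal.mul_top (by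
        rw [Ne, ENNReal.ofReal_eq_zero, not_le]; positivity)]
      exact le_top
  exact transfer_arith hδ hk fA fB f0 fT f1 hloss hgain h

/-- admissible weights: `e^{c|x|^2}` times a bounded log-concave usc function -/
structure Weight (c : ℝ) (w : E → ℝ≥0∞) : Prop where
  meas : Measurable w
  lc : LogConc fun x => ec c x * w x
  usc : UpperSemicontinuous fun x => ec c x * w x
  bdd : ∃ M : ℝ≥0∞, M ≠ ⊤ ∧ ∀ x, ec c x * w x ≤ M

lemma Weight.one : Weight (E := E) 0 (fun _ => 1) where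
  meas := measurable_const
  lc := by
    intro x y s t hs ht hst
    simp [ec]
  usc := by
    simp only [ec, zero_mul, neg_zero, Real.exp_zero, ENNReal.ofReal_one, one_mul]
    exact upperSemicontinuous_const
  bdd := ⟨1, ENNReal.one_ne_top, fun x => by simp [ec]⟩

lemma Weight.mul {c : ℝ} {w g : E → ℝ≥0∞} (hw : Weight c w) (hgm : Measurable g) (hg : LogConc g)
    (hgu : UpperSemicontinuous g) (hgb : ∃ M : ℝ≥0∞, M ≠ ⊤ ∧ ∀ x, g x ≤ M) :
    Weight c (fun x => g x * w x) where
  meas := hgm.mul hw.meas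
  lc := by
    intro x y s t hs ht hst
    have i1 := hg x y s t hs ht hst
    have i2 := hw.lc x y s t hs ht hst
    show (ec c x * (g x * w x)) ^ s * (ec c y * (g y * w y)) ^ t ≤
      ec c (s • x + t • y) * (g (s • x + t • y) * w (s • x + t • y))
    have e : ∀ z, ec c z * (g z * w z) = g z * (ec c z * w z) := fun z => by ring
    rw [e, e, e, ENNReal.mul_rpow_of_nonneg _ _ hs.le, ENNReal.mul_rpow_of_nonneg _ _ ht.le]
    calc g x ^ s * (ec c x * w x) ^ s * (g y ^ t * (ec c y * w y) ^ t)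
        = (g x ^ s * g y ^ t) * ((ec c x * w x) ^ s * (ec c y * w y) ^ t) := by ring
      _ ≤ _ := mul_le_mul' i1 i2
  usc := by
    obtain ⟨M, hM, hb⟩ := hgb
    obtain ⟨M', hM', hb'⟩ := hw.bdd
    have := usc_mul' hgu (fun x => ne_top_of_le_ne_top hM (hb x)) hw.usc
      (fun x => ne_top_of_le_ne_top hM' (hb' x))
    have e : (fun x => ec c x * (g x * w x)) = fun x => g x * (ec c x * w x) := by
      funext x; ring
    rw [e]
    exact this
  bdd := by
    obtain ⟨M, hM, hb⟩ := hgb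
    obtain ⟨M', hM', hb'⟩ := hw.bdd
    refine ⟨M * M', ENNReal.mul_ne_top hM hM', fun x => ?_⟩
    rw [mul_left_comm]
    exact mul_le_mul' (hb x) (hb' x)

lemma Weight.indicator {c : ℝ} {w : E → ℝ≥0∞} (hw : Weight c w) {C : Set E} (hC : IsClosed C)
    (hCc : Convex ℝ C) : Weight c (C.indicator w) := by
  have h := hw.mul (g := C.indicator 1) (measurable_one.indicator hC.measurableSet) (by
    intro x y s t hs ht hst
    by_cases hx : x ∈ C
    · by_cases hy : y ∈ C
      · rw [indicator_of_mem hx, indicator_of_mem hy, indicator_of_mem (hCc hx hy hs.le ht.le hst)]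
        simp
      · rw [indicator_of_notMem hy, ENNReal.zero_rpow_of_pos ht, mul_zero]
        exact bot_le
    · rw [indicator_of_notMem hx, ENNReal.zero_rpow_of_pos hs, zero_mul]
      exact bot_le)
    (by
      intro x r hr
      by_cases hx : x ∈ C
      · rw [indicator_of_mem hx] at hr
        exact Filter.Eventually.of_forall fun y =>
          lt_of_le_of_lt (indicator_le_self' (fun _ _ => bot_le) y) hr
      · rw [indicator_of_notMem hx] at hr
        filter_upwards [hC.isOpen_compl.mem_nhds hx] with y hy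
        rw [indicator_of_notMem hy]
        exact hr)
    ⟨1, ENNReal.one_ne_top, fun x => indicator_le_self' (fun _ _ => bot_le) x⟩
  have e : C.indicator w = fun x => C.indicator 1 x * w x := by
    funext x
    by_cases hx : x ∈ C
    · rw [indicator_of_mem hx, indicator_of_mem hx, Pi.one_apply, one_mul]
    · rw [indicator_of_notMem hx, indicator_of_notMem hx, zero_mul]
  rw [e]
  exact h

/-- weighted regular triple of a body -/
theorem regC_body {c : ℝ} {w : E → ℝ≥0∞} (hw : Weight c w) (hv : v ≠ 0) (hv' : ‖v‖ < 1 / 4)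
    (hK : IsClosed K) (hKc : Convex ℝ K) (hb : ∃ R : ℝ, ∀ x ∈ K, |⟪v, x⟫| ≤ R) :
    RegC c (4 * ‖v‖) (fun x => w x * hl K v 0 x) (fun x => w x * hl K v (2 * ‖v‖) x)
      (fun x => w x * hl K v (1 / 2) x) := by
  have hδ : 0 < ‖v‖ := norm_pos_iff.mpr hv
  refine ⟨?_⟩
  have := (regG_body hv hv' hK hKc hb).mul (by positivity) (by linarith)
    (w := fun x => ec c x * w x)
    ((continuous_ec c).measurable.mul hw.meas) hw.lc hw.usc hw.bdd
  simpa only [mul_assoc] using this

/-- **Weighted nested star theorem**, deepness as a hypothesis on the weighted line functionals -/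
theorem star_tree_weighted' {c : ℝ} (hc0 : 0 ≤ c) (hc : c < 1 / 2) {w : E → ℝ≥0∞}
    (hw : Weight c w) (hwi : Inv (ℝ ∙ v)ᗮ w) (hv : v ≠ 0) (hv' : ‖v‖ ≤ 1 / 3000)
    (hK : IsClosed K) (hKc : Convex ℝ K) (hb : ∃ R : ℝ, ∀ x ∈ K, |⟪v, x⟫| ≤ R)
    {W0 : Submodule ℝ E} (hW : W0 ≤ (ℝ ∙ v)ᗮ) {T : STree E} (hV : T.Valid W0)
    (hB : T.Below (ℝ ∙ v)ᗮ)
    (hd : T.Deep (fun x => w x * hl K v 0 x) (fun x => w x * hl K v (1 / 2) x)) (x0 : E)
    (hroot : ENNReal.ofReal (1 / 4) * fib W0 (fun x => w x * hl K v 0 x) x0 ≤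
      fib W0 (fun x => w x * hl K v (1 / 2) x) x0) :
    fib W0 (fun x => w x * ((K \ star K v) ∩ T.reg).indicator 1 x) x0 ≤
      ENNReal.ofReal (10000 * ‖v‖) *
        fib W0 (fun x => w x * ((star K v \ K) ∩ T.reg).indicator 1 x) x0 := by
  have hδ : 0 < ‖v‖ := norm_pos_iff.mpr hv
  have hreg := regC_body hw hv (by linarith) hK hKc hb
  have key := hreg.star_tree hc0 hc (by positivity) (by linarith) hV hd x0 hroot
  have hfin := (hreg.toTIn hc0 hc (by positivity) (by linarith)).fib_ne_top W0 x0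
  have := transferW hv (by linarith) hK hKc hb hW (STree.measurableSet_reg T hV)
    (STree.inv_reg T hV hB) hw.meas hwi x0 (k := 704 * (4 * ‖v‖)) (by positivity) hfin key
  exact this.trans (mul_le_mul' (ENNReal.ofReal_le_ofReal (by linarith)) le_rfl)

/-- the weight is flat on the fibre of `x`, up to a proportion `ε` -/
def FlatAt (ε : ℝ) (w : E → ℝ≥0∞) (W : Submodule ℝ E) (x : E) : Prop :=
  ∃ m : ℝ≥0∞, fib W ({y | w y < m}.indicator 1) x ≤ ENNReal.ofReal ε ∧
    fib W w x ≤ ENNReal.ofReal (1 + ε) * m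

lemma FlatAt.mono {ε ε' : ℝ} (h : ε ≤ ε') {w : E → ℝ≥0∞} {W : Submodule ℝ E} {x : E}
    (hf : FlatAt ε w W x) : FlatAt ε' w W x := by
  obtain ⟨m, h1, h2⟩ := hf
  exact ⟨m, h1.trans (ENNReal.ofReal_le_ofReal h),
    h2.trans (mul_le_mul' (ENNReal.ofReal_le_ofReal (by linarith)) le_rfl)⟩

/-- **a flat weight does not destroy mass**: for functions `g0, g1 ≤ 1` -/
theorem flat_gen {w g0 g1 : E → ℝ≥0∞} (hwm : Measurable w) (mh : Measurable g1)
    (h01 : ∀ y, g0 y ≤ 1) (h11 : ∀ y, g1 y ≤ 1)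
    {W : Submodule ℝ E} {x : E} {ε t : ℝ} (hε : 0 ≤ ε) (ht : 0 ≤ t)
    (hf : FlatAt ε w W x) (s1 : ENNReal.ofReal (t * (1 + ε) + ε) ≤ fib W g1 x) :
    ENNReal.ofReal t * fib W (fun x => w x * g0 x) x ≤ fib W (fun x => w x * g1 x) x := by
  obtain ⟨m, h1, h2⟩ := hf
  have s2 : m * fib W g1 x ≤
      fib W (fun x => w x * g1 x) x + m * ENNReal.ofReal ε := by
    have mS : MeasurableSet {y | w y < m} := measurableSet_lt hwm measurable_const
    have mI : Measurable ({y | w y < m}.indicator (1 : E → ℝ≥0∞)) := measurable_one.indicator mS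
    have e1 : m * fib W g1 x = fib W (fun y => m * g1 y) x :=
      (fib_mul (inv_const W m) mh x).symm
    rw [e1]
    calc fib W (fun y => m * g1 y) x
        ≤ fib W (fun y => w y * g1 y + m * {y | w y < m}.indicator 1 y) x := by
          refine fib_mono (fun y => ?_) x
          by_cases hy : w y < m
          · rw [indicator_of_mem (show y ∈ {y | w y < m} from hy), Pi.one_apply, mul_one]
            refine le_trans ?_ le_add_self
            calc m * g1 y ≤ m * 1 := by
                  gcongr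
                  exact h11 y
              _ = m := mul_one _
          · rw [not_lt] at hy
            exact (mul_le_mul' hy le_rfl).trans le_self_add
      _ = fib W (fun x => w x * g1 x) x +
            m * fib W ({y | w y < m}.indicator 1) x := fib_lin W (hwm.mul mh) mI m x
      _ ≤ _ := by gcongr
  have s3 : ENNReal.ofReal t * fib W (fun x => w x * g0 x) x ≤
      m * ENNReal.ofReal (t * (1 + ε)) := by
    calc ENNReal.ofReal t * fib W (fun x => w x * g0 x) x
        ≤ ENNReal.ofReal t * fib W w x := by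
          gcongr
          refine fib_mono (fun y => ?_) x
          calc w y * g0 y ≤ w y * 1 := by
                gcongr
                exact h01 y
            _ = w y := mul_one _
      _ ≤ ENNReal.ofReal t * (ENNReal.ofReal (1 + ε) * m) := by gcongr
      _ = m * (ENNReal.ofReal t * ENNReal.ofReal (1 + ε)) := by ring
      _ = m * ENNReal.ofReal (t * (1 + ε)) := by rw [ENNReal.ofReal_mul ht]
  refine s3.trans ?_
  by_cases hm : m = ⊤
  · -- infinite flat value
    subst hm
    by_cases h0 : t * (1 + ε) ≤ 0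
    · rw [ENNReal.ofReal_eq_zero.mpr h0, mul_zero]; exact bot_le
    · push Not at h0
      have h5 : ENNReal.ofReal ε < fib W g1 x := by
        refine lt_of_lt_of_le ?_ s1
        rw [ENNReal.ofReal_lt_ofReal_iff (by linarith)]
        linarith
      have h6 : fib W g1 x ≤ fib W ({y | w y = ⊤}.indicator g1) x +
          ENNReal.ofReal ε := by
        have mS : MeasurableSet {y | w y < ⊤} := measurableSet_lt hwm measurable_const
        have mI : Measurable ({y | w y < ⊤}.indicator (1 : E → ℝ≥0∞)) := measurable_one.indicator mS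
        have mS' : MeasurableSet {y | w y = ⊤} := hwm (measurableSet_singleton ⊤)
        calc fib W g1 x ≤ fib W (fun y => {y | w y = ⊤}.indicator g1 y +
              {y | w y < ⊤}.indicator 1 y) x := by
              refine fib_mono (fun y => ?_) x
              by_cases hy : w y = ⊤
              · rw [indicator_of_mem (show y ∈ {y | w y = ⊤} from hy)]
                exact le_self_add
              · rw [indicator_of_mem (show y ∈ {y | w y < ⊤} from lt_top_iff_ne_top.mpr hy)]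
                exact (h11 y).trans le_add_self
          _ = fib W ({y | w y = ⊤}.indicator g1) x +
                fib W ({y | w y < ⊤}.indicator 1) x := fib_add_right mI x
          _ ≤ _ := by gcongr
      have h7 : fib W ({y | w y = ⊤}.indicator g1) x ≠ 0 := by
        intro h8
        rw [h8, zero_add] at h6
        exact absurd h5 (not_lt.mpr h6)
      have h8 : ⊤ * fib W ({y | w y = ⊤}.indicator g1) x ≤
          fib W (fun x => w x * g1 x) x := by
        have mS' : MeasurableSet {y | w y = ⊤} := hwm (measurableSet_singleton ⊤)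
        rw [← fib_mul (inv_const W ⊤) (mh.indicator mS') x]
        refine fib_mono (fun y => ?_) x
        by_cases hy : w y = ⊤
        · rw [indicator_of_mem (show y ∈ {y | w y = ⊤} from hy), hy]
        · rw [indicator_of_notMem (show y ∉ {y | w y = ⊤} from hy), mul_zero]
          exact bot_le
      rw [ENNReal.top_mul h7, top_le_iff] at h8
      rw [h8]
      exact le_top
  · have s4 : m * ENNReal.ofReal (t * (1 + ε)) + m * ENNReal.ofReal ε ≤
        fib W (fun x => w x * g1 x) x + m * ENNReal.ofReal ε := by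
      refine le_trans ?_ s2
      rw [← mul_add, ← ENNReal.ofReal_add (by positivity) hε]
      gcongr
    exact (ENNReal.add_le_add_iff_right (ENNReal.mul_ne_top hm ENNReal.ofReal_ne_top)).mp s4

/-- arithmetic of the health constants -/
lemma long_of_health {m : ℝ≥0∞} (hm : m ≤ 1) {a s : ℝ} (has : 23 / 50 * s ≤ a - 11 / 20)
    (h : ENNReal.ofReal a ≤ ENNReal.ofReal (11 / 20) + ENNReal.ofReal (23 / 50) * m) :
    ENNReal.ofReal s ≤ m := by
  have hlt : m ≠ ⊤ := ne_top_of_le_ne_top ENNReal.one_ne_top hm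
  have h4 := h
  rw [← ENNReal.ofReal_toReal hlt, ← ENNReal.ofReal_mul (by norm_num),
    ← ENNReal.ofReal_add (by norm_num) (by positivity),
    ENNReal.ofReal_le_ofReal_iff (by positivity)] at h4
  rw [← ENNReal.ofReal_toReal hlt]
  apply ENNReal.ofReal_le_ofReal
  linarith

/-- a flat weight does not destroy the long part: `p ≤ 11/20 + 23/50 * long` -/
theorem flat_long (hv : v ≠ 0) (hK : IsClosed K)
    (hb : ∃ R : ℝ, ∀ x ∈ K, |⟪v, x⟫| ≤ R) {w : E → ℝ≥0∞} (hwm : Measurable w)
    {W : Submodule ℝ E} {x : E} {ε a t : ℝ} (hε : 0 ≤ ε) (ht : 0 ≤ t)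
    (hat : 23 / 50 * (t * (1 + ε) + ε) ≤ a - 11 / 20)
    (hf : FlatAt ε w W x)
    (h : ENNReal.ofReal a ≤ ENNReal.ofReal (11 / 20) + ENNReal.ofReal (23 / 50) *
      fib W (hl K v (1 / 2)) x) :
    ENNReal.ofReal t * fib W (fun x => w x * hl K v 0 x) x ≤
      fib W (fun x => w x * hl K v (1 / 2) x) x :=
  flat_gen hwm (measurable_hl hv hK hb (1 / 2)) (fun y => hl_le_one hv K _ y)
    (fun y => hl_le_one hv K _ y) hε ht hf
    (long_of_health (fib_le_one (fun y => hl_le_one hv K _ y) x) hat h)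

/-- the same inside a set `C` -/
theorem flat_longC (hv : v ≠ 0) (hK : IsClosed K)
    (hb : ∃ R : ℝ, ∀ x ∈ K, |⟪v, x⟫| ≤ R) {w : E → ℝ≥0∞} (hwm : Measurable w)
    {C : Set E} (hC : MeasurableSet C)
    {W : Submodule ℝ E} {x : E} {ε a t : ℝ} (hε : 0 ≤ ε) (ht : 0 ≤ t)
    (hat : 23 / 50 * (t * (1 + ε) + ε) ≤ a - 11 / 20)
    (hf : FlatAt ε w W x)
    (h : ENNReal.ofReal a ≤ ENNReal.ofReal (11 / 20) + ENNReal.ofReal (23 / 50) *
      fib W (C.indicator (hl K v (1 / 2))) x) :
    ENNReal.ofReal t * fib W (C.indicator fun x => w x * hl K v 0 x) x ≤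
      fib W (C.indicator fun x => w x * hl K v (1 / 2) x) x := by
  have e : ∀ ℓ, (C.indicator fun x => w x * hl K v ℓ x) =
      fun x => w x * C.indicator (hl K v ℓ) x := fun ℓ => funext fun y => mul_indicator_eq w _ C y
  have hle : ∀ ℓ y, C.indicator (hl K v ℓ) y ≤ 1 := fun ℓ y =>
    (indicator_le_self' (fun _ _ => bot_le) y).trans (hl_le_one hv K ℓ y)
  rw [e, e]
  exact flat_gen hwm ((measurable_hl hv hK hb (1 / 2)).indicator hC) (hle _) (hle _) hε ht hf
    (long_of_health (fib_le_one (hle _) x) hat h)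

lemma flatAt_of_inv {ε : ℝ} (hε : 0 ≤ ε) {w : E → ℝ≥0∞} {W : Submodule ℝ E} (hw : Inv W w)
    (x : E) : FlatAt ε w W x := by
  refine ⟨w x, ?_, ?_⟩
  · have e : fib W ({y | w y < w x}.indicator 1) x = 0 := by
      refine fib_ind_empty _ fun z hz => ?_
      have h1 : w (Vale.Agent.P262.H395.mix W x z) < w x := hz
      rw [hw.mix] at h1
      exact lt_irrefl _ h1
    rw [e]
    exact bot_le
  · rw [fib_eq_self hw]
    calc w x = 1 * w x := (one_mul _).symm
      _ ≤ _ := by
        gcongr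
        rw [← ENNReal.ofReal_one]
        exact ENNReal.ofReal_le_ofReal (by linarith)

/-- all stopped labels are healthy for the body `S` and the weight is flat there -/
def STree.HealthyFlat (ε : ℝ) (w : E → ℝ≥0∞) (S : Set E) : STree E → Set E → Prop
  | STree.leaf, _ => True
  | STree.node W D cls sub, B =>
      (∀ x ∈ D, x ∈ B → ENNReal.ofReal (4 / 5) ≤ fib W (S.indicator 1) x ∧ FlatAt ε w W x) ∧
      ∀ n, STree.HealthyFlat ε w S (sub n) ((B \ D) ∩ cls ⁻¹' {n})

lemma deep_of_healthyFlat (hv : v ≠ 0) (hv' : ‖v‖ ≤ 1 / 100) (hK : IsClosed K)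
    (hKc : Convex ℝ K) (hb : ∃ R : ℝ, ∀ x ∈ K, |⟪v, x⟫| ≤ R) {w : E → ℝ≥0∞} (hwm : Measurable w)
    {ε : ℝ} (hε : 0 ≤ ε) (hε' : ε ≤ 1 / 40) : ∀ (T : STree E) (B : Set E),
    T.Below (ℝ ∙ v)ᗮ → T.HealthyFlat ε w (star K v) B →
    (T.cut B).Deep (fun x => w x * hl K v 0 x) (fun x => w x * hl K v (1 / 2) x) := by
  intro T
  induction T with
  | leaf => intro _ _ _; trivial
  | node W D cls sub ih =>
    intro B hB hH
    refine ⟨fun x hx => ?_, fun n => ih n _ (hB.2 n) (hH.2 n)⟩
    obtain ⟨h1, h2⟩ := hH.1 x hx.1 hx.2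
    have h3 := fib_star_le_long hv hv' hK hKc hb MeasurableSet.univ (fun _ _ _ => Iff.rfl) hB.1 x
    rw [inter_univ, indicator_univ] at h3
    exact flat_long hv hK hb hwm hε (by norm_num) (by linarith) h2 (h1.trans h3)

/-- the same with `K` in place of `star K v` -/
lemma deep_of_healthyFlat' (hv : v ≠ 0) (hK : IsClosed K)
    (hKc : Convex ℝ K) (hb : ∃ R : ℝ, ∀ x ∈ K, |⟪v, x⟫| ≤ R) {w : E → ℝ≥0∞} (hwm : Measurable w)
    {ε : ℝ} (hε : 0 ≤ ε) (hε' : ε ≤ 1 / 40) : ∀ (T : STree E) (B : Set E),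
    T.Below (ℝ ∙ v)ᗮ → T.HealthyFlat ε w K B →
    (T.cut B).Deep (fun x => w x * hl K v 0 x) (fun x => w x * hl K v (1 / 2) x) := by
  intro T
  induction T with
  | leaf => intro _ _ _; trivial
  | node W D cls sub ih =>
    intro B hB hH
    refine ⟨fun x hx => ?_, fun n => ih n _ (hB.2 n) (hH.2 n)⟩
    obtain ⟨h1, h2⟩ := hH.1 x hx.1 hx.2
    have h3 := fib_body_le_long hv hK hKc hb MeasurableSet.univ (fun _ _ _ => Iff.rfl) hB.1 x
    rw [inter_univ, indicator_univ] at h3
    exact flat_long hv hK hb hwm hε (by norm_num) (by linarith) h2 (h1.trans h3)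

/-- root, health `4/5`, flatness `1/40` -/
theorem root_flat (hv : v ≠ 0) (hv' : ‖v‖ ≤ 1 / 100) (hK : IsClosed K)
    (hKc : Convex ℝ K) (hb : ∃ R : ℝ, ∀ x ∈ K, |⟪v, x⟫| ≤ R) {w : E → ℝ≥0∞} (hwm : Measurable w)
    {ε a : ℝ} (hε : 0 ≤ ε) (ha : 23 / 50 * (1 / 4 * (1 + ε) + ε) ≤ a - 11 / 20)
    {W : Submodule ℝ E} (hW : W ≤ (ℝ ∙ v)ᗮ) {x : E} (hf : FlatAt ε w W x)
    (h : ENNReal.ofReal a ≤ fib W ((star K v).indicator 1) x) :
    ENNReal.ofReal (1 / 4) * fib W (fun x => w x * hl K v 0 x) x ≤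
      fib W (fun x => w x * hl K v (1 / 2) x) x := by
  have h3 := fib_star_le_long hv hv' hK hKc hb MeasurableSet.univ (fun _ _ _ => Iff.rfl) hW x
  rw [inter_univ, indicator_univ] at h3
  exact flat_long hv hK hb hwm hε (by norm_num) (by linarith) hf (h.trans h3)

theorem root_flat' (hv : v ≠ 0) (hK : IsClosed K)
    (hKc : Convex ℝ K) (hb : ∃ R : ℝ, ∀ x ∈ K, |⟪v, x⟫| ≤ R) {w : E → ℝ≥0∞} (hwm : Measurable w)
    {ε a : ℝ} (hε : 0 ≤ ε) (ha : 23 / 50 * (1 / 4 * (1 + ε) + ε) ≤ a - 11 / 20)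
    {W : Submodule ℝ E} (hW : W ≤ (ℝ ∙ v)ᗮ) {x : E} (hf : FlatAt ε w W x)
    (h : ENNReal.ofReal a ≤ fib W (K.indicator 1) x) :
    ENNReal.ofReal (1 / 4) * fib W (fun x => w x * hl K v 0 x) x ≤
      fib W (fun x => w x * hl K v (1 / 2) x) x := by
  have h3 := fib_body_le_long hv hK hKc hb MeasurableSet.univ (fun _ _ _ => Iff.rfl) hW x
  rw [inter_univ, indicator_univ] at h3
  exact flat_long hv hK hb hwm hε (by norm_num) (by linarith) hf (h.trans h3)

/-- **Weighted nested star theorem**, health for `star K v` in the Gaussian measure and flatness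
of the weight at the reachable stopped labels and at the root. -/
theorem star_tree_weighted {c : ℝ} (hc0 : 0 ≤ c) (hc : c < 1 / 2) {w : E → ℝ≥0∞}
    (hw : Weight c w) (hwi : Inv (ℝ ∙ v)ᗮ w) (hv : v ≠ 0) (hv' : ‖v‖ ≤ 1 / 3000)
    (hK : IsClosed K) (hKc : Convex ℝ K) (hb : ∃ R : ℝ, ∀ x ∈ K, |⟪v, x⟫| ≤ R)
    {W0 : Submodule ℝ E} (hW : W0 ≤ (ℝ ∙ v)ᗮ) {T : STree E} (hV : T.Valid W0)
    (hB : T.Below (ℝ ∙ v)ᗮ) {ε a : ℝ} (hε : 0 ≤ ε) (hε' : ε ≤ 1 / 40)
    (ha : 23 / 50 * (1 / 4 * (1 + ε) + ε) ≤ a - 11 / 20)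
    (hH : T.HealthyFlat ε w (star K v) univ) (x0 : E) (hf : FlatAt ε w W0 x0)
    (hroot : ENNReal.ofReal a ≤ fib W0 ((star K v).indicator 1) x0) :
    fib W0 (fun x => w x * ((K \ star K v) ∩ T.reg).indicator 1 x) x0 ≤
      ENNReal.ofReal (10000 * ‖v‖) *
        fib W0 (fun x => w x * ((star K v \ K) ∩ T.reg).indicator 1 x) x0 := by
  have := star_tree_weighted' hc0 hc hw hwi hv hv' hK hKc hb hW
    (STree.valid_cut T univ MeasurableSet.univ (fun _ _ _ => Iff.rfl) hV)
    (STree.below_cut T univ hB)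
    (deep_of_healthyFlat hv (by linarith) hK hKc hb hw.meas hε hε' T univ hB hH) x0
    (root_flat hv (by linarith) hK hKc hb hw.meas hε ha hW hf hroot)
  rwa [STree.reg_cut] at this

/-- the same with health for `K` -/
theorem star_tree_weightedK {c : ℝ} (hc0 : 0 ≤ c) (hc : c < 1 / 2) {w : E → ℝ≥0∞}
    (hw : Weight c w) (hwi : Inv (ℝ ∙ v)ᗮ w) (hv : v ≠ 0) (hv' : ‖v‖ ≤ 1 / 3000)
    (hK : IsClosed K) (hKc : Convex ℝ K) (hb : ∃ R : ℝ, ∀ x ∈ K, |⟪v, x⟫| ≤ R)
    {W0 : Submodule ℝ E} (hW : W0 ≤ (ℝ ∙ v)ᗮ) {T : STree E} (hV : T.Valid W0)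
    (hB : T.Below (ℝ ∙ v)ᗮ) {ε a : ℝ} (hε : 0 ≤ ε) (hε' : ε ≤ 1 / 40)
    (ha : 23 / 50 * (1 / 4 * (1 + ε) + ε) ≤ a - 11 / 20)
    (hH : T.HealthyFlat ε w K univ) (x0 : E) (hf : FlatAt ε w W0 x0)
    (hroot : ENNReal.ofReal a ≤ fib W0 (K.indicator 1) x0) :
    fib W0 (fun x => w x * ((K \ star K v) ∩ T.reg).indicator 1 x) x0 ≤
      ENNReal.ofReal (10000 * ‖v‖) *
        fib W0 (fun x => w x * ((star K v \ K) ∩ T.reg).indicator 1 x) x0 := by
  have := star_tree_weighted' hc0 hc hw hwi hv hv' hK hKc hb hW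
    (STree.valid_cut T univ MeasurableSet.univ (fun _ _ _ => Iff.rfl) hV)
    (STree.below_cut T univ hB)
    (deep_of_healthyFlat' hv hK hKc hb hw.meas hε hε' T univ hB hH) x0
    (root_flat' hv hK hKc hb hw.meas hε ha hW hf hroot)
  rwa [STree.reg_cut] at this

end

end Vale.Agent.P262.H44
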