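import Mathlib
import Vale.Agent.P262.H44.Weighted
import Vale.Agent.P262.H395.KillStar
import Vale.Agent.P262.H606.Dist

/-!
# P262, M2: the weighted star step on a tree of labels with class dependent flags and killed labels
-/

set_option linter.all false

open MeasureTheory Set Filter ProbabilityTheory
open scoped ENNReal NNReal Topology RealInnerProductSpace

namespace Vale.Agent.P262.H44

open Vale.Agent.P262.H493 hiding fib
open Vale.Agent.P262.H395 Vale.Agent.P262.H59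
open Vale.Agent.P262.H395.KTree (FlagIneq chainTree Long Root Hea)

variable {E : Type*} [NormedAddCommGroup E] [InnerProductSpace ℝ E] [FiniteDimensional ℝ E]
  [MeasurableSpace E] [BorelSpace E]

/-- the input of `kill_ineq` holds for tilted regular triples -/
theorem flagIneqC {c Θ : ℝ} {h0 hT h1 : E → ℝ≥0∞} (hc0 : 0 ≤ c) (hc : c < 1 / 2) (hΘ : 0 < Θ)
    (hΘ1 : Θ ≤ 1 / 704) (h : RegC c Θ h0 hT h1) :
    FlagIneq (ENNReal.ofReal (704 * Θ)) h0 hT h1 := by
  intro C hC hCc W0 L hW hL x0 hroot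
  have hr := h.indicator hΘ (by linarith) hC hCc
  have key := hr.star_tree hc0 hc hΘ hΘ1
    (KTree.valid_chainTree (g0 := C.indicator h0) (g1 := C.indicator h1) hr.m0 hr.m1 L W0 hW hL)
    (KTree.deep_chainTree L) x0 (by rw [KTree.ofReal_quarter]; exact hroot)
  have e : (chainTree (C.indicator h0) (C.indicator h1) L).reg
      = {x | ∀ V ∈ L, ¬ Long h0 h1 C V x} := by
    rw [KTree.reg_chainTree]
    ext x
    simp only [Long, KTree.ofReal_half]
  rw [e] at key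
  unfold KTree.Ineq
  rw [add_mul, one_mul]
  exact key

/-- health and flatness along the path of a point -/
def HKF (K : Set E) (v : E) (ε a : ℝ) (w : E → ℝ≥0∞) : KTree E → E → Prop
  | KTree.leaf, _ => True
  | KTree.node W D Z cls sub, x => x ∉ Z →
      ((x ∈ D ∨ cls x ≠ 0) → Hea K v (4 / 5) (sub 0).frz W x ∧ FlatAt ε w W x) ∧
      (x ∉ D → cls x ≠ 0 → Hea K v a (sub (cls x)).frz W x) ∧
      (x ∉ D → HKF K v ε a w (sub (cls x)) x)

variable {K : Set E} {v : E} {w : E → ℝ≥0∞} {ε a : ℝ}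

lemma hea_le (hv : v ≠ 0) (hv' : ‖v‖ ≤ 1 / 100) (hK : IsClosed K) (hKc : Convex ℝ K)
    (hb : ∃ R : ℝ, ∀ x ∈ K, |⟪v, x⟫| ≤ R) {C : Set E} (hC : MeasurableSet C)
    (hCi : InvS (ℝ ∙ v)ᗮ C) {W : Submodule ℝ E} (hW : W ≤ (ℝ ∙ v)ᗮ) {x : E} {b : ℝ}
    (h : Hea K v b C W x) : ENNReal.ofReal b ≤
      ENNReal.ofReal (11 / 20) + ENNReal.ofReal (23 / 50) *
        fib W (C.indicator (hl K v (1 / 2))) x := by
  rcases h with h | h
  · exact h.trans (fib_star_le_long hv hv' hK hKc hb hC hCi hW x)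
  · exact h.trans (fib_body_le_long hv hK hKc hb hC hCi hW x)

lemma hea_long (hv : v ≠ 0) (hv' : ‖v‖ ≤ 1 / 100) (hK : IsClosed K) (hKc : Convex ℝ K)
    (hb : ∃ R : ℝ, ∀ x ∈ K, |⟪v, x⟫| ≤ R) (hwm : Measurable w) (hε : 0 ≤ ε) (hε' : ε ≤ 1 / 40)
    {C : Set E} (hC : MeasurableSet C)
    (hCi : InvS (ℝ ∙ v)ᗮ C) {W : Submodule ℝ E} (hW : W ≤ (ℝ ∙ v)ᗮ) {x : E}
    (h : Hea K v (4 / 5) C W x) (hf : FlatAt ε w W x) :
    Long (fun x => w x * hl K v 0 x) (fun x => w x * hl K v (1 / 2) x) C W x := by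
  unfold KTree.Long
  rw [← KTree.ofReal_half]
  exact flat_longC hv hK hb hwm hC hε (by norm_num) (by linarith) hf
    (hea_le hv hv' hK hKc hb hC hCi hW h)

lemma hea_root (hv : v ≠ 0) (hv' : ‖v‖ ≤ 1 / 100) (hK : IsClosed K) (hKc : Convex ℝ K)
    (hb : ∃ R : ℝ, ∀ x ∈ K, |⟪v, x⟫| ≤ R) (hwm : Measurable w) (hε : 0 ≤ ε)
    (ha : 23 / 50 * (1 / 4 * (1 + ε) + ε) ≤ a - 11 / 20)
    {C : Set E} (hC : MeasurableSet C)
    (hCi : InvS (ℝ ∙ v)ᗮ C) {W : Submodule ℝ E} (hW : W ≤ (ℝ ∙ v)ᗮ) {x : E}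
    (h : Hea K v a C W x) (hf : FlatAt ε w W x) :
    Root (fun x => w x * hl K v 0 x) (fun x => w x * hl K v (1 / 2) x) C W x := by
  unfold KTree.Root
  rw [← KTree.ofReal_quarter]
  exact flat_longC hv hK hb hwm hC hε (by norm_num) ha hf
    (hea_le hv hv' hK hKc hb hC hCi hW h)

lemma HKF.hlt (hv : v ≠ 0) (hv' : ‖v‖ ≤ 1 / 100) (hK : IsClosed K) (hKc : Convex ℝ K)
    (hb : ∃ R : ℝ, ∀ x ∈ K, |⟪v, x⟫| ≤ R) (hwm : Measurable w) (hε : 0 ≤ ε) (hε' : ε ≤ 1 / 40)
    (ha : 23 / 50 * (1 / 4 * (1 + ε) + ε) ≤ a - 11 / 20) : ∀ {T : KTree E} {W0 : Submodule ℝ E}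
    (_ : T.Valid W0) (_ : T.Below (ℝ ∙ v)ᗮ) {x : E} (_ : HKF K v ε a w T x),
    KTree.hlt (fun x => w x * hl K v 0 x) (fun x => w x * hl K v (1 / 2) x) T x
  | KTree.leaf, _, _, _, _, _ => trivial
  | KTree.node W D Z cls sub, W0, h, hbl, x, hx => by
    obtain ⟨h1, hD, hcD, hcZ, hZ, hZc, hcls, hci, hsub⟩ := h
    intro hxZ
    obtain ⟨p, q, r⟩ := hx hxZ
    refine ⟨fun h => ?_, fun h h' => ?_, fun h => ?_⟩
    · exact hea_long hv hv' hK hKc hb hwm hε hε' (KTree.isClosed_frz (hsub 0)).measurableSet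
        (KTree.line_frz (hsub 0) (hbl.2 0)) hbl.1 (p h).1 (p h).2
    · exact hea_root hv hv' hK hKc hb hwm hε ha (KTree.isClosed_frz (hsub _)).measurableSet
        (KTree.line_frz (hsub _) (hbl.2 _)) hbl.1 (q h h') (p (Or.inr h')).2
    · exact HKF.hlt hv hv' hK hKc hb hwm hε hε' ha (hsub _) (hbl.2 _) (r h)

/-- **Weighted nested star theorem for class dependent flags with killed labels.** -/
theorem star_kill_weighted {c : ℝ} (hc0 : 0 ≤ c) (hc : c < 1 / 2) (hw : Weight c w)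
    (hwi : Inv (ℝ ∙ v)ᗮ w) (hv : v ≠ 0) (hv' : ‖v‖ ≤ 1 / 3000) (hK : IsClosed K)
    (hKc : Convex ℝ K)
    (hb : ∃ R : ℝ, ∀ x ∈ K, |⟪v, x⟫| ≤ R) {W0 : Submodule ℝ E} (hW0 : W0 ≤ (ℝ ∙ v)ᗮ)
    {T : KTree E} (hT : T.Valid W0) (hTb : T.Below (ℝ ∙ v)ᗮ)
    (hε : 0 ≤ ε) (hε' : ε ≤ 1 / 40) (ha : 23 / 50 * (1 / 4 * (1 + ε) + ε) ≤ a - 11 / 20) (x0 : E)
    (hh : ∀ y, W0.starProjection y = W0.starProjection x0 → HKF K v ε a w T y)
    (hroot : Hea K v a T.frz W0 x0) (hf : FlatAt ε w W0 x0) :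
    fib W0 (fun x => w x * ((K \ star K v) ∩ T.reg).indicator 1 x) x0 ≤
      ENNReal.ofReal (10000 * ‖v‖) *
        fib W0 (fun x => w x * ((star K v \ K) ∩ T.reg).indicator 1 x) x0 := by
  have hδ : 0 < ‖v‖ := norm_pos_iff.mpr hv
  have hreg := regC_body hw hv (by linarith) hK hKc hb
  have hΘ : 0 < 4 * ‖v‖ := by linarith
  have hΘ1 : 4 * ‖v‖ ≤ 1 / 704 := by linarith
  have hR := hea_root hv (by linarith) hK hKc hb hw.meas hε ha (KTree.isClosed_frz hT).measurableSet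
    (KTree.line_frz hT hTb) hW0 hroot hf
  have key := KTree.kill_ineq hreg.m0 hreg.mT hreg.m1 (flagIneqC hc0 hc hΘ hΘ1 hreg) hT
    (fun y hy => HKF.hlt hv (by linarith) hK hKc hb hw.meas hε hε' ha hT hTb (hh y hy)) hR
  have key' : IneqF (ENNReal.ofReal (704 * (4 * ‖v‖))) (fun x => w x * hl K v 0 x)
      (fun x => w x * hl K v (2 * ‖v‖) x) (fun x => w x * hl K v (1 / 2) x) W0 x0 T.reg := by
    unfold KTree.Ineq at key
    rw [add_mul, one_mul] at key
    exact key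
  have hfin := (hreg.toTIn hc0 hc hΘ (by linarith)).fib_ne_top W0 x0
  have h2 := transferW hv (by linarith) hK hKc hb hW0 (KTree.measurableSet_reg hT)
    (KTree.line_reg hT hTb) hw.meas hwi x0 (by positivity) hfin key'
  refine h2.trans (mul_le_mul' (ENNReal.ofReal_le_ofReal ?_) le_rfl)
  nlinarith

/-- the same with the cut by the ball -/
theorem star_kill_weighted_cut {c : ℝ} (hc0 : 0 ≤ c) (hc : c < 1 / 2) (hw : Weight c w)
    (hwi : Inv (ℝ ∙ v)ᗮ w) (hv : v ≠ 0) (hv' : ‖v‖ ≤ 1 / 3000) (hK : IsClosed K)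
    (hKc : Convex ℝ K) {R : ℝ} (hKR : K ⊆ Metric.closedBall 0 R)
    {W0 : Submodule ℝ E} (hW0 : W0 ≤ (ℝ ∙ v)ᗮ)
    {T : KTree E} (hT : T.Valid W0) (hTb : T.Below (ℝ ∙ v)ᗮ)
    (hε : 0 ≤ ε) (hε' : ε ≤ 1 / 40) (ha : 23 / 50 * (1 / 4 * (1 + ε) + ε) ≤ a - 11 / 20) (x0 : E)
    (hh : ∀ y, W0.starProjection y = W0.starProjection x0 → HKF K v ε a w T y)
    (hroot : Hea K v a T.frz W0 x0) (hf : FlatAt ε w W0 x0)
    {p Lam : ℝ} (hp0 : 0 ≤ p) (hp : p ≤ 1 / 4) (hL : 1 ≤ Lam)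
    (hline : ∀ x ∈ T.reg, OnLine K v R p Lam x) :
    fib W0 (fun y => (w y * T.reg.indicator 1 y) *
        (K \ (star K v ∩ Metric.closedBall 0 R)).indicator 1 y) x0 ≤
      ENNReal.ofReal (20000 * ‖v‖) *
        fib W0 (fun y => (w y * T.reg.indicator 1 y) *
          ((star K v ∩ Metric.closedBall 0 R) \ K).indicator 1 y) x0 := by
  have hδ : 0 < ‖v‖ := norm_pos_iff.mpr hv
  have hb : ∃ R : ℝ, ∀ x ∈ K, |⟪v, x⟫| ≤ R := ⟨‖v‖ * R, fun x hx =>
    (abs_real_inner_le_norm v x).trans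
      (mul_le_mul_of_nonneg_left (by simpa using hKR hx) (norm_nonneg v))⟩
  have h1 := star_kill_weighted hc0 hc hw hwi hv hv' hK hKc hb hW0 hT hTb hε hε' ha x0 hh hroot hf
  have hrm := KTree.measurableSet_reg hT
  have hri := KTree.line_reg hT hTb
  have e : ∀ A : Set E, (fun y => (w y * T.reg.indicator (1 : E → ℝ≥0∞) y) * A.indicator 1 y)
      = fun y => w y * (A ∩ T.reg).indicator 1 y := by
    intro A
    funext y
    rw [mul_assoc]
    congr 1
    by_cases h : y ∈ T.reg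
    · by_cases h' : y ∈ A
      · have h2 : y ∈ A ∩ T.reg := ⟨h', h⟩
        rw [indicator_of_mem h, indicator_of_mem h', indicator_of_mem h2]; simp
      · rw [indicator_of_mem h, indicator_of_notMem h', indicator_of_notMem (fun h2 => h' h2.1)]
        simp
    · rw [indicator_of_notMem h, indicator_of_notMem (fun h2 : y ∈ A ∩ T.reg => h h2.2)]; simp
  have hinv : Inv (Hp v) (fun y => w y * T.reg.indicator (1 : E → ℝ≥0∞) y) := by
    intro x u hu
    have h1 : w (x + u) = w x := hwi x u hu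
    simp only
    rw [h1]
    congr 1
    by_cases h : x ∈ T.reg
    · rw [indicator_of_mem h, indicator_of_mem ((hri x u hu).mpr h)]; rfl
    · rw [indicator_of_notMem h, indicator_of_notMem (fun h' => h ((hri x u hu).mp h'))]
  have h2 := cut_fib hK hKc hKR hδ (by linarith) hp0 hp hL hW0 hinv
    (hw.meas.mul (measurable_one.indicator hrm)) (fun x hx => hline x (by
      by_contra hcon
      exact hx (by rw [indicator_of_notMem hcon, mul_zero]))) x0
    (c := ENNReal.ofReal (10000 * ‖v‖)) (by rw [e, e]; exact h1)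
  refine h2.trans (le_of_eq ?_)
  congr 1
  rw [show (2 : ℝ≥0∞) = ENNReal.ofReal 2 by norm_num, ← ENNReal.ofReal_mul (by norm_num)]
  congr 1
  ring

/-! ### distance weights -/

open Vale.Agent.P262.H606 in
/-- distance caps are admissible weights -/
theorem weight_dw {B : Set E} (hB : IsClosed B) (h0 : (0 : E) ∈ B) {b : ℝ} (hb0 : 0 ≤ b)
    (hb : b ≤ 1 / 2) : Weight b (dw b B) := by
  have hne : B.Nonempty := ⟨0, h0⟩
  have e : ∀ x : E, ec b x * dw b B x =
      ENNReal.ofReal (Real.exp (-(b * ‖x‖ ^ 2) + b * Metric.infDist x B ^ 2)) := by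
    intro x
    unfold ec dw
    rw [← ENNReal.ofReal_mul (Real.exp_pos _).le, ← Real.exp_add]
  have hcont : Continuous fun x : E => ec b x * dw b B x := by
    simp only [e]
    refine ENNReal.continuous_ofReal.comp ?_
    have := Metric.continuous_infDist_pt B
    fun_prop
  exact
  { meas := (continuous_dw b B).measurable
    lc := by
      intro x y s t hs ht hst
      show (ec b x * dw b B x) ^ s * (ec b y * dw b B y) ^ t ≤
        ec b (s • x + t • y) * dw b B (s • x + t • y)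
      rw [e, e, e, ofReal_exp_rpow, ofReal_exp_rpow, ofReal_exp_mul]
      apply ENNReal.ofReal_le_ofReal
      apply Real.exp_le_exp.mpr
      have h1 := conc_aux (a := 1 / 2) hB hne (by norm_num) le_rfl x y hs.le ht.le hst
      have h2 := mul_le_mul_of_nonneg_left h1 (by linarith : 0 ≤ 2 * b)
      nlinarith [h2]
    usc := hcont.upperSemicontinuous
    bdd := by
      refine ⟨1, ENNReal.one_ne_top, fun x => ?_⟩
      rw [e, ENNReal.ofReal_le_one, Real.exp_le_one_iff]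
      have h1 : Metric.infDist x B ≤ ‖x‖ := by
        have := Metric.infDist_le_dist_of_mem (x := x) h0
        rwa [dist_zero_right] at this
      have h2 := pow_le_pow_left₀ Metric.infDist_nonneg h1 2
      nlinarith [mul_le_mul_of_nonneg_left h2 hb0] }

lemma Weight.const_mul {c : ℝ} {w : E → ℝ≥0∞} (hw : Weight c w) {k : ℝ≥0∞} (hk : k ≠ ⊤) :
    Weight c (fun x => k * w x) := by
  refine hw.mul measurable_const ?_ upperSemicontinuous_const ⟨k, hk, fun _ => le_rfl⟩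
  intro x y s t hs ht hst
  exact (rpow_mul_rpow_self hs ht hst).le

lemma FlatAt.const_mul {w : E → ℝ≥0∞} (hwm : Measurable w) {W : Submodule ℝ E} {x : E}
    (h : FlatAt ε w W x) {k : ℝ≥0∞} (hk : k ≠ ⊤) : FlatAt ε (fun y => k * w y) W x := by
  obtain ⟨m, h1, h2⟩ := h
  refine ⟨k * m, ?_, ?_⟩
  · refine (fib_mono (fun y => ?_) x).trans h1
    by_cases hy : k * w y < k * m
    · have hy' : w y < m := by
        by_contra hcon
        rw [not_lt] at hcon
        exact absurd hy (not_lt.mpr (mul_le_mul' le_rfl hcon))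
      rw [indicator_of_mem (show y ∈ {y | k * w y < k * m} from hy),
        indicator_of_mem (show y ∈ {y | w y < m} from hy')]
    · rw [indicator_of_notMem (show y ∉ {y | k * w y < k * m} from hy)]
      exact bot_le
  · rw [fib_mul (inv_const W k) hwm]
    calc k * fib W w x ≤ k * (ENNReal.ofReal (1 + ε) * m) := by gcongr
      _ = _ := by ring

open Vale.Agent.P262.H606 in
/-- distance caps are flat in the fibres -/
theorem flatAt_dw {e b : ℝ} {W : Submodule ℝ E} {B P C : Set E} (h : FlatD e W B P C)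
    (he : e < 1) (hε : 0 ≤ ε) (heε : (1 - e)⁻¹ ≤ 1 + ε) (hne : B.Nonempty) (hb0 : 0 ≤ b)
    (hb : b ≤ 1 / 4) (x : E) : FlatAt ε (dw b B) W x := by
  refine ⟨dw b P x, ?_, ?_⟩
  · have e0 : fib W ({y | dw b B y < dw b P x}.indicator 1) x = 0 := by
      refine fib_ind_empty _ fun z hz => ?_
      exact absurd (h.le_dw_mix hne hb0 x z) (not_le.mpr hz)
    rw [e0]
    exact bot_le
  · refine (h.fib_dw_le he hne hb0 hb x).trans ?_
    rw [mul_comm]
    gcongr

end Vale.Agent.P262.H44
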