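import Vale.Agent.P262.H44.L2Soft

/-!
# P262, milestone 2: the numbers of the labelwise block lemma

`LblCst q₀ c J c1` : absolute numbers, chosen before the dimension (`exists_lblCst`).
`lbl2_cst` : `(LBL2)` under explicit hypotheses on the constants of the system.
-/

set_option linter.all false

namespace Vale.Agent.P262.M2.Sys

open MeasureTheory ProbabilityTheory Set Filter Topology Module
open scoped RealInnerProductSpace ENNReal

noncomputable section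

/-- absolute numbers of the labelwise block lemma -/
structure LblCst (q₀ c : ℝ) (J : ℕ) (c1 : ℝ) : Prop where
  q0 : 0 < q₀
  q1 : q₀ ≤ 1 / 40
  cp : 0 < c
  c1' : c ≤ 1 / 8
  hJ : 1500 * c * (J + 1) + 32 * (1 / 2) ^ J ≤ q₀ / 300
  c1p : 0 < c1
  c1b : c1 ≤ 1 / (2 * 10 ^ 9)
  cc : c1 * Real.sqrt (1 - Real.log (1 / 40)) ≤ c

theorem exists_lblCst {q₀ : ℝ} (h0 : 0 < q₀) (h1 : q₀ ≤ 1 / 40) :
    ∃ (c : ℝ) (J : ℕ) (c1 : ℝ), LblCst q₀ c J c1 := by
  obtain ⟨J, hJ⟩ := exists_pow_lt_of_lt_one (show 0 < q₀ / (32 * 600) by positivity)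
    (show (1 / 2 : ℝ) < 1 by norm_num)
  have hJ1 : (0:ℝ) < J + 1 := by positivity
  set c : ℝ := q₀ / (600 * 1500 * (J + 1)) with hc
  have hcp : 0 < c := by positivity
  have hc8 : c ≤ 1 / 8 := by
    rw [hc, div_le_iff₀ (by positivity)]
    have : (0:ℝ) ≤ J := Nat.cast_nonneg J
    nlinarith
  set s : ℝ := Real.sqrt (1 - Real.log (1 / 40)) with hs
  have hs0 : 0 ≤ s := Real.sqrt_nonneg _
  refine ⟨c, J, min (c / (s + 1)) (1 / (2 * 10 ^ 9)), h0, h1, hcp, hc8, ?_,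
    lt_min (by positivity) (by norm_num), min_le_right _ _, ?_⟩
  · have e1 : 1500 * c * (J + 1) = q₀ / 600 := by
      rw [hc]
      field_simp
    have e2 : 32 * (1 / 2 : ℝ) ^ J ≤ q₀ / 600 := by
      have := hJ.le
      rw [le_div_iff₀ (by norm_num)] at this
      linarith
    linarith
  · calc min (c / (s + 1)) (1 / (2 * 10 ^ 9)) * s ≤ c / (s + 1) * s :=
          mul_le_mul_of_nonneg_right (min_le_left _ _) hs0
      _ ≤ c := by
          rw [div_mul_eq_mul_div, div_le_iff₀ (by positivity)]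
          nlinarith

variable {E : Type*} [NormedAddCommGroup E] [InnerProductSpace ℝ E] [FiniteDimensional ℝ E]
  [MeasurableSpace E] [BorelSpace E] {S : Sys E}

/-- the numbers of the system from the absolute ones -/
theorem LblCst.num {q₀ c c1 : ℝ} {J : ℕ} (C : LblCst q₀ c J c1) (hρ : S.ρ ≤ 1 / 324)
    (hc : S.c0 ≤ c1) (hq : S.q0 = ENNReal.ofReal q₀) (hb : 64 * 10 ^ 10 * S.kap ≤ S.b0)
    (hb' : 8 * S.kap ≤ (q₀ / 2000) ^ 2 * (1 / 40)) : S.LblN q₀ c (8 * S.kap / S.b0) J := by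
  have hb0 := S.b0_pos_f
  have hk := S.hkap
  refine ⟨hρ, hc.trans C.c1b, hq, C.q1, C.cp, C.c1', C.hJ, ?_, by positivity, ?_, ?_⟩
  · exact (mul_le_mul_of_nonneg_right hc (Real.sqrt_nonneg _)).trans C.cc
  · rw [div_le_div_iff₀ hb0 (by norm_num)]
    linarith
  · rw [div_mul_cancel₀ _ hb0.ne']
    exact hb'

lemma kp_eta (S : Sys E) : 4 * S.kp 1 * (S.M + 1) = 8 * S.kap / S.b0 := by
  have hb0 := S.b0_pos_f
  have hM : 0 < S.M + 1 := by linarith [S.hM]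
  unfold kp cc
  field_simp
  ring

lemma kp_le_half (hb : 64 * 10 ^ 10 * S.kap ≤ S.b0) : S.kp 1 ≤ 1 / 2 := by
  have hb0 := S.b0_pos_f
  have hM := S.hM
  have h1 := kp_eta S
  have h2 : 8 * S.kap / S.b0 ≤ 1 := by
    rw [div_le_one hb0]
    have := S.hkap
    nlinarith
  have h3 := S.kp_nonneg 1
  nlinarith

/-- **(LBL2)** with explicit constants -/
theorem lbl2_cst {q₀ c c1 : ℝ} {J : ℕ} (C : LblCst q₀ c J c1) (hρ : S.ρ ≤ 1 / 324)
    (hc : S.c0 ≤ c1) (hq : S.q0 = ENNReal.ofReal q₀) (hb : 64 * 10 ^ 10 * S.kap ≤ S.b0)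
    (hb' : 8 * S.kap ≤ (q₀ / 2000) ^ 2 * (1 / 40))
    (hε : 2 * (Real.sqrt 2 * Real.exp (-(S.qq / 4))) ≤ 1 / 2)
    {G : List ℕ → ℕ → E → ℝ≥0∞} (HG : S.PriceOK G) : S.LBL2 G (kL S.c0 q₀ c J) :=
  lbl2 (C.num hρ hc hq hb hb') hε (kp_le_half hb) (kp_eta S).le HG

end

end Vale.Agent.P262.M2.Sys
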