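import Vale.Agent.P262.H44.L2Sys
import Vale.Agent.P262.M2.Blocks
import Vale.Agent.P262.M2.Close
import Vale.Agent.P262.H59.StarFld

/-!
# P262, milestone 2, blocks LBL2 and LBI2: the Prop of `M2.Blocks`

`lbl2`: `S.LBL2 G KU` for every price array `G` which bounds the star moves (`StarAt`) and all the
other moves (`SoftAt`) of the cut-off field at the counted labels.
-/

set_option linter.all false

namespace Vale.Agent.P262.M2.Sys

open MeasureTheory ProbabilityTheory Set Filter Topology Module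
open scoped RealInnerProductSpace ENNReal
open Vale.Agent.P262.H118 (Iv st en ON rotE tau wd wrd Mg Piece K2 El2 paths iv_st)
open Vale.Agent.P262.H847 (UI)
open Vale.Agent.P262.H274 (Slow Cost)
open Vale.Agent.P262.H395 (fib fib_mono)
open Vale.Agent.P262.H654 (fr Bd ofReal_fr)
open Vale.Agent.P262.H44 (StarAt SoftAt sf dst WinAt)

noncomputable section

variable {E : Type*} [NormedAddCommGroup E] [InnerProductSpace ℝ E] [FiniteDimensional ℝ E]
  [MeasurableSpace E] [BorelSpace E] {S : Sys E}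

/-- bounds of the prices of the moves of the cut-off field by the array `G` -/
structure PriceOK (S : Sys E) (G : List ℕ → ℕ → E → ℝ≥0∞) : Prop where
  star : ∀ m < S.mT, S.mv.IsStar m → ∀ p, ¬ S.Leaf p m → ∀ x,
    StarAt (wd (S.W p m) (wrd S.v (S.K.S p)) (S.mv.tm m)) (sf (S.W p m) x (S.fld p m))
      (sf (S.W p m) x (S.fld p (m + 1))) (G p m x)
  soft : ∀ m < S.mT, ¬ S.mv.IsStar m → ∀ p, ¬ S.Leaf p m → ∀ x, x ∈ S.om p m →
    m < S.be p m x →
    SoftAt (sf (S.W p m) x (S.fld p m)) (sf (S.W p m) x (S.fld p (m + 1))) (G p m x)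

/-- closeness in the form of the window lemma -/
lemma dst_fld (hε : 2 * (Real.sqrt 2 * Real.exp (-(S.qq / 4))) ≤ 1 / 2) (hk : S.kp 1 ≤ 1 / 2)
    {η : ℝ} (hη : 4 * S.kp 1 * (S.M + 1) ≤ η) {m : ℕ} (hm : m ≤ S.mT) {p : List ℕ} {x : E}
    (hl : ¬ S.Leaf p m) (hx : x ∉ S.Z p m) :
    dst (S.W p m) (S.fld p m) (S.X p m) x ≤ ENNReal.ofReal η * S.A p m x := by
  have hL := S.labOK hm
  have hA0 : 0 ≤ (S.A p m x).toReal := ENNReal.toReal_nonneg
  have h1 := fr_close hε hk hm hx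
  have h2 : S.kp (S.kdm (S.kl p m x :: p) m) ≤ S.kp 1 :=
    kp_anti (one_le_kdm _ (S.tm_lt_f hm) hl)
  have h3 := S.cf_nonneg m p x
  have h4 : fr (S.W p m) (fun y => |S.fld p m y - S.pf p m y|) x
      ≤ η * (S.A p m x).toReal := by
    have e : fr (S.W p m) (fun y => |S.fld p m y - S.pf p m y|) x
        = fr (S.W p m) (fun y => |S.pf p m y - S.fld p m y|) x := by
      congr 1
      funext y
      exact abs_sub_comm _ _
    rw [e]
    calc fr (S.W p m) (fun y => |S.pf p m y - S.fld p m y|) x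
        ≤ 4 * S.kp (S.kdm (S.kl p m x :: p) m) * S.cf m p x := h1
      _ ≤ 4 * S.kp 1 * S.cf m p x := by gcongr
      _ = 4 * S.kp 1 * (S.M + 1) * (S.A p m x).toReal := by unfold cf; ring
      _ ≤ η * (S.A p m x).toReal := by gcongr
  have hu := H752.UI.dist (hL.fld_UI (p := p)) (S.pf_UI p m)
  have hη0 : 0 ≤ η := by
    refine le_trans ?_ hη
    have := S.hM
    have := S.kp_nonneg 1
    positivity
  show fib (S.W p m) (fun y => ENNReal.ofReal |S.fld p m y - S.pf p m y|) x ≤ _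
  rw [H752.fib_ofReal hu]
  refine (ENNReal.ofReal_le_ofReal h4).trans (le_of_eq ?_)
  rw [ENNReal.ofReal_mul hη0, ENNReal.ofReal_toReal (S.A_ne_top p m x)]

/-- the data of a counted label -/
theorem PriceOK.lab {G : List ℕ → ℕ → E → ℝ≥0∞} (HG : S.PriceOK G)
    (hε : 2 * (Real.sqrt 2 * Real.exp (-(S.qq / 4))) ≤ 1 / 2) (hk : S.kp 1 ≤ 1 / 2)
    {η : ℝ} (hη : 4 * S.kp 1 * (S.M + 1) ≤ η) {m : ℕ} (hm : S.mv.tm m < S.T) {p : List ℕ} {x : E}
    (hl : ¬ S.Leaf p m) (hx : x ∈ S.om p m) :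
    S.LabP p m x (fun k => S.fld p k) (fun k => G p k x) η := by
  have hB := nw_sub_BB (S := S) p m x
  have hmT : S.be p m x ≤ S.mT := by
    have h1 := S.mv.eS_lt (B := S.BB p m x) hm
    unfold mT
    show S.mv.eS (S.BB p m x) m ≤ _
    omega
  have hle : ∀ k, S.Same (S.BB p m x) m k → k ≤ S.mT := fun k hk => hk.2.trans hmT
  refine ⟨fun k hk' => (S.labOK (hle k hk')).fld_UI, fun k hk' => ?_, fun k hk' => ?_,
    fun k hk' hs => ?_, fun k hk' h1 hs => ?_⟩
  · have hL := S.labOK (hle k hk')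
    rw [hL.F_eq]
    unfold Fr
    rw [ofReal_fr (Bd.of_UI hL.fld_UI) hL.fld_UI.nonneg]
  · refine dst_fld hε hk hη (hle k hk') (fun h => hl ((hk'.leaf hB hm).1 h)) ?_
    rw [hk'.Z hB hm]
    exact hx.1
  · have h2 : S.Same (S.BB p m x) m (k + 1) :=
      hk'.trans (zero_mem_BB p m x) (Same.active (zero_mem_BB p m x) (Or.inl hs) (hk'.lt hm)) hm
    have h3 : k < S.mT := by
      have := hle _ h2
      omega
    exact HG.star k h3 hs p (fun h => hl ((hk'.leaf hB hm).1 h)) x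
  · have h3 : k < S.mT := by omega
    refine HG.soft k h3 hs p (fun h => hl ((hk'.leaf hB hm).1 h)) x
      ((om_same hk' hm).2 hx) ?_
    rw [be_same hk' hm]
    exact h1

/-- **(LBL2)**: the units of the counted blocks are paid by the prices of their moves -/
theorem lbl2 {q₀ c η : ℝ} {J : ℕ} (hN : S.LblN q₀ c η J)
    (hε : 2 * (Real.sqrt 2 * Real.exp (-(S.qq / 4))) ≤ 1 / 2) (hk : S.kp 1 ≤ 1 / 2)
    (hη : 4 * S.kp 1 * (S.M + 1) ≤ η) {G : List ℕ → ℕ → E → ℝ≥0∞} (HG : S.PriceOK G) :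
    S.LBL2 G (kL S.c0 q₀ c J) := by
  intro j hj m hmT x hx
  have hm : S.mv.tm m < S.T := S.tm_lt_f hmT.le
  set p := S.nd m x j with hp
  have hl : ¬ S.Leaf p m := hx.1.1
  have hom : x ∈ S.om p m := by
    have h := hx.2
    rw [mem_setOf_eq] at h
    exact h
  have H := HG.lab hε hk hη hm hl hom
  have hwt : S.WtOK p m x fun k => S.sw p k x := by
    refine wtOK_slp hm hom (s := fun k => max (S.F p k x) (S.F p (k + 1) x)) fun k g1 g2 => ?_
    have h2 : S.Same (S.BB p m x) m k := ⟨g1, g2.le⟩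
    have h3 : S.Same (S.BB p m x) m (k + 1) := ⟨g1.trans (Nat.le_succ k), g2⟩
    exact max_le (F_le_Db hN H hm hom h2) (F_le_Db hN H hm hom h3)
  rcases lbl hN H hm hom hwt with h | ⟨-, h1, h2⟩
  · left
    exact h
  · right
    refine ⟨h1, h2.trans (le_of_eq ?_)⟩
    rw [mul_add, ent_bs hm h1, ← h1]
    rfl

end

end Vale.Agent.P262.M2.Sys
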