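import Vale.Agent.P262.H44.L2Path

/-!
# P262, milestone 2, block LBL: single moves seen at one label, and their composition

`StarAt u f f' G` : the star move at a label (middle field with flux, soft changes), all charges
bounded by `G`.  `SoftAt f f' G` : any other move.  `exists_mpath` composes the moves of one window.
-/

set_option linter.unusedSectionVars false
set_option linter.unusedVariables false

namespace Vale.Agent.P262.H44

open MeasureTheory ProbabilityTheory Set Filter Topology Module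
open scoped RealInnerProductSpace ENNReal
open Vale.Agent.P262.H847 Vale.Agent.P262.H912 Vale.Agent.P262.H941
open Vale.Agent.P262.H274 (Slow SlowEx Cost Gam mix mix_even mix_odd mix_UI sum_Ico_double)
open Vale.Agent.P262.H174 (Soft)

variable {E : Type*} [NormedAddCommGroup E] [InnerProductSpace ℝ E] [FiniteDimensional ℝ E]
  [MeasurableSpace E] [BorelSpace E]

noncomputable section

/-- the star move seen at a label: word `u`, fields `f → f'`, charge at most `G` -/
def StarAt (u : E) (f f' : E → ℝ) (G : ℝ≥0∞) : Prop :=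
  ∃ (fh : E → ℝ) (F al be al' be' : ℝ), UI fh ∧ FluxLe fh u F ∧ Soft f fh al be ∧
    Soft fh f' al' be' ∧ 0 ≤ be ∧ 0 ≤ be' ∧
    ENNReal.ofReal (F + (al + be) + (al' + be')) ≤ G

/-- any other move seen at a label -/
def SoftAt (f f' : E → ℝ) (G : ℝ≥0∞) : Prop :=
  ∃ (al be : ℝ), Soft f f' al be ∧ 0 ≤ be ∧ ENNReal.ofReal (al + be) ≤ G

lemma StarAt.mono {u : E} {f f' : E → ℝ} {G G' : ℝ≥0∞} (h : StarAt u f f' G) (hG : G ≤ G') :
    StarAt u f f' G' := by
  obtain ⟨fh, F, al, be, al', be', h1, h2, h3, h4, h5, h6, h7⟩ := h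
  exact ⟨fh, F, al, be, al', be', h1, h2, h3, h4, h5, h6, h7.trans hG⟩

lemma SoftAt.mono {f f' : E → ℝ} {G G' : ℝ≥0∞} (h : SoftAt f f' G) (hG : G ≤ G') :
    SoftAt f f' G' := by
  obtain ⟨al, be, h1, h2, h3⟩ := h
  exact ⟨al, be, h1, h2, h3.trans hG⟩

lemma SoftAt.refl (f : E → ℝ) : SoftAt f f 0 :=
  ⟨0, 0, Soft.refl f, le_rfl, by simp⟩

lemma SoftAt.of_soft {f f' : E → ℝ} {al be : ℝ} (h : Soft f f' al be) (hb : 0 ≤ be) :
    SoftAt f f' (ENNReal.ofReal (al + be)) := ⟨al, be, h, hb, le_rfl⟩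

/-- a change in `L¹` -/
lemma SoftAt.of_L1 {f f' : E → ℝ} (hf : UI f) (hf' : UI f') {c : ℝ}
    (h : ∫ x, |f' x - f x| ∂(stdGaussian E) ≤ c) : SoftAt f f' (ENNReal.ofReal c) := by
  refine ⟨c, 0, (Soft.of_L1 hf hf').mono h le_rfl, le_rfl, ?_⟩
  rw [add_zero]

/-- **composition of the moves of one window** -/
theorem exists_mpath {u : ℕ → E} {n : ℕ → ℕ} {f : ℕ → E → ℝ} {s e : ℕ}
    (hn : ∀ t, n t + 2 ≤ n (t + 1)) (hf : ∀ m, UI (f m)) {G : ℕ → ℝ≥0∞}
    (hstar : ∀ t, s ≤ t → t < e → StarAt (u t) (f (n t)) (f (n t + 1)) (G (n t)))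
    (hsoft : ∀ m, n s ≤ m → m < n e - 1 → (∀ t, m ≠ n t) → SoftAt (f m) (f (m + 1)) (G m)) :
    ∃ (fh : ℕ → E → ℝ) (F al be al' be' : ℕ → ℝ), MPath u n f fh F al be al' be' s e ∧
      ∀ m, n s ≤ m → m < n e - 1 → ENNReal.ofReal (chg F al be al' be' m) ≤ G m := by
  classical
  have hlt : ∀ t, n t < n (t + 1) := fun t => by
    have := hn t
    omega
  have hmono : StrictMono n := strictMono_nat_of_lt_succ hlt
  -- one move
  have key : ∀ m, ∃ (fh : E → ℝ) (F al be al' be' : ℝ), UI fh ∧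
      (n s ≤ m → m < n e - 1 → 0 ≤ F ∧ (∀ t, m = n t → FluxLe fh (u t) F) ∧
        Soft (f m) fh al be ∧ Soft fh (f (m + 1)) al' be' ∧ 0 ≤ be ∧ 0 ≤ be' ∧
        ENNReal.ofReal (F + (al + be) + (al' + be')) ≤ G m) := by
    intro m
    by_cases hm : n s ≤ m ∧ m < n e - 1
    · by_cases ht : ∃ t, m = n t
      · obtain ⟨t, rfl⟩ := ht
        have h1 : s ≤ t := hmono.le_iff_le.1 hm.1
        have h2 : t < e := by
          have : n t < n e := by omega
          exact hmono.lt_iff_lt.1 this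
        obtain ⟨fh, F, al, be, al', be', g1, g2, g3, g4, g5, g6, g7⟩ := hstar t h1 h2
        refine ⟨fh, F, al, be, al', be', g1, fun _ _ => ⟨g2.nonneg, ?_, g3, g4, g5, g6, g7⟩⟩
        intro t' ht'
        have : t = t' := hmono.injective ht'
        rw [← this]
        exact g2
      · push Not at ht
        obtain ⟨al, be, g1, g2, g3⟩ := hsoft m hm.1 hm.2 ht
        refine ⟨f m, 0, 0, 0, al, be, hf m, fun _ _ => ⟨le_rfl, fun t h => absurd h (ht t),
          Soft.refl _, g1, le_rfl, g2, ?_⟩⟩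
        simpa using g3
    · exact ⟨f m, 0, 0, 0, 0, 0, hf m, fun h1 h2 => absurd ⟨h1, h2⟩ hm⟩
  choose fh F al be al' be' hUI hrest using key
  refine ⟨fh, F, al, be, al', be', ⟨hn, hf, hUI, ?_, ?_, ?_, ?_, ?_, ?_⟩, ?_⟩
  · intro t h1 h2
    have h3 : n s ≤ n t := hmono.monotone h1
    have h4 : n t < n e - 1 := by
      have h5 := hn t
      have h6 : n (t + 1) ≤ n e := hmono.monotone h2
      omega
    exact (hrest (n t) h3 h4).2.1 t rfl
  · exact fun m h1 h2 => (hrest m h1 h2).1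
  · exact fun m h1 h2 => (hrest m h1 h2).2.2.1
  · exact fun m h1 h2 => (hrest m h1 h2).2.2.2.1
  · exact fun m h1 h2 => (hrest m h1 h2).2.2.2.2.1
  · exact fun m h1 h2 => (hrest m h1 h2).2.2.2.2.2.1
  · exact fun m h1 h2 => (hrest m h1 h2).2.2.2.2.2.2

/-- total charge in the extended reals -/
lemma MPath.total_le {u : ℕ → E} {n : ℕ → ℕ} {fe fh : ℕ → E → ℝ} {F al be al' be' : ℕ → ℝ}
    {s e : ℕ} (H : MPath u n fe fh F al be al' be' s e) {G : ℕ → ℝ≥0∞}
    (hG : ∀ m, n s ≤ m → m < n e - 1 → ENNReal.ofReal (chg F al be al' be' m) ≤ G m) :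
    ENNReal.ofReal (∑ m ∈ Finset.Ico (n s) (n e - 1), chg F al be al' be' m)
      ≤ ∑ m ∈ Finset.Ico (n s) (n e - 1), G m := by
  rw [ENNReal.ofReal_sum_of_nonneg fun m hm => by
    rw [Finset.mem_Ico] at hm
    exact H.chg_nonneg hm.1 hm.2]
  refine Finset.sum_le_sum fun m hm => ?_
  rw [Finset.mem_Ico] at hm
  exact hG m hm.1 hm.2

end

end Vale.Agent.P262.H44
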