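import Vale.Agent.P262.H998.GCHb2

/-!
# P262, milestone 2, block LBL: the path of fields seen at one label during one window

Time steps `t ∈ [s, e)`; the moves of the step `t` are `m ∈ [n t, n (t + 1))`, the star is the move
`n t`, the states of the window are `n s, …, n e - 1`.  Every move passes through a middle field
`fh m` (at a star the flux is taken there).  The word is the sequence indexed by the time steps.
-/

set_option linter.unusedSectionVars false
set_option linter.unusedVariables false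

namespace Vale.Agent.P262.H44

open MeasureTheory ProbabilityTheory Set Filter Topology Module
open scoped RealInnerProductSpace
open Vale.Agent.P262.H847 Vale.Agent.P262.H912 Vale.Agent.P262.H941
open Vale.Agent.P262.H274 (Slow SlowEx Cost Gam mix mix_even mix_odd mix_UI sum_Ico_double)
open Vale.Agent.P262.H174 (Soft)

variable {E : Type*} [NormedAddCommGroup E] [InnerProductSpace ℝ E] [FiniteDimensional ℝ E]
  [MeasurableSpace E] [BorelSpace E]

noncomputable section

/-- The data seen at one label during the window `[s, e)`. -/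
structure MPath (u : ℕ → E) (n : ℕ → ℕ) (fe fh : ℕ → E → ℝ) (F al be al' be' : ℕ → ℝ)
    (s e : ℕ) : Prop where
  step : ∀ t, n t + 2 ≤ n (t + 1)
  fe_UI : ∀ m, UI (fe m)
  fh_UI : ∀ m, UI (fh m)
  flux : ∀ t, s ≤ t → t < e → FluxLe (fh (n t)) (u t) (F (n t))
  F0 : ∀ m, n s ≤ m → m < n e - 1 → 0 ≤ F m
  s1 : ∀ m, n s ≤ m → m < n e - 1 → Soft (fe m) (fh m) (al m) (be m)
  s2 : ∀ m, n s ≤ m → m < n e - 1 → Soft (fh m) (fe (m + 1)) (al' m) (be' m)
  be0 : ∀ m, n s ≤ m → m < n e - 1 → 0 ≤ be m
  be0' : ∀ m, n s ≤ m → m < n e - 1 → 0 ≤ be' m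

/-- total charge of one move -/
def chg (F al be al' be' : ℕ → ℝ) (m : ℕ) : ℝ := F m + (al m + be m) + (al' m + be' m)

/-- index of the real time `t` in the doubled sequence -/
def tau2 (n : ℕ → ℕ) (e t : ℕ) : ℕ := if t < e then 2 * n t else 2 * (n e - 1)

namespace MPath

variable {u : ℕ → E} {n : ℕ → ℕ} {fe fh : ℕ → E → ℝ} {F al be al' be' : ℕ → ℝ} {s e : ℕ}

lemma n_lt (H : MPath u n fe fh F al be al' be' s e) (t : ℕ) : n t < n (t + 1) := by
  have := H.step t
  omega

lemma n_mono (H : MPath u n fe fh F al be al' be' s e) : StrictMono n :=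
  strictMono_nat_of_lt_succ H.n_lt

lemma n_lt_end (H : MPath u n fe fh F al be al' be' s e) {t : ℕ} (h : t < e) :
    n t + 1 < n e := by
  have h1 := H.step t
  have h2 : n (t + 1) ≤ n e := H.n_mono.monotone h
  omega

lemma chg_nonneg (H : MPath u n fe fh F al be al' be' s e) {m : ℕ} (h1 : n s ≤ m)
    (h2 : m < n e - 1) : 0 ≤ chg F al be al' be' m := by
  have e1 := H.F0 m h1 h2
  have e2 := (H.s1 m h1 h2).nonneg
  have e3 := (H.s2 m h1 h2).nonneg
  have e4 := H.be0 m h1 h2
  have e5 := H.be0' m h1 h2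
  unfold chg
  linarith

lemma gam_nonneg (H : MPath u n fe fh F al be al' be' s e) :
    0 ≤ ∑ m ∈ Finset.Ico (n s) (n e - 1), chg F al be al' be' m :=
  Finset.sum_nonneg fun t ht => by
    rw [Finset.mem_Ico] at ht
    exact H.chg_nonneg ht.1 ht.2

lemma tau2_lt {t : ℕ} (h : t < e) : tau2 n e t = 2 * n t := if_pos h

lemma tau2_end : tau2 n e e = 2 * (n e - 1) := if_neg (lt_irrefl e)

lemma tau2_mono (H : MPath u n fe fh F al be al' be' s e) : Monotone (tau2 n e) := by
  intro t t' h
  unfold tau2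
  by_cases h1 : t' < e
  · rw [if_pos h1, if_pos (lt_of_le_of_lt h h1)]
    have := H.n_mono.monotone h
    omega
  · rw [if_neg h1]
    by_cases h2 : t < e
    · rw [if_pos h2]
      have := H.n_lt_end h2
      omega
    · rw [if_neg h2]

lemma tau2_sig (H : MPath u n fe fh F al be al' be' s e) {t : ℕ} (h : t < e) :
    tau2 n e t ≤ 2 * n t + 1 ∧ 2 * n t + 1 < tau2 n e (t + 1) := by
  rw [tau2_lt h]
  refine ⟨by omega, ?_⟩
  by_cases h1 : t + 1 < e
  · rw [tau2_lt h1]
    have := H.step t
    omega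
  · have h2 : t + 1 = e := by omega
    rw [h2, tau2_end]
    have := H.step t
    rw [h2] at this
    omega

/-- the doubled sequence of fields -/
lemma ui (H : MPath u n fe fh F al be al' be' s e) : ∀ k, UI (mix fe fh k) :=
  mix_UI H.fe_UI H.fh_UI

lemma flux2 (H : MPath u n fe fh F al be al' be' s e) : ∀ t, s ≤ t → t < e →
    FluxLe (mix fe fh (2 * n t + 1)) (u t) (F (n t)) := by
  intro t h1 h2
  rw [mix_odd]
  exact H.flux t h1 h2

lemma range2 (H : MPath u n fe fh F al be al' be' s e) (hse : s < e) {k : ℕ}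
    (h1 : tau2 n e s ≤ k) (h2 : k < tau2 n e e) : 2 * n s ≤ k ∧ k < 2 * (n e - 1) := by
  rw [tau2_lt hse] at h1
  rw [tau2_end] at h2
  exact ⟨h1, h2⟩

lemma soft2 (H : MPath u n fe fh F al be al' be' s e) (hse : s < e) :
    ∀ k, tau2 n e s ≤ k → k < tau2 n e e →
      Soft (mix fe fh k) (mix fe fh (k + 1)) (mix al al' k) (mix be be' k) := by
  intro k h1 h2
  obtain ⟨h3, h4⟩ := H.range2 hse h1 h2
  rcases Nat.even_or_odd' k with ⟨m, rfl | rfl⟩
  · rw [mix_even, mix_odd, mix_even, mix_even]
    exact H.s1 m (by omega) (by omega)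
  · rw [show 2 * m + 1 + 1 = 2 * (m + 1) by ring, mix_odd, mix_even, mix_odd, mix_odd]
    exact H.s2 m (by omega) (by omega)

lemma beta2 (H : MPath u n fe fh F al be al' be' s e) (hse : s < e) :
    ∀ k, tau2 n e s ≤ k → k < tau2 n e e → 0 ≤ mix be be' k := by
  intro k h1 h2
  obtain ⟨h3, h4⟩ := H.range2 hse h1 h2
  rcases Nat.even_or_odd' k with ⟨m, rfl | rfl⟩
  · rw [mix_even]; exact H.be0 m (by omega) (by omega)
  · rw [mix_odd]; exact H.be0' m (by omega) (by omega)

/-- the stars of a window, as moves -/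
lemma sum_star_le (H : MPath u n fe fh F al be al' be' s e) (hse : s ≤ e) :
    ∑ t ∈ Finset.Ico s e, F (n t) ≤ ∑ m ∈ Finset.Ico (n s) (n e - 1), F m := by
  have hinj : ∀ t ∈ Finset.Ico s e, ∀ t' ∈ Finset.Ico s e, n t = n t' → t = t' :=
    fun t _ t' _ h => H.n_mono.injective h
  rw [← Finset.sum_image (f := F) (g := n) hinj]
  refine Finset.sum_le_sum_of_subset_of_nonneg ?_ ?_
  · intro m hm
    obtain ⟨t, ht, rfl⟩ := Finset.mem_image.1 hm
    rw [Finset.mem_Ico] at ht
    rw [Finset.mem_Ico]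
    have h1 := H.n_mono.monotone ht.1
    have h2 := H.n_lt_end ht.2
    exact ⟨h1, by omega⟩
  · intro m hm _
    rw [Finset.mem_Ico] at hm
    exact H.F0 m hm.1 hm.2

/-- **the total charge**: the right side of the gain-cost lemma along the doubled sequence is at
most the sum of the charges of the moves of the window. -/
theorem total (H : MPath u n fe fh F al be al' be' s e) (hse : s < e) :
    Gam (fun t => F (n t)) s e
      + Gam (fun k => mix al al' k + mix be be' k) (tau2 n e s) (tau2 n e e)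
      ≤ ∑ m ∈ Finset.Ico (n s) (n e - 1), chg F al be al' be' m := by
  have h1 := H.sum_star_le hse.le
  have h2 : n s ≤ n e - 1 := by
    have := H.n_lt_end hse
    omega
  have h3 : Gam (fun k => mix al al' k + mix be be' k) (tau2 n e s) (tau2 n e e)
      = ∑ m ∈ Finset.Ico (n s) (n e - 1), ((al m + be m) + (al' m + be' m)) := by
    unfold Gam
    rw [tau2_lt hse, tau2_end, sum_Ico_double _ h2]
    refine Finset.sum_congr rfl fun m _ => ?_
    simp only [mix_even, mix_odd]
  have h4 : ∑ m ∈ Finset.Ico (n s) (n e - 1), chg F al be al' be' m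
      = ∑ m ∈ Finset.Ico (n s) (n e - 1), F m
        + ∑ m ∈ Finset.Ico (n s) (n e - 1), ((al m + be m) + (al' m + be' m)) := by
    rw [← Finset.sum_add_distrib]
    refine Finset.sum_congr rfl fun m _ => ?_
    unfold chg
    ring
  rw [h3, h4]
  unfold Gam
  linarith

/-- the mass of the field changes by at most the charge -/
lemma mass_le (H : MPath u n fe fh F al be al' be' s e) {m : ℕ} (h1 : n s ≤ m)
    (h2 : m < n e - 1) :
    |∫ x, fe (m + 1) x ∂(stdGaussian E) - ∫ x, fe m x ∂(stdGaussian E)|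
      ≤ chg F al be al' be' m := by
  have e1 := (H.s1 m h1 h2).mass (H.fe_UI m) (H.fh_UI m)
  have e2 := (H.s2 m h1 h2).mass (H.fh_UI m) (H.fe_UI (m + 1))
  have e3 := H.F0 m h1 h2
  have e4 := H.be0 m h1 h2
  have e5 := H.be0' m h1 h2
  unfold chg
  rw [abs_le] at e1 e2 ⊢
  constructor <;> linarith

/-- the variation of the mass between two states of the window -/
theorem mass_var (H : MPath u n fe fh F al be al' be' s e) {m m' : ℕ} (h1 : n s ≤ m)
    (h2 : m ≤ n e - 1) (h3 : n s ≤ m') (h4 : m' ≤ n e - 1) :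
    |∫ x, fe m' x ∂(stdGaussian E) - ∫ x, fe m x ∂(stdGaussian E)|
      ≤ ∑ k ∈ Finset.Ico (n s) (n e - 1), chg F al be al' be' k := by
  have key : ∀ a b, n s ≤ a → a ≤ b → b ≤ n e - 1 →
      |∫ x, fe b x ∂(stdGaussian E) - ∫ x, fe a x ∂(stdGaussian E)|
        ≤ ∑ k ∈ Finset.Ico a b, chg F al be al' be' k := by
    intro a b ha hab
    induction b, hab using Nat.le_induction with
    | base => intro _; simp
    | succ b hab ih =>
      intro hb
      rw [Finset.sum_Ico_succ_top hab]
      have h5 := ih (by omega)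
      have h6 := H.mass_le (m := b) (by omega) (by omega)
      have h7 := abs_sub_le (∫ x, fe (b + 1) x ∂(stdGaussian E))
        (∫ x, fe b x ∂(stdGaussian E)) (∫ x, fe a x ∂(stdGaussian E))
      linarith
  have hsub : ∀ a b, n s ≤ a → b ≤ n e - 1 →
      ∑ k ∈ Finset.Ico a b, chg F al be al' be' k
        ≤ ∑ k ∈ Finset.Ico (n s) (n e - 1), chg F al be al' be' k := by
    intro a b ha hb
    refine Finset.sum_le_sum_of_subset_of_nonneg (Finset.Ico_subset_Ico ha hb) ?_
    intro k hk _
    rw [Finset.mem_Ico] at hk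
    exact H.chg_nonneg hk.1 hk.2
  rcases le_total m m' with h | h
  · exact (key m m' h1 h h4).trans (hsub _ _ h1 h4)
  · rw [abs_sub_comm]
    exact (key m' m h3 h h2).trans (hsub _ _ h3 h2)

end MPath

end

end Vale.Agent.P262.H44
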