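import Vale.Agent.P262.H44.L2Lbl
import Vale.Agent.P262.H998.Core2

/-!
# P262, milestone 2, block LBL: labels of class zero and incomplete windows

The three other forms of the labelwise block lemma at a label `x` of a label space `W`:
`own_any_fib`, `sick_fib`, `sick_any_fib` (from the core `H998.Blk`).
-/

set_option linter.unusedSectionVars false
set_option linter.unusedVariables false

namespace Vale.Agent.P262.H44

open MeasureTheory ProbabilityTheory Set Filter Topology Module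
open scoped RealInnerProductSpace ENNReal
open Vale.Agent.P262.H847 Vale.Agent.P262.H912 Vale.Agent.P262.H941
open Vale.Agent.P262.H274 (Slow SlowEx Cost Gam mix mix_even mix_odd mix_UI sum_Ico_double)
open Vale.Agent.P262.H174 (Soft)
open Vale.Agent.P262.H395 (fib)
open Vale.Agent.P262.H852 (sl slice measurable_sl_right measurableSet_slice convex_slice real_slice
  indicator_slice fib_eq fib_ofReal)
open Vale.Agent.P262.H998 (Blk Gtot Dd)

noncomputable section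

section euclid

variable {E : Type*} [NormedAddCommGroup E] [InnerProductSpace ℝ E] [FiniteDimensional ℝ E]
  [MeasurableSpace E] [BorelSpace E]

namespace MPath

variable {u : ℕ → E} {n : ℕ → ℕ} {fe fh : ℕ → E → ℝ} {F al be al' be' : ℕ → ℝ} {s e : ℕ}

/-- the core data of a window -/
theorem blk (H : MPath u n fe fh F al be al' be' s e) (hse : s < e) {K : ℕ → Set E} {h : ℝ}
    (hK : ∀ m, n s ≤ m → m ≤ n e - 1 → Convex ℝ (K m))
    (hKm : ∀ m, n s ≤ m → m ≤ n e - 1 → MeasurableSet (K m))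
    (hcl : ∀ m, n s ≤ m → m ≤ n e - 1 →
      ∫ x, |fe m x - (K m)ᶜ.indicator (fun _ => (1:ℝ)) x| ∂(stdGaussian E) ≤ h) :
    Blk (mix fe fh) (fun t => K (stt n e t)) u (fun t => F (n t)) (mix al al') (mix be be')
      (tau2 n e) (fun t => 2 * n t + 1) h s e where
  ui := H.ui
  mono := H.tau2_mono
  lt := hse
  sig := fun t _ h2 => H.tau2_sig h2
  flux := H.flux2
  soft := H.soft2 hse
  beta := H.beta2 hse
  conv := fun t h1 h2 => hK _ (H.stt_mem hse h1 h2).1 (H.stt_mem hse h1 h2).2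
  meas := fun t h1 h2 => hKm _ (H.stt_mem hse h1 h2).1 (H.stt_mem hse h1 h2).2
  hid := by
    intro t h1 h2
    obtain ⟨h3, h4⟩ := H.stt_mem hse h1 h2
    show ∫ x, |mix fe fh (tau2 n e t) x - _| ∂(stdGaussian E) ≤ _
    rw [mix_tau2]
    exact hcl _ h3 h4

lemma state_mem (H : MPath u n fe fh F al be al' be' s e) (hse : s < e) {m : ℕ} (h1 : n s ≤ m)
    (h2 : m ≤ n e - 1) : tau2 n e s ≤ 2 * m ∧ 2 * m ≤ tau2 n e e := by
  rw [tau2_lt hse, tau2_end]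
  omega

lemma gtot_le (H : MPath u n fe fh F al be al' be' s e) (hse : s < e) :
    Gtot (fun t => F (n t)) (mix al al') (mix be be') (tau2 n e) s e
      ≤ ∑ m ∈ Finset.Ico (n s) (n e - 1), chg F al be al' be' m := H.total hse

end MPath

end euclid

variable {E : Type*} [NormedAddCommGroup E] [InnerProductSpace ℝ E] [FiniteDimensional ℝ E]
  [MeasurableSpace E] [BorelSpace E]

lemma int_sf {W : Submodule ℝ E} {x : E} {f : E → ℝ} (hf : UI f) :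
    ENNReal.ofReal (∫ z, sf W x f z ∂(stdGaussian Wᗮ))
      = fib W (fun y => ENNReal.ofReal (f y)) x := by
  rw [fib_ofReal W hf.meas hf.nonneg x ((sf_UI W x hf).integrable _)]
  rfl

lemma int_sf_nonneg {W : Submodule ℝ E} {x : E} {f : E → ℝ} (hf : UI f) :
    0 ≤ ∫ z, sf W x f z ∂(stdGaussian Wᗮ) := integral_nonneg fun z => (sf_UI W x hf).nonneg z

/-- data of one window at one label: fields `f m`, bodies `K m`, charges `G m`. -/
structure WinAt (W : Submodule ℝ E) (x : E) (n : ℕ → ℕ) (s e : ℕ) (f : ℕ → E → ℝ)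
    (u : ℕ → Wᗮ) (K : ℕ → Set E) (G : ℕ → ℝ≥0∞) (h : ℝ) : Prop where
  lt : s < e
  step : ∀ t, n t + 2 ≤ n (t + 1)
  ui : ∀ m, UI (f m)
  star : ∀ t, s ≤ t → t < e →
    StarAt (u t) (sf W x (f (n t))) (sf W x (f (n t + 1))) (G (n t))
  soft : ∀ m, n s ≤ m → m < n e - 1 → (∀ t, m ≠ n t) →
    SoftAt (sf W x (f m)) (sf W x (f (m + 1))) (G m)
  conv : ∀ m, n s ≤ m → m ≤ n e - 1 → Convex ℝ (K m)
  meas : ∀ m, n s ≤ m → m ≤ n e - 1 → MeasurableSet (K m)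
  close : ∀ m, n s ≤ m → m ≤ n e - 1 → dst W (f m) (K m) x ≤ ENNReal.ofReal h

namespace WinAt

variable {W : Submodule ℝ E} {x : E} {n : ℕ → ℕ} {s e : ℕ} {f : ℕ → E → ℝ} {u : ℕ → Wᗮ}
  {K : ℕ → Set E} {G : ℕ → ℝ≥0∞} {h : ℝ}

/-- mean of the field at the label -/
def mF (W : Submodule ℝ E) (x : E) (f : ℕ → E → ℝ) (m : ℕ) : ℝ≥0∞ :=
  fib W (fun y => ENNReal.ofReal (f m y)) x

theorem exists_blk (Hw : WinAt W x n s e f u K G h) (hh : 0 ≤ h) :
    ∃ (fh : ℕ → Wᗮ → ℝ) (F al be al' be' : ℕ → ℝ),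
      MPath u n (fun m => sf W x (f m)) fh F al be al' be' s e ∧
      Blk (mix (fun m => sf W x (f m)) fh) (fun t => slice W x (K (MPath.stt n e t))) u
        (fun t => F (n t)) (mix al al') (mix be be') (tau2 n e) (fun t => 2 * n t + 1) h s e ∧
      ENNReal.ofReal (Gtot (fun t => F (n t)) (mix al al') (mix be be') (tau2 n e) s e)
        ≤ ∑ m ∈ Finset.Ico (n s) (n e - 1), G m := by
  obtain ⟨fh, F, al, be, al', be', H, hG⟩ := exists_mpath (u := u)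
    (f := fun m => sf W x (f m)) Hw.step (fun m => sf_UI W x (Hw.ui m)) Hw.star Hw.soft
  refine ⟨fh, F, al, be, al', be', H, ?_, ?_⟩
  · refine H.blk Hw.lt (K := fun m => slice W x (K m))
      (fun m h1 h2 => convex_slice W x (Hw.conv m h1 h2))
      (fun m h1 h2 => measurableSet_slice W x (Hw.meas m h1 h2)) ?_
    intro m h1 h2
    have h3 := Hw.close m h1 h2
    rw [← int_sf_close (Hw.ui m) (Hw.meas m h1 h2), ENNReal.ofReal_le_ofReal_iff hh] at h3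
    exact h3
  · exact (ENNReal.ofReal_le_ofReal (H.gtot_le Hw.lt)).trans (H.total_le hG)

/-- **any window, any label**: a value of the mean of the field is at most `4` times any other value,
or it is paid. -/
theorem own_any_fib (Hw : WinAt W x n s e f u K G h) (hh : 0 ≤ h) {D : ℝ} (hD : 0 ≤ D) {m0 : ℕ}
    (h1 : n s ≤ m0) (h2 : m0 ≤ n e - 1) (hpk : ENNReal.ofReal (3 / 4 * D) ≤ mF W x f m0) {o : ℕ}
    (h3 : n s ≤ o) (h4 : o ≤ n e - 1) :
    ENNReal.ofReal D ≤ 4 * mF W x f o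
      ∨ ENNReal.ofReal D ≤ 2 * ∑ m ∈ Finset.Ico (n s) (n e - 1), G m := by
  obtain ⟨fh, F, al, be, al', be', H, B, hG⟩ := Hw.exists_blk hh
  have hpk' : 3 / 4 * D ≤ ∫ z, mix (fun m => sf W x (f m)) fh (2 * m0) z ∂(stdGaussian Wᗮ) := by
    rw [mix_even]
    have := hpk
    unfold mF at this
    rw [← int_sf (Hw.ui m0), ENNReal.ofReal_le_ofReal_iff (int_sf_nonneg (Hw.ui m0))] at this
    exact this
  obtain ⟨g1, g2⟩ := H.state_mem Hw.lt h1 h2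
  obtain ⟨g3, g4⟩ := H.state_mem Hw.lt h3 h4
  rcases B.own_any g1 g2 hpk' g3 g4 with h5 | h5
  · left
    rw [mix_even] at h5
    refine (ENNReal.ofReal_le_ofReal h5).trans ?_
    rw [ENNReal.ofReal_mul (by norm_num), int_sf (Hw.ui o)]
    unfold mF
    apply le_of_eq
    congr 1
    norm_num
  · right
    refine (ENNReal.ofReal_le_ofReal h5).trans ?_
    rw [ENNReal.ofReal_mul (by norm_num)]
    refine le_trans (le_of_eq ?_) (mul_le_mul_right hG 2)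
    congr 1
    norm_num

/-- **class zero, complete window** -/
theorem sick_fib (Hw : WinAt W x n s e f u K G h) (hh : 0 ≤ h) {N ρ : ℝ} (hN0 : 0 < N)
    (hN1 : N ≤ 1) (hρ0 : 0 < ρ) (hρ1 : ρ ≤ 1 / 324) {q₀ c : ℝ} {J : ℕ} (hq₀ : 0 < q₀)
    (hq₀' : q₀ ≤ 1 / 40) (hc0 : 0 < c) (hc1 : c ≤ 1 / 8)
    (hJ : 1500 * c * (J + 1) + 32 * (1 / 2) ^ J ≤ q₀ / 300)
    (hNc : N * Real.sqrt (1 - Real.log (1 / 40)) ≤ c) (hh' : h ≤ (q₀ / 2000) ^ 2 * (1 / 40))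
    (hpk : ∃ m, n s ≤ m ∧ m ≤ n e - 1 ∧ ENNReal.ofReal (1 / 16) ≤ mF W x f m)
    (hal : ∃ m, n s ≤ m ∧ m ≤ n e - 1 ∧ mF W x f m ≤ ENNReal.ofReal (1 - 3 / 2 * q₀))
    (hS : ¬ Slow u N 1 s e) :
    ENNReal.ofReal (min (c / (8 * 2 ^ J) * (N / 40)) (q₀ / 4) * Cost (Slow u N) ρ s e)
      ≤ ∑ m ∈ Finset.Ico (n s) (n e - 1), G m := by
  obtain ⟨fh, F, al, be, al', be', H, B, hG⟩ := Hw.exists_blk hh
  obtain ⟨m0, h1, h2, hpk⟩ := hpk
  obtain ⟨m1, h3, h4, hal⟩ := hal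
  obtain ⟨g1, g2⟩ := H.state_mem Hw.lt h1 h2
  obtain ⟨g3, g4⟩ := H.state_mem Hw.lt h3 h4
  refine le_trans (ENNReal.ofReal_le_ofReal ?_) hG
  refine B.sick_complete hN0 hN1 hρ0 hρ1 hq₀ hq₀' hc0 hc1 hJ g1 g2 ?_ g3 g4 ?_ hNc hh' hS
  · rw [mix_even]
    unfold mF at hpk
    rw [← int_sf (Hw.ui m0), ENNReal.ofReal_le_ofReal_iff (int_sf_nonneg (Hw.ui m0))] at hpk
    exact hpk
  · rw [mix_even]
    unfold mF at hal
    rw [← int_sf (Hw.ui m1), ENNReal.ofReal_le_ofReal_iff (by linarith)] at hal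
    exact hal

/-- **class zero, any window** -/
theorem sick_any_fib (Hw : WinAt W x n s e f u K G h) (hh : 0 ≤ h) {q₀ : ℝ}
    (hq₀' : q₀ ≤ 1 / 40)
    (hpk : ∃ m, n s ≤ m ∧ m ≤ n e - 1 ∧ ENNReal.ofReal (1 / 16) ≤ mF W x f m)
    (hal : ∃ m, n s ≤ m ∧ m ≤ n e - 1 ∧ mF W x f m ≤ ENNReal.ofReal (1 - 3 / 2 * q₀))
    {o o' : ℕ} (ho : n s ≤ o) (ho1 : o ≤ n e - 1) (ho' : n s ≤ o') (ho1' : o' ≤ n e - 1) :
    (ENNReal.ofReal q₀ ≤ mF W x f o ∧ ENNReal.ofReal q₀ ≤ 1 - mF W x f o')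
      ∨ ENNReal.ofReal q₀ ≤ 2 * ∑ m ∈ Finset.Ico (n s) (n e - 1), G m := by
  obtain ⟨fh, F, al, be, al', be', H, B, hG⟩ := Hw.exists_blk hh
  obtain ⟨m0, h1, h2, hpk⟩ := hpk
  obtain ⟨m1, h3, h4, hal⟩ := hal
  obtain ⟨g1, g2⟩ := H.state_mem Hw.lt h1 h2
  obtain ⟨g3, g4⟩ := H.state_mem Hw.lt h3 h4
  obtain ⟨g5, g6⟩ := H.state_mem Hw.lt ho ho1
  obtain ⟨g7, g8⟩ := H.state_mem Hw.lt ho' ho1'
  have hpk' : 1 / 16 ≤ ∫ z, mix (fun m => sf W x (f m)) fh (2 * m0) z ∂(stdGaussian Wᗮ) := by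
    rw [mix_even]
    unfold mF at hpk
    rw [← int_sf (Hw.ui m0), ENNReal.ofReal_le_ofReal_iff (int_sf_nonneg (Hw.ui m0))] at hpk
    exact hpk
  have hal' : ∫ z, mix (fun m => sf W x (f m)) fh (2 * m1) z ∂(stdGaussian Wᗮ)
      ≤ 1 - 3 / 2 * q₀ := by
    rw [mix_even]
    unfold mF at hal
    rw [← int_sf (Hw.ui m1), ENNReal.ofReal_le_ofReal_iff (by linarith)] at hal
    exact hal
  rcases B.sick_any hq₀' g1 g2 hpk' g3 g4 hal' g5 g6 g7 g8 with h5 | h5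
  · left
    rw [mix_even, mix_even, le_min_iff] at h5
    refine ⟨?_, ?_⟩
    · unfold mF
      rw [← int_sf (Hw.ui o)]
      exact ENNReal.ofReal_le_ofReal h5.1
    · unfold mF
      rw [← int_sf (Hw.ui o'), ← ENNReal.ofReal_one,
        ← ENNReal.ofReal_sub _ (int_sf_nonneg (Hw.ui o'))]
      exact ENNReal.ofReal_le_ofReal h5.2
  · right
    refine (ENNReal.ofReal_le_ofReal h5).trans ?_
    rw [ENNReal.ofReal_mul (by norm_num)]
    refine le_trans (le_of_eq ?_) (mul_le_mul_right hG 2)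
    congr 1
    norm_num

/-- **class `≥ 1`, complete window** -/
theorem own_fib (Hw : WinAt W x n s e f u K G h) {N ρ : ℝ} (hN0 : 0 < N) (hN1 : N ≤ 1)
    (hρ0 : 0 < ρ) (hρ1 : ρ ≤ 1 / 324) {D c0 : ℝ} (hD0 : 0 < D) (hD1 : D ≤ 7 / 8) (hc0 : 0 ≤ c0)
    (hc01 : c0 ≤ 1) (hlow : c0 / 4 ≤ N * Real.sqrt (1 - Real.log D))
    (hup : N * Real.sqrt (1 - Real.log (D / 4)) ≤ 1 / 10 ^ 9)
    (hD : ∀ m, n s ≤ m → m ≤ n e - 1 → fib W ((K m)ᶜ.indicator 1) x ≤ ENNReal.ofReal D)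
    (hpk : ∃ m, n s ≤ m ∧ m ≤ n e - 1 ∧
      ENNReal.ofReal (7 / 8 * D) ≤ fib W ((K m)ᶜ.indicator 1) x)
    (hh : h ≤ 1 / (4 * 10 ^ 10) * D) (hS : ¬ Slow u N 1 s e) :
    ENNReal.ofReal (c0 / (16 * 10 ^ 15) * D * Cost (Slow u N) ρ s e)
      ≤ ∑ m ∈ Finset.Ico (n s) (n e - 1), G m :=
  H44.own_fib Hw.lt Hw.step Hw.ui Hw.star Hw.soft hN0 hN1 hρ0 hρ1 Hw.conv Hw.meas hD0 hD1 hc0 hc01
    hlow hup hD hpk (fun m h1 h2 => (Hw.close m h1 h2).trans (ENNReal.ofReal_le_ofReal hh)) hS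

/-- **class `c + 1`, complete window**, with the numbers of the classes: `N = c0 2^{-(c+1)}`, the
largest dead mass `D` of the window lies between the thresholds. -/
theorem own_class (Hw : WinAt W x n s e f u K G h) {ρ : ℝ}
    (hρ0 : 0 < ρ) (hρ1 : ρ ≤ 1 / 324) {D c0 : ℝ} {c : ℕ} (hc0 : 0 < c0)
    (hc01 : c0 ≤ 1 / (2 * 10 ^ 9)) (hD1 : D ≤ 1 / 10) (hc : c = 0 ∨ D ≤ thr c)
    (hD2 : thr (c + 1) ≤ D)
    (hD : ∀ m, n s ≤ m → m ≤ n e - 1 → fib W ((K m)ᶜ.indicator 1) x ≤ ENNReal.ofReal D)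
    (hpk : ∃ m, n s ≤ m ∧ m ≤ n e - 1 ∧
      ENNReal.ofReal (7 / 8 * D) ≤ fib W ((K m)ᶜ.indicator 1) x)
    (hh : h ≤ 1 / (4 * 10 ^ 10) * D) (hS : ¬ Slow u (c0 * (1 / 2) ^ (c + 1)) 1 s e) :
    ENNReal.ofReal (c0 / (16 * 10 ^ 15) * D * Cost (Slow u (c0 * (1 / 2) ^ (c + 1))) ρ s e)
      ≤ ∑ m ∈ Finset.Ico (n s) (n e - 1), G m := by
  have hD0 : 0 < D := (thr_pos _).trans_le hD2
  have h1 : (1 / 2 : ℝ) ^ (c + 1) ≤ 1 := pow_le_one₀ (by norm_num) (by norm_num)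
  refine Hw.own_fib (by positivity) (by nlinarith) hρ0 hρ1 hD0 (by linarith) hc0.le
    (by linarith) ?_ ?_ hD hpk hh hS
  · have := nc_lower (c := c) hc0.le hD0 (by linarith) hc
    linarith
  · have := nc_upper (c := c) (D := D / 4) hc0.le (by linarith)
    linarith

end WinAt

end

end Vale.Agent.P262.H44
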