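import Vale.Agent.P262.H44.L2Sick

/-!
# P262, milestone 2, block LBL: labels of class zero, peak `1/24`

The same as `H998.Blk.sick_complete`, `sick_any`, `WinAt.sick_fib`, `sick_any_fib` with the peak
`1/24` in the place of `1/16`: the maximal deficit of a block is taken over intersections of two
consecutive bodies, so the states themselves reach only one half of it.
-/

set_option linter.unusedSectionVars false
set_option linter.unusedVariables false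

namespace Vale.Agent.P262.H44

open MeasureTheory ProbabilityTheory Set Filter Topology Module
open scoped RealInnerProductSpace ENNReal
open Vale.Agent.P262.H847 Vale.Agent.P262.H912 Vale.Agent.P262.H941
open Vale.Agent.P262.H274 (Slow SlowEx Cost Gam mix mix_even mix_odd mix_UI sum_Ico_double)
open Vale.Agent.P262.H174 (Soft)
open Vale.Agent.P262.H395 (fib)
open Vale.Agent.P262.H852 (sl slice measurable_sl_right measurableSet_slice convex_slice real_slice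
  indicator_slice fib_eq fib_ofReal)
open Vale.Agent.P262.H998 (Blk Gtot Dd Dd_nonneg Dd_le_one gain_cost_b_ref)

noncomputable section

section euclid

variable {E : Type*} [NormedAddCommGroup E] [InnerProductSpace ℝ E] [FiniteDimensional ℝ E]
  [MeasurableSpace E] [BorelSpace E]

variable {e : ℕ → E → ℝ} {K : ℕ → Set E} {v : ℕ → E} {F α β : ℕ → ℝ} {τ σ : ℕ → ℕ}
  {h : ℝ} {a b : ℕ}

theorem sick_complete24 (H : Blk e K v F α β τ σ h a b) {N ρ : ℝ} (hN0 : 0 < N) (hN1 : N ≤ 1)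
    (hρ0 : 0 < ρ) (hρ1 : ρ ≤ 1 / 324) {q₀ c : ℝ} {J : ℕ} (hq₀ : 0 < q₀) (hq₀' : q₀ ≤ 1 / 40)
    (hc0 : 0 < c) (hc1 : c ≤ 1 / 8) (hJ : 1500 * c * (J + 1) + 32 * (1 / 2) ^ J ≤ q₀ / 300)
    {s0 : ℕ} (hs0a : τ a ≤ s0) (hs0b : s0 ≤ τ b)
    (hpeak : 1 / 24 ≤ ∫ x, e s0 x ∂(stdGaussian E))
    {s1 : ℕ} (hs1a : τ a ≤ s1) (hs1b : s1 ≤ τ b)
    (halive : ∫ x, e s1 x ∂(stdGaussian E) ≤ 1 - 3 / 2 * q₀)
    (hNc : N * Real.sqrt (1 - Real.log (1 / 40)) ≤ c)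
    (hh : h ≤ (q₀ / 2000) ^ 2 * (1 / 40)) (hS : ¬ Slow v N 1 a b) :
    min (c / (8 * 2 ^ J) * (N / 40)) (q₀ / 4) * Cost (Slow v N) ρ a b ≤ Gtot F α β τ a b := by
  have hΓ := H.tot_nonneg
  have hC1 := H.cost_le_one hN0.le hρ0.le
  have hC0 : 0 ≤ Cost (Slow v N) ρ a b := Vale.Agent.P262.H274.cost_nonneg hρ0.le a b
  have h5 : (q₀ / 2000) ^ 2 ≤ 1 / 8 * q₀ := by nlinarith
  have h6 : h ≤ 1 / 320 * q₀ := by
    refine hh.trans ?_
    linarith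
  by_cases hlow : ∀ t, a ≤ t → t ≤ b → 1 / 40 ≤ Dd K t
  · by_cases hup : ∀ t, a ≤ t → t ≤ b → Dd K t ≤ 1 - q₀
    · have h1 := gain_cost_b_ref H.ui hN0 hN1 hρ0 hρ1 hq₀ hc0 hc1 hJ H.mono H.lt H.sig H.flux
        H.soft H.beta H.conv H.meas (fun t h1 h2 => by
          have := hlow t h1 h2
          show 0 < Dd K t
          linarith) hup (fun t h1 h2 => by
          refine le_trans ?_ hNc
          apply mul_le_mul_of_nonneg_left _ hN0.le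
          apply Real.sqrt_le_sqrt
          have := Real.log_le_log (by norm_num : (0:ℝ) < 1 / 40) (hlow t h1 h2)
          show 1 - Real.log (Dd K t) ≤ _
          linarith) (fun t h1 h2 => by
          refine (H.hid t h1 h2).trans (hh.trans ?_)
          exact mul_le_mul_of_nonneg_left (hlow t h1 h2) (by positivity)) hS le_rfl H.lt.le
      change c / (8 * 2 ^ J) * (N * LL (Dd K a)) * Cost (Slow v N) ρ a b
        ≤ Gtot F α β τ a b at h1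
      refine le_trans ?_ h1
      have h7 : 1 / 40 ≤ LL (Dd K a) := (hlow a le_rfl H.lt.le).trans
        (le_LL (Dd_nonneg K a) (Dd_le_one K a))
      calc min (c / (8 * 2 ^ J) * (N / 40)) (q₀ / 4) * Cost (Slow v N) ρ a b
          ≤ c / (8 * 2 ^ J) * (N / 40) * Cost (Slow v N) ρ a b :=
            mul_le_mul_of_nonneg_right (min_le_left _ _) hC0
        _ = c / (8 * 2 ^ J) * (N * (1 / 40)) * Cost (Slow v N) ρ a b := by ring
        _ ≤ _ := by gcongr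
    · push Not at hup
      obtain ⟨t, h1, h2, h3⟩ := hup
      have h4 := (abs_le.mp (H.var h1 h2 hs1a hs1b)).1
      calc min (c / (8 * 2 ^ J) * (N / 40)) (q₀ / 4) * Cost (Slow v N) ρ a b
          ≤ q₀ / 4 * Cost (Slow v N) ρ a b :=
            mul_le_mul_of_nonneg_right (min_le_right _ _) hC0
        _ ≤ q₀ / 4 * 1 := mul_le_mul_of_nonneg_left hC1 (by positivity)
        _ ≤ Gtot F α β τ a b := by linarith
  · push Not at hlow
    obtain ⟨t, h1, h2, h3⟩ := hlow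
    have h4 := (abs_le.mp (H.var h1 h2 hs0a hs0b)).2
    calc min (c / (8 * 2 ^ J) * (N / 40)) (q₀ / 4) * Cost (Slow v N) ρ a b
        ≤ q₀ / 4 * Cost (Slow v N) ρ a b :=
          mul_le_mul_of_nonneg_right (min_le_right _ _) hC0
      _ ≤ q₀ / 4 * 1 := mul_le_mul_of_nonneg_left hC1 (by positivity)
      _ ≤ Gtot F α β τ a b := by linarith

theorem sick_any24 (H : Blk e K v F α β τ σ h a b) {q₀ : ℝ} (hq₀' : q₀ ≤ 1 / 40)
    {s0 : ℕ} (hs0a : τ a ≤ s0) (hs0b : s0 ≤ τ b)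
    (hpeak : 1 / 24 ≤ ∫ x, e s0 x ∂(stdGaussian E))
    {s1 : ℕ} (hs1a : τ a ≤ s1) (hs1b : s1 ≤ τ b)
    (halive : ∫ x, e s1 x ∂(stdGaussian E) ≤ 1 - 3 / 2 * q₀)
    {o o' : ℕ} (hoa : τ a ≤ o) (hob : o ≤ τ b) (hoa' : τ a ≤ o') (hob' : o' ≤ τ b) :
    q₀ ≤ min (∫ x, e o x ∂(stdGaussian E)) (1 - ∫ x, e o' x ∂(stdGaussian E))
      ∨ q₀ ≤ 2 * Gtot F α β τ a b := by
  by_cases h1 : q₀ ≤ min (∫ x, e o x ∂(stdGaussian E)) (1 - ∫ x, e o' x ∂(stdGaussian E))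
  · exact Or.inl h1
  · right
    rw [le_min_iff] at h1
    have h2 := (abs_le.mp (H.var_field hs0a hs0b hoa hob)).2
    have h3 := (abs_le.mp (H.var_field hoa' hob' hs1a hs1b)).2
    by_contra h4
    push Not at h4
    apply h1
    constructor <;> linarith

end euclid

variable {E : Type*} [NormedAddCommGroup E] [InnerProductSpace ℝ E] [FiniteDimensional ℝ E]
  [MeasurableSpace E] [BorelSpace E]

namespace WinAt

variable {W : Submodule ℝ E} {x : E} {n : ℕ → ℕ} {s e : ℕ} {f : ℕ → E → ℝ} {u : ℕ → Wᗮ}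
  {K : ℕ → Set E} {G : ℕ → ℝ≥0∞} {h : ℝ}

/-- **class zero, complete window** -/
theorem sick24_fib (Hw : WinAt W x n s e f u K G h) (hh : 0 ≤ h) {N ρ : ℝ} (hN0 : 0 < N)
    (hN1 : N ≤ 1) (hρ0 : 0 < ρ) (hρ1 : ρ ≤ 1 / 324) {q₀ c : ℝ} {J : ℕ} (hq₀ : 0 < q₀)
    (hq₀' : q₀ ≤ 1 / 40) (hc0 : 0 < c) (hc1 : c ≤ 1 / 8)
    (hJ : 1500 * c * (J + 1) + 32 * (1 / 2) ^ J ≤ q₀ / 300)
    (hNc : N * Real.sqrt (1 - Real.log (1 / 40)) ≤ c) (hh' : h ≤ (q₀ / 2000) ^ 2 * (1 / 40))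
    (hpk : ∃ m, n s ≤ m ∧ m ≤ n e - 1 ∧ ENNReal.ofReal (1 / 24) ≤ mF W x f m)
    (hal : ∃ m, n s ≤ m ∧ m ≤ n e - 1 ∧ mF W x f m ≤ ENNReal.ofReal (1 - 3 / 2 * q₀))
    (hS : ¬ Slow u N 1 s e) :
    ENNReal.ofReal (min (c / (8 * 2 ^ J) * (N / 40)) (q₀ / 4) * Cost (Slow u N) ρ s e)
      ≤ ∑ m ∈ Finset.Ico (n s) (n e - 1), G m := by
  obtain ⟨fh, F, al, be, al', be', H, B, hG⟩ := Hw.exists_blk hh
  obtain ⟨m0, h1, h2, hpk⟩ := hpk
  obtain ⟨m1, h3, h4, hal⟩ := hal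
  obtain ⟨g1, g2⟩ := H.state_mem Hw.lt h1 h2
  obtain ⟨g3, g4⟩ := H.state_mem Hw.lt h3 h4
  refine le_trans (ENNReal.ofReal_le_ofReal ?_) hG
  refine sick_complete24 B hN0 hN1 hρ0 hρ1 hq₀ hq₀' hc0 hc1 hJ g1 g2 ?_ g3 g4 ?_ hNc hh' hS
  · rw [mix_even]
    unfold mF at hpk
    rw [← int_sf (Hw.ui m0), ENNReal.ofReal_le_ofReal_iff (int_sf_nonneg (Hw.ui m0))] at hpk
    exact hpk
  · rw [mix_even]
    unfold mF at hal
    rw [← int_sf (Hw.ui m1), ENNReal.ofReal_le_ofReal_iff (by linarith)] at hal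
    exact hal

/-- **class zero, any window** -/
theorem sick24_any_fib (Hw : WinAt W x n s e f u K G h) (hh : 0 ≤ h) {q₀ : ℝ}
    (hq₀' : q₀ ≤ 1 / 40)
    (hpk : ∃ m, n s ≤ m ∧ m ≤ n e - 1 ∧ ENNReal.ofReal (1 / 24) ≤ mF W x f m)
    (hal : ∃ m, n s ≤ m ∧ m ≤ n e - 1 ∧ mF W x f m ≤ ENNReal.ofReal (1 - 3 / 2 * q₀))
    {o o' : ℕ} (ho : n s ≤ o) (ho1 : o ≤ n e - 1) (ho' : n s ≤ o') (ho1' : o' ≤ n e - 1) :
    (ENNReal.ofReal q₀ ≤ mF W x f o ∧ ENNReal.ofReal q₀ ≤ 1 - mF W x f o')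
      ∨ ENNReal.ofReal q₀ ≤ 2 * ∑ m ∈ Finset.Ico (n s) (n e - 1), G m := by
  obtain ⟨fh, F, al, be, al', be', H, B, hG⟩ := Hw.exists_blk hh
  obtain ⟨m0, h1, h2, hpk⟩ := hpk
  obtain ⟨m1, h3, h4, hal⟩ := hal
  obtain ⟨g1, g2⟩ := H.state_mem Hw.lt h1 h2
  obtain ⟨g3, g4⟩ := H.state_mem Hw.lt h3 h4
  obtain ⟨g5, g6⟩ := H.state_mem Hw.lt ho ho1
  obtain ⟨g7, g8⟩ := H.state_mem Hw.lt ho' ho1'
  have hpk' : 1 / 24 ≤ ∫ z, mix (fun m => sf W x (f m)) fh (2 * m0) z ∂(stdGaussian Wᗮ) := by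
    rw [mix_even]
    unfold mF at hpk
    rw [← int_sf (Hw.ui m0), ENNReal.ofReal_le_ofReal_iff (int_sf_nonneg (Hw.ui m0))] at hpk
    exact hpk
  have hal' : ∫ z, mix (fun m => sf W x (f m)) fh (2 * m1) z ∂(stdGaussian Wᗮ)
      ≤ 1 - 3 / 2 * q₀ := by
    rw [mix_even]
    unfold mF at hal
    rw [← int_sf (Hw.ui m1), ENNReal.ofReal_le_ofReal_iff (by linarith)] at hal
    exact hal
  rcases sick_any24 B hq₀' g1 g2 hpk' g3 g4 hal' g5 g6 g7 g8 with h5 | h5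
  · left
    rw [mix_even, mix_even, le_min_iff] at h5
    refine ⟨?_, ?_⟩
    · unfold mF
      rw [← int_sf (Hw.ui o)]
      exact ENNReal.ofReal_le_ofReal h5.1
    · unfold mF
      rw [← int_sf (Hw.ui o'), ← ENNReal.ofReal_one,
        ← ENNReal.ofReal_sub _ (int_sf_nonneg (Hw.ui o'))]
      exact ENNReal.ofReal_le_ofReal h5.2
  · right
    refine (ENNReal.ofReal_le_ofReal h5).trans ?_
    rw [ENNReal.ofReal_mul (by norm_num)]
    refine le_trans (le_of_eq ?_) (mul_le_mul_right hG 2)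
    congr 1
    norm_num

end WinAt

/-! ### numbers, with a factor `1/8` of room -/

/-- upper number: `D` above the threshold of its class, with a factor `1/8` of room -/
lemma nc_upper8 {c : ℕ} {c0 D : ℝ} (hc0 : 0 ≤ c0) (h : thr (c + 1) / 8 ≤ D) :
    c0 * (1 / 2) ^ (c + 1) * Real.sqrt (1 - Real.log D) ≤ 2 * c0 := by
  have hD0 : 0 < D := lt_of_lt_of_le (by have := thr_pos (c + 1); positivity) h
  have h1 : Real.sqrt (1 - Real.log D) ≤ 2 * 2 ^ (c + 1) := by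
    apply Real.sqrt_le_iff.2
    refine ⟨by positivity, ?_⟩
    have e : (2 * (2:ℝ) ^ (c + 1)) ^ 2 = 4 * 4 ^ (c + 1) := by
      rw [mul_pow, ← pow_mul, mul_comm (c + 1) 2, pow_mul]; norm_num
    rw [e]
    have h2 : Real.log (thr (c + 1) / 8) ≤ Real.log D :=
      Real.log_le_log (by have := thr_pos (c + 1); positivity) h
    have h3 : Real.log (thr (c + 1) / 8) = 1 - 4 ^ (c + 1) - Real.log 80 := by
      unfold thr
      rw [div_div, Real.log_div (Real.exp_pos _).ne' (by norm_num), Real.log_exp]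
      norm_num
    have h4 : Real.log 80 ≤ 5 := by
      rw [Real.log_le_iff_le_exp (by norm_num)]
      have h5 : (2.7182818283 : ℝ) ≤ Real.exp 1 := Real.exp_one_gt_d9.le
      have h6 : Real.exp 5 = Real.exp 1 ^ 5 := by rw [← Real.exp_nat_mul]; norm_num
      rw [h6]
      calc (80:ℝ) ≤ 2.7182818283 ^ 5 := by norm_num
        _ ≤ _ := pow_le_pow_left₀ (by norm_num) h5 5
    have h5 : (4:ℝ) ≤ 4 ^ (c + 1) := by
      have : (4:ℝ) ^ 1 ≤ 4 ^ (c + 1) := pow_le_pow_right₀ (by norm_num) (by omega)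
      simpa using this
    linarith
  have h2 : (1 / 2 : ℝ) ^ (c + 1) * 2 ^ (c + 1) = 1 := by rw [← mul_pow]; norm_num
  calc c0 * (1 / 2) ^ (c + 1) * Real.sqrt (1 - Real.log D)
      ≤ c0 * (1 / 2) ^ (c + 1) * (2 * 2 ^ (c + 1)) :=
        mul_le_mul_of_nonneg_left h1 (by positivity)
    _ = 2 * c0 * ((1 / 2 : ℝ) ^ (c + 1) * 2 ^ (c + 1)) := by ring
    _ = 2 * c0 := by rw [h2, mul_one]

/-- **class `c + 1`, complete window**, `D` = largest dead mass of the states, at least one half of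
the threshold -/
theorem WinAt.own_class8 {W : Submodule ℝ E} {x : E} {n : ℕ → ℕ} {s e : ℕ} {f : ℕ → E → ℝ}
    {u : ℕ → Wᗮ} {K : ℕ → Set E} {G : ℕ → ℝ≥0∞} {h : ℝ} (Hw : WinAt W x n s e f u K G h) {ρ : ℝ}
    (hρ0 : 0 < ρ) (hρ1 : ρ ≤ 1 / 324) {D c0 : ℝ} {c : ℕ} (hc0 : 0 < c0)
    (hc01 : c0 ≤ 1 / (2 * 10 ^ 9)) (hD1 : D ≤ 1 / 10) (hc : c = 0 ∨ D ≤ thr c)
    (hD2 : thr (c + 1) / 2 ≤ D)
    (hD : ∀ m, n s ≤ m → m ≤ n e - 1 → fib W ((K m)ᶜ.indicator 1) x ≤ ENNReal.ofReal D)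
    (hpk : ∃ m, n s ≤ m ∧ m ≤ n e - 1 ∧
      ENNReal.ofReal (7 / 8 * D) ≤ fib W ((K m)ᶜ.indicator 1) x)
    (hh : h ≤ 1 / (4 * 10 ^ 10) * D) (hS : ¬ Slow u (c0 * (1 / 2) ^ (c + 1)) 1 s e) :
    ENNReal.ofReal (c0 / (16 * 10 ^ 15) * D * Cost (Slow u (c0 * (1 / 2) ^ (c + 1))) ρ s e)
      ≤ ∑ m ∈ Finset.Ico (n s) (n e - 1), G m := by
  have hD0 : 0 < D := lt_of_lt_of_le (by have := thr_pos (c + 1); positivity) hD2
  have h1 : (1 / 2 : ℝ) ^ (c + 1) ≤ 1 := pow_le_one₀ (by norm_num) (by norm_num)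
  refine Hw.own_fib (by positivity) (by nlinarith) hρ0 hρ1 hD0 (by linarith) hc0.le
    (by linarith) ?_ ?_ hD hpk hh hS
  · have := nc_lower (c := c) hc0.le hD0 (by linarith) hc
    linarith
  · have := nc_upper8 (c := c) (D := D / 4) hc0.le (by linarith)
    linarith

end

end Vale.Agent.P262.H44
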