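import Vale.Agent.P262.H44.L2Fin

/-!
# P262, milestone 2: prices in `L¹`, and (MOVE)

`softAt_fib` : every change is paid by its `L¹` norm at the label.  `PriceOK.move` : an array of
prices of the moves of the field bounds the changes of the masses, i.e. `(MOVE)`.
-/

set_option linter.all false

namespace Vale.Agent.P262.M2.Sys

open MeasureTheory ProbabilityTheory Set Filter Topology Module
open scoped RealInnerProductSpace ENNReal
open Vale.Agent.P262.H118 (Iv st en ON rotE tau wd wrd Mg Piece K2 El2 paths iv_st)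
open Vale.Agent.P262.H847 (UI)
open Vale.Agent.P262.H395 (fib fib_mono)
open Vale.Agent.P262.H654 (fr Bd ofReal_fr)
open Vale.Agent.P262.H852 (sl measurable_sl_right)
open Vale.Agent.P262.H44 (StarAt SoftAt sf sf_UI dst WinAt int_sf int_sf_nonneg)

noncomputable section

variable {E : Type*} [NormedAddCommGroup E] [InnerProductSpace ℝ E] [FiniteDimensional ℝ E]
  [MeasurableSpace E] [BorelSpace E]

/-- **a change of the field is paid by its `L¹` norm at the label** -/
theorem softAt_fib {W : Submodule ℝ E} {f f' : E → ℝ} (hf : UI f) (hf' : UI f') (x : E) :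
    SoftAt (sf W x f) (sf W x f') (fib W (fun y => ENNReal.ofReal |f' y - f y|) x) := by
  have hm : Measurable fun y => |f' y - f y| := (hf'.meas.sub hf.meas).abs
  have hbd : ∀ y, |f' y - f y| ≤ 1 := fun y => by
    have h1 := hf.nonneg y
    have h2 := hf.le_one y
    have h3 := hf'.nonneg y
    have h4 := hf'.le_one y
    rw [abs_le]; constructor <;> linarith
  have hi : Integrable (fun z => |f' (H852.sl W x z) - f (H852.sl W x z)|) (stdGaussian Wᗮ) :=
    Integrable.of_bound (hm.comp (measurable_sl_right W x)).aestronglyMeasurable 1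
      (Eventually.of_forall fun z => by
        rw [Real.norm_eq_abs, abs_abs]; exact hbd _)
  rw [H852.fib_ofReal W hm (fun y => abs_nonneg _) x hi]
  exact SoftAt.of_L1 (sf_UI W x hf) (sf_UI W x hf') le_rfl

section mass

variable {W : Submodule ℝ E} {f f' : E → ℝ} {x : E} {G : ℝ≥0∞}

private lemma mass_aux (hf : UI f) (hf' : UI f') {g : ℝ}
    (h : |∫ z, sf W x f' z ∂(stdGaussian Wᗮ) - ∫ z, sf W x f z ∂(stdGaussian Wᗮ)| ≤ g)
    (hg : ENNReal.ofReal g ≤ G) :
    fib W (fun y => ENNReal.ofReal (f y)) x ≤ fib W (fun y => ENNReal.ofReal (f' y)) x + G ∧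
      fib W (fun y => ENNReal.ofReal (f' y)) x ≤ fib W (fun y => ENNReal.ofReal (f y)) x + G := by
  have h1 := abs_le.1 h
  have h0 : 0 ≤ g := (abs_nonneg _).trans h
  rw [← int_sf hf, ← int_sf hf']
  constructor
  · calc ENNReal.ofReal (∫ z, sf W x f z ∂(stdGaussian Wᗮ))
        ≤ ENNReal.ofReal (∫ z, sf W x f' z ∂(stdGaussian Wᗮ) + g) :=
          ENNReal.ofReal_le_ofReal (by linarith [h1.1])
      _ = _ := ENNReal.ofReal_add (int_sf_nonneg hf') h0
      _ ≤ _ := by gcongr
  · calc ENNReal.ofReal (∫ z, sf W x f' z ∂(stdGaussian Wᗮ))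
        ≤ ENNReal.ofReal (∫ z, sf W x f z ∂(stdGaussian Wᗮ) + g) :=
          ENNReal.ofReal_le_ofReal (by linarith [h1.2])
      _ = _ := ENNReal.ofReal_add (int_sf_nonneg hf) h0
      _ ≤ _ := by gcongr

/-- the means of the fields before and after a move differ at most by the charge -/
theorem softAt_mass (hf : UI f) (hf' : UI f') (h : SoftAt (sf W x f) (sf W x f') G) :
    fib W (fun y => ENNReal.ofReal (f y)) x ≤ fib W (fun y => ENNReal.ofReal (f' y)) x + G ∧
      fib W (fun y => ENNReal.ofReal (f' y)) x ≤ fib W (fun y => ENNReal.ofReal (f y)) x + G := by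
  obtain ⟨al, be, h1, h2, h3⟩ := h
  have h4 := h1.mass (sf_UI W x hf) (sf_UI W x hf')
  exact mass_aux hf hf' (h4.trans (by linarith)) h3

/-- the same for a star -/
theorem starAt_mass {u : Wᗮ} (hf : UI f) (hf' : UI f') (h : StarAt u (sf W x f) (sf W x f') G) :
    fib W (fun y => ENNReal.ofReal (f y)) x ≤ fib W (fun y => ENNReal.ofReal (f' y)) x + G ∧
      fib W (fun y => ENNReal.ofReal (f' y)) x ≤ fib W (fun y => ENNReal.ofReal (f y)) x + G := by
  obtain ⟨fh, F, al, be, al', be', g1, g2, g3, g4, g5, g6, g7⟩ := h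
  have h1 := abs_le.1 (g3.mass (sf_UI W x hf) g1)
  have h2 := abs_le.1 (g4.mass g1 (sf_UI W x hf'))
  have h3 := g2.nonneg
  refine mass_aux hf hf' (g := al + al') (abs_le.2 ⟨by linarith [h1.1, h2.1],
    by linarith [h1.2, h2.2]⟩) ((ENNReal.ofReal_le_ofReal (by linarith)).trans g7)

end mass

variable {S : Sys E}

/-- mean of the field -/
lemma F_eq_fib {m : ℕ} (hm : m ≤ S.mT) (p : List ℕ) (x : E) :
    S.F p m x = fib (S.W p m) (fun y => ENNReal.ofReal (S.fld p m y)) x := by
  have hL := S.labOK hm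
  rw [hL.F_eq]
  unfold Fr
  rw [ofReal_fr (Bd.of_UI hL.fld_UI) hL.fld_UI.nonneg]

/-- **(MOVE)** -/
theorem PriceOK.move {G : List ℕ → ℕ → E → ℝ≥0∞} (HG : S.PriceOK G) : S.MOVE G := by
  intro j hj m hmT x hx
  obtain ⟨hx1, hx2⟩ := hx
  have hm : S.mv.tm m < S.T := S.tm_lt_f hmT.le
  set p := S.nd m x j with hp
  have hl : ¬ S.Leaf p m := hx1.1.1
  have hom : x ∈ S.om p m := by
    have h := hx1.2
    rw [mem_setOf_eq] at h
    exact h
  have hbe : m < S.be p m x := hx2
  have hs1 : S.Same (S.BB p m x) m (m + 1) := same_succ hm hbe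
  have hW : S.W p (m + 1) = S.W p m := hs1.W (nw_sub_BB p m x) hm
  have hu := (S.labOK hmT.le).fld_UI (p := p)
  have hu' := (S.labOK (show m + 1 ≤ S.mT by omega)).fld_UI (p := p)
  rw [F_eq_fib hmT.le, F_eq_fib (show m + 1 ≤ S.mT by omega), hW]
  by_cases hs : S.mv.IsStar m
  · exact starAt_mass hu hu' (HG.star m hmT hs p hl x)
  · exact softAt_mass hu hu' (HG.soft m hmT hs p hl x hom hbe)

/-- larger prices are admissible -/
theorem PriceOK.mono {G G' : List ℕ → ℕ → E → ℝ≥0∞} (HG : S.PriceOK G)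
    (h : ∀ m < S.mT, ∀ p, ∀ x, G p m x ≤ G' p m x) : S.PriceOK G' :=
  ⟨fun m hm hs p hl x => (HG.star m hm hs p hl x).mono (h m hm p x),
    fun m hm hs p hl x hx hb => (HG.soft m hm hs p hl x hx hb).mono (h m hm p x)⟩

/-- price of a move in `L¹` -/
def GL1 (S : Sys E) (p : List ℕ) (m : ℕ) (x : E) : ℝ≥0∞ :=
  fib (S.W p m) (fun y => ENNReal.ofReal |S.fld p (m + 1) y - S.fld p m y|) x

/-- the `L¹` price is always admissible -/
theorem softAt_GL1 {m : ℕ} (hm : m < S.mT) (p : List ℕ) (x : E) :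
    SoftAt (sf (S.W p m) x (S.fld p m)) (sf (S.W p m) x (S.fld p (m + 1))) (S.GL1 p m x) :=
  softAt_fib (S.labOK hm.le).fld_UI (S.labOK (show m + 1 ≤ S.mT by omega)).fld_UI x

/-- **admissible arrays**: the price of 59 at stars, anything admissible or at least the `L¹` price
at the other moves -/
theorem priceOK_of {Lam : ℝ} (hLam : 1 ≤ Lam) (hR : S.RimC Lam) (hδ : S.δ ≤ 1 / 10)
    {G : List ℕ → ℕ → E → ℝ≥0∞}
    (h1 : ∀ m < S.mT, S.mv.IsStar m → ∀ p, ¬ S.Leaf p m → ∀ x, S.Gst p m x ≤ G p m x)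
    (h2 : ∀ m < S.mT, ¬ S.mv.IsStar m → ∀ p, ¬ S.Leaf p m → ∀ x, x ∈ S.om p m →
      m < S.be p m x → S.GL1 p m x ≤ G p m x ∨
        SoftAt (sf (S.W p m) x (S.fld p m)) (sf (S.W p m) x (S.fld p (m + 1))) (G p m x)) :
    S.PriceOK G := by
  refine ⟨fun m hm hs p hl x => (star_at (S := S) hLam hR hδ hs hm hl x).mono (h1 m hm hs p hl x),
    fun m hm hs p hl x hx hb => ?_⟩
  rcases h2 m hm hs p hl x hx hb with h | h
  · exact (softAt_GL1 hm p x).mono h
  · exact h

end

end Vale.Agent.P262.M2.Sys
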