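import Vale.Agent.P262.H44.L2Sick2
import Vale.Agent.P262.M2.Cls

/-!
# P262, milestone 2, blocks LBL2 and LBI2: the labelwise block lemma on the system

`LabP S p m x f G η`: fields `f k` below the node `p` at the states `k` of the block of the label
`x`, charges `G k`, closeness `η A`.  `lbl`: the unit of a counted label is paid by the charges of
its block, or the block is the whole life and the unit is paid by the charges together with
entrance and exit.
-/

set_option linter.all false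

namespace Vale.Agent.P262.M2.Sys

open MeasureTheory ProbabilityTheory Set Filter Topology Module
open scoped RealInnerProductSpace ENNReal
open Vale.Agent.P262.H118 (Iv st en ON rotE tau wd wrd Mg Piece K2 El2 paths iv_st)
open Vale.Agent.P262.H847 (UI)
open Vale.Agent.P262.H274 (Slow Cost)
open Vale.Agent.P262.H395 (fib fib_mono)
open Vale.Agent.P262.H44 (StarAt SoftAt sf dst WinAt)

noncomputable section

variable {E : Type*} [NormedAddCommGroup E] [InnerProductSpace ℝ E] [FiniteDimensional ℝ E]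
  [MeasurableSpace E] [BorelSpace E]

/-! ### moves seen at a label -/

/-- the star move `f → f'` with the word `w t`, at the label `x` of `W`, charge `G` -/
def StarW (W : Submodule ℝ E) (w : ℕ → E) (t : ℕ) (x : E) (f f' : E → ℝ) (G : ℝ≥0∞) : Prop :=
  StarAt (wd W w t) (sf W x f) (sf W x f') G

/-- any other move `f → f'` at the label `x` of `W`, charge `G` -/
def SoftW (W : Submodule ℝ E) (x : E) (f f' : E → ℝ) (G : ℝ≥0∞) : Prop :=
  SoftAt (sf W x f) (sf W x f') G

lemma mean_le_dst {W : Submodule ℝ E} {f : E → ℝ} (hf : UI f) {K : Set E} (hK : MeasurableSet K)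
    (x : E) :
    fib W (fun y => ENNReal.ofReal (f y)) x ≤ fib W (Kᶜ.indicator 1) x + dst W f K x := by
  unfold dst
  rw [← H395.fib_add (measurable_one.indicator hK.compl)]
  refine fib_mono (fun y => ?_) x
  by_cases hy : y ∈ Kᶜ
  · rw [indicator_of_mem hy]
    refine le_trans ?_ le_self_add
    show _ ≤ (1 : ℝ≥0∞)
    rw [← ENNReal.ofReal_one]
    exact ENNReal.ofReal_le_ofReal (hf.le_one y)
  · rw [indicator_of_notMem hy, indicator_of_notMem hy, zero_add, sub_zero]
    exact ENNReal.ofReal_le_ofReal (le_abs_self _)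

lemma le_mean_dst {W : Submodule ℝ E} {f : E → ℝ} (hf : UI f) {K : Set E} (x : E) :
    fib W (Kᶜ.indicator 1) x ≤ fib W (fun y => ENNReal.ofReal (f y)) x + dst W f K x := by
  unfold dst
  rw [← H395.fib_add hf.meas.ennreal_ofReal]
  refine fib_mono (fun y => ?_) x
  by_cases hy : y ∈ Kᶜ
  · rw [indicator_of_mem hy, indicator_of_mem hy]
    have h0 := hf.nonneg y
    rw [← ENNReal.ofReal_add h0 (abs_nonneg _)]
    show (1 : ℝ≥0∞) ≤ _
    rw [← ENNReal.ofReal_one]
    apply ENNReal.ofReal_le_ofReal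
    have := neg_abs_le (f y - 1)
    linarith
  · rw [indicator_of_notMem hy]; exact zero_le

variable {S : Sys E}

/-- **data of one label over its block**: fields `f k` below `p`, charges `G k` -/
structure LabP (S : Sys E) (p : List ℕ) (m : ℕ) (x : E) (f : ℕ → E → ℝ) (G : ℕ → ℝ≥0∞) (η : ℝ) :
    Prop where
  ui : ∀ k, S.Same (S.BB p m x) m k → UI (f k)
  mean : ∀ k, S.Same (S.BB p m x) m k →
    fib (S.W p k) (fun y => ENNReal.ofReal (f k y)) x = S.F p k x
  close : ∀ k, S.Same (S.BB p m x) m k →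
    dst (S.W p k) (f k) (S.X p k) x ≤ ENNReal.ofReal η * S.A p k x
  star : ∀ k, S.Same (S.BB p m x) m k → S.mv.IsStar k →
    StarW (S.W p k) (wrd S.v (S.K.S p)) (S.mv.tm k) x (f k) (f (k + 1)) (G k)
  soft : ∀ k, S.Same (S.BB p m x) m k → k < S.be p m x → ¬ S.mv.IsStar k →
    SoftW (S.W p k) x (f k) (f (k + 1)) (G k)

/-! ### the block -/

/-- largest deficit of the states of the block -/
def Ds (S : Sys E) (p : List ℕ) (m : ℕ) (x : E) : ℝ≥0∞ :=
  (Finset.Icc (S.bs p m x) (S.be p m x)).sup fun k => S.De p k x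

section block

variable {p : List ℕ} {m : ℕ} {x : E}

lemma De_le_Ds {k : ℕ} (h : S.Same (S.BB p m x) m k) : S.De p k x ≤ Ds S p m x :=
  Finset.le_sup (f := fun k => S.De p k x) (Finset.mem_Icc.2 h)

lemma Ds_le_Db : Ds S p m x ≤ S.Db p m x :=
  Finset.sup_le fun k hk => De_le_Db (Finset.mem_Icc.1 hk)

lemma Ds_le_one : Ds S p m x ≤ 1 := Finset.sup_le fun k _ => S.De_le_one p k x

lemma Ds_ne_top : Ds S p m x ≠ ⊤ := (Ds_le_one.trans_lt ENNReal.one_lt_top).ne

lemma same_self (hm : S.mv.tm m < S.T) : S.Same (S.BB p m x) m m := Same.refl (zero_mem_BB p m x) hm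

lemma exists_Ds (hm : S.mv.tm m < S.T) :
    ∃ k, S.Same (S.BB p m x) m k ∧ S.De p k x = Ds S p m x := by
  have hne : (Finset.Icc (S.bs p m x) (S.be p m x)).Nonempty :=
    ⟨m, Finset.mem_Icc.2 (same_self hm)⟩
  obtain ⟨k, hk, h⟩ := Finset.exists_mem_eq_sup _ hne (fun k => S.De p k x)
  exact ⟨k, Finset.mem_Icc.1 hk, h.symm⟩

/-- the maximal deficit (intersections of two consecutive bodies) is at most twice the maximal
deficit of the states -/
lemma Db_le_Ds (hm : S.mv.tm m < S.T) : S.Db p m x ≤ 2 * Ds S p m x := by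
  obtain ⟨k, hk, h⟩ := exists_Dw (S := S) p (S.kl p m x) hm x
  have h1 : S.Db p m x = S.Dc p k x := h.symm
  have hk' : S.Same (S.BB p m x) m k := hk
  rw [h1, two_mul]
  by_cases hr : S.mv.IsRe k
  · rw [S.Dc_re hr]
    exact (De_le_Ds hk').trans le_self_add
  · have hr' := S.not_re_iff.1 hr
    refine (S.Dc_le_De_add_De hr' x).trans ?_
    have hk1 : S.Same (S.BB p m x) m (k + 1) :=
      hk'.trans (zero_mem_BB p m x) (Same.active (zero_mem_BB p m x) hr' (hk'.lt hm)) hm
    exact add_le_add (De_le_Ds hk') (De_le_Ds hk1)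

/-- mean of the field against the deficit -/
lemma LabP.F_le {f : ℕ → E → ℝ} {G : ℕ → ℝ≥0∞} {η : ℝ} (H : S.LabP p m x f G η) {k : ℕ}
    (hk : S.Same (S.BB p m x) m k) :
    S.F p k x ≤ S.De p k x + ENNReal.ofReal η * S.A p k x := by
  rw [← H.mean k hk]
  exact (mean_le_dst (H.ui k hk) (S.measurableSet_X p k) x).trans (by
    gcongr
    · exact le_rfl
    · exact H.close k hk)

lemma LabP.De_le {f : ℕ → E → ℝ} {G : ℕ → ℝ≥0∞} {η : ℝ} (H : S.LabP p m x f G η) {k : ℕ}
    (hk : S.Same (S.BB p m x) m k) :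
    S.De p k x ≤ S.F p k x + ENNReal.ofReal η * S.A p k x := by
  rw [← H.mean k hk]
  exact (le_mean_dst (H.ui k hk) x).trans (by
    gcongr
    exact H.close k hk)

/-! ### the window of the block -/

/-- the label space of the block -/
def Wb (S : Sys E) (p : List ℕ) (m : ℕ) (x : E) : Submodule ℝ E := S.K.W p (S.ts p m x)

/-- the word of the block -/
def ub (S : Sys E) (p : List ℕ) (m : ℕ) (x : E) : ℕ → (Wb S p m x)ᗮ :=
  wd (Wb S p m x) (wrd S.v (S.K.S p))

lemma iv_block (hm : S.mv.tm m < S.T) : Iv (S.BB p m x) S.T (S.ts p m x) (S.te p m x) :=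
  (iv_st (zero_mem_BB p m x) hm).1

lemma W_block (hm : S.mv.tm m < S.T) {k : ℕ} (hk : S.Same (S.BB p m x) m k) :
    S.W p k = Wb S p m x := by
  obtain ⟨h1, h2⟩ := S.mv.tm_mem (zero_mem_BB p m x) hm hk.1 hk.2
  exact S.K.W_const (nw_sub_BB p m x) (iv_block hm) h1 h2

open Classical in
/-- fields outside the block do not matter -/
def fb (S : Sys E) (p : List ℕ) (m : ℕ) (x : E) (f : ℕ → E → ℝ) (k : ℕ) : E → ℝ :=
  if S.bs p m x ≤ k ∧ k ≤ S.be p m x then f k else fun _ => 0

lemma fb_eq {f : ℕ → E → ℝ} {k : ℕ} (hk : S.Same (S.BB p m x) m k) : fb S p m x f k = f k :=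
  if_pos hk

theorem LabP.win {f : ℕ → E → ℝ} {G : ℕ → ℝ≥0∞} {η : ℝ} (H : S.LabP p m x f G η)
    (hm : S.mv.tm m < S.T) (hη : 0 ≤ η) :
    WinAt (Wb S p m x) x S.mv.n (S.ts p m x) (S.te p m x) (fb S p m x f) (ub S p m x)
      (fun k => S.X p k) G (η * (S.A p m x).toReal) where
  lt := (iv_block hm).2.1
  step := S.mv.n_succ
  ui := by
    intro k
    by_cases hk : S.bs p m x ≤ k ∧ k ≤ S.be p m x
    · rw [fb_eq hk]; exact H.ui k hk
    · unfold fb
      rw [if_neg hk]
      exact ⟨measurable_const, fun _ => le_rfl, fun _ => zero_le_one⟩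
  star := by
    intro t h1 h2
    have h3 : S.mv.n (S.ts p m x) ≤ S.mv.n t := S.mv.n_mono h1
    have h4 : S.mv.n t + 2 ≤ S.mv.n (S.te p m x) := (S.mv.n_succ t).trans (S.mv.n_mono h2)
    have hk : S.Same (S.BB p m x) m (S.mv.n t) := ⟨h3, by
      show S.mv.n t ≤ S.mv.n (S.te p m x) - 1
      omega⟩
    have hk1 : S.Same (S.BB p m x) m (S.mv.n t + 1) := ⟨by
      have := hk.1
      omega, by
      show S.mv.n t + 1 ≤ S.mv.n (S.te p m x) - 1
      omega⟩
    have hs : S.mv.IsStar (S.mv.n t) := S.mv.isStar_iff.2 ⟨t, rfl⟩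
    have h5 := H.star _ hk hs
    rw [S.mv.tm_n, W_block hm hk] at h5
    rw [fb_eq hk, fb_eq hk1]
    exact h5
  soft := by
    intro k h1 h2 h3
    have hk : S.Same (S.BB p m x) m k := ⟨h1, h2.le⟩
    have hk1 : S.Same (S.BB p m x) m (k + 1) := ⟨h1.trans (Nat.le_succ k), h2⟩
    have hs : ¬ S.mv.IsStar k := fun h => by
      obtain ⟨t, ht⟩ := S.mv.isStar_iff.1 h
      exact h3 t ht
    have h5 := H.soft k hk h2 hs
    rw [W_block hm hk] at h5
    rw [fb_eq hk, fb_eq hk1]
    exact h5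
  conv := fun k _ _ => S.convex_X p k
  meas := fun k _ _ => S.measurableSet_X p k
  close := by
    intro k h1 h2
    have hk : S.Same (S.BB p m x) m k := ⟨h1, h2⟩
    have h3 := H.close k hk
    rw [W_block hm hk, hk.A (nw_sub_BB p m x) hm] at h3
    rw [fb_eq hk, ENNReal.ofReal_mul hη, ENNReal.ofReal_toReal (S.A_ne_top p m x)]
    exact h3

lemma mF_eq {f : ℕ → E → ℝ} {G : ℕ → ℝ≥0∞} {η : ℝ} (H : S.LabP p m x f G η)
    (hm : S.mv.tm m < S.T) {k : ℕ} (hk : S.Same (S.BB p m x) m k) :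
    WinAt.mF (Wb S p m x) x (fb S p m x f) k = S.F p k x := by
  unfold WinAt.mF
  rw [fb_eq hk, ← H.mean k hk, W_block hm hk]

/-- the block is complete, or it is the whole life -/
theorem window_cases (hm : S.mv.tm m < S.T) :
    ¬ Slow (ub S p m x) (S.N (S.kl p m x)) 1 (S.ts p m x) (S.te p m x) ∨
      (S.bs p m x = S.l0 p m ∧ S.be p m x = S.l1 p m) := by
  rcases S.K.window (iv_block (S := S) (p := p) (m := m) (x := x) hm) with h | h
  · exact Or.inl h.1
  · right
    obtain ⟨h1, h2, h3⟩ := iv_st (zero_mem_BB (S := S) p m x) hm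
    obtain ⟨h4, h5⟩ := h.1.st_eq (S.K.zero_mem_nw p) (t := S.mv.tm m) h2 h3
    constructor
    · show S.mv.n (S.ts p m x) = S.mv.n (st (S.K.nw p) (S.mv.tm m))
      rw [h4]
    · show S.mv.n (S.te p m x) - 1 = S.mv.n (en (S.K.nw p) S.T (st (S.K.nw p) (S.mv.tm m))) - 1
      rw [h4, h5]

lemma cst_eq : S.cst p m x
    = ENNReal.ofReal (Cost (Slow (ub S p m x) (S.N (S.kl p m x))) S.ρ (S.ts p m x) (S.te p m x)) :=
  rfl

lemma cst_le_one (hm : S.mv.tm m < S.T) : S.cst p m x ≤ 1 := by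
  rw [cst_eq, ← ENNReal.ofReal_one]
  apply ENNReal.ofReal_le_ofReal
  have hN : 0 ≤ S.N (S.kl p m x) := by
    rw [S.hN]
    have := S.hc0
    positivity
  have := H274.cost_le_pow (S := Slow (ub S p m x) (S.N (S.kl p m x))) S.hρ.le
    (iv_block (S := S) (p := p) (m := m) (x := x) hm).2.1 (H941.slow_zero _ hN _ _)
  simpa using this


/-! ### numbers -/

end block

/-- numerical hypotheses of the labelwise block lemma -/
structure LblN (S : Sys E) (q₀ c η : ℝ) (J : ℕ) : Prop where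
  rho : S.ρ ≤ 1 / 324
  c0 : S.c0 ≤ 1 / (2 * 10 ^ 9)
  q0 : S.q0 = ENNReal.ofReal q₀
  q1 : q₀ ≤ 1 / 40
  cp : 0 < c
  c1 : c ≤ 1 / 8
  hJ : 1500 * c * (J + 1) + 32 * (1 / 2) ^ J ≤ q₀ / 300
  cc : S.c0 * Real.sqrt (1 - Real.log (1 / 40)) ≤ c
  eta0 : 0 ≤ η
  eta1 : η ≤ 1 / (8 * 10 ^ 10)
  etab : η * S.b0 ≤ (q₀ / 2000) ^ 2 * (1 / 40)

/-- the constant -/
def kL (c0 q₀ c : ℝ) (J : ℕ) : ℝ := 64 * 10 ^ 15 / c0 + 320 * 2 ^ J / (c * c0) + 4 / q₀

section main

variable {p : List ℕ} {m : ℕ} {x : E} {q₀ c η : ℝ} {J : ℕ} {f : ℕ → E → ℝ} {G : ℕ → ℝ≥0∞}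

lemma LblN.q0pos (hN : S.LblN q₀ c η J) : 0 < q₀ := by
  have := S.hq0
  rw [hN.q0] at this
  exact ENNReal.ofReal_pos.1 this

/-- in the block the mean of the field is at most `2 D*` -/
lemma F_le_Db (hN : S.LblN q₀ c η J) (H : S.LabP p m x f G η) (hm : S.mv.tm m < S.T)
    (hx : x ∈ S.om p m) {k : ℕ} (hk : S.Same (S.BB p m x) m k) :
    S.F p k x ≤ 2 * S.Db p m x := by
  refine (H.F_le hk).trans ?_
  rw [two_mul]
  refine add_le_add (De_le_Db hk) ?_
  rw [hk.A (nw_sub_BB p m x) hm]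
  calc ENNReal.ofReal η * S.A p m x ≤ 1 * S.A p m x := by
        gcongr
        rw [← ENNReal.ofReal_one]
        exact ENNReal.ofReal_le_ofReal (hN.eta1.trans (by norm_num))
    _ = S.A p m x := one_mul _
    _ ≤ _ := A_le_Db_of_om hm hx

/-- weights at classes `≥ 1` -/
lemma slp_ge (hm : S.mv.tm m < S.T) (hx : x ∈ S.om p m) {k : ℕ}
    (hk : S.Same (S.BB p m x) m k) {s : ℝ≥0∞} (hF : s ≤ 2 * S.Db p m x) :
    (S.A p m x / S.Db p m x) ^ S.th ≤ 2 * S.slp p k x s := by
  have hA := S.A_pos p m x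
  have hAt := S.A_ne_top p m x
  have hAD := A_le_Db_of_om hm hx
  have hDt : S.Db p m x ≠ ⊤ := ((Dw_le_one p _ m x).trans_lt ENNReal.one_lt_top).ne
  unfold slp
  rw [hk.A (nw_sub_BB p m x) hm]
  have hmax : max (S.A p m x) (min s (1 / 8)) ≤ 2 * S.Db p m x := by
    refine max_le ?_ ((min_le_left _ _).trans hF)
    calc S.A p m x ≤ S.Db p m x := hAD
      _ = 1 * S.Db p m x := (one_mul _).symm
      _ ≤ _ := by gcongr; norm_num
  calc (S.A p m x / S.Db p m x) ^ S.th
      ≤ (2 * (S.A p m x / max (S.A p m x) (min s (1 / 8)))) ^ S.th := by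
        apply ENNReal.rpow_le_rpow _ S.hth.le
        rw [← mul_div_assoc]
        calc S.A p m x / S.Db p m x
            = 2 * S.A p m x / (2 * S.Db p m x) := by
              rw [ENNReal.mul_div_mul_left _ _ (by norm_num) (by norm_num)]
          _ ≤ _ := ENNReal.div_le_div_left hmax _
    _ = 2 ^ S.th * (S.A p m x / max (S.A p m x) (min s (1 / 8))) ^ S.th :=
        ENNReal.mul_rpow_of_nonneg _ _ S.hth.le
    _ ≤ 2 * _ := by
        gcongr
        calc (2 : ℝ≥0∞) ^ S.th ≤ 2 ^ (1 : ℝ) :=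
              ENNReal.rpow_le_rpow_of_exponent_le (by norm_num) S.hth1.le
          _ = 2 := ENNReal.rpow_one _

/-- splitting of the unit -/
lemma As_split (hm : S.mv.tm m < S.T) (hx : x ∈ S.om p m) :
    S.As S.th p m x * S.Db p m x ^ (1 - S.th)
      = (S.A p m x / S.Db p m x) ^ S.th * S.Db p m x := by
  have hA := S.A_pos p m x
  have hAD := A_le_Db_of_om hm hx
  have hD0 : S.Db p m x ≠ 0 := (hA.trans_le hAD).ne'
  have hDt : S.Db p m x ≠ ⊤ := ((Dw_le_one p _ m x).trans_lt ENNReal.one_lt_top).ne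
  rw [← S.A_rpow S.hth.le, ENNReal.div_rpow_of_nonneg _ _ S.hth.le,
    ENNReal.rpow_sub _ _ hD0 hDt, ENNReal.rpow_one, div_eq_mul_inv, div_eq_mul_inv]
  ring

/-- weights at class `0` -/
lemma slp_ge_zero (hx : x ∉ S.Z p m) (hm : S.mv.tm m < S.T) {k : ℕ}
    (hk : S.Same (S.BB p m x) m k) (s : ℝ≥0∞) : S.As S.th p m x ≤ S.slp p k x s := by
  unfold slp
  rw [← S.A_rpow S.hth.le, hk.A (nw_sub_BB p m x) hm]
  apply ENNReal.rpow_le_rpow _ S.hth.le
  have hA := S.A_pos p m x
  have hAt := S.A_ne_top p m x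
  have hA1 : S.A p m x ≤ 1 := by
    refine (S.A_le_of_not_Z hx).trans ?_
    rw [← ENNReal.ofReal_one]
    apply ENNReal.ofReal_le_ofReal
    have h1 := S.hMb
    have h2 := S.hM
    have h3 := S.hA0
    have h4 := S.hAb
    nlinarith
  have hmax : max (S.A p m x) (min s (1 / 8)) ≤ 1 := by
    refine max_le hA1 ((min_le_right _ _).trans ?_)
    rw [one_div]
    exact ENNReal.inv_le_one.2 (by norm_num)
  calc S.A p m x = S.A p m x / 1 := (div_one _).symm
    _ ≤ _ := ENNReal.div_le_div_left hmax _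

/-- admissible weights of the moves of the block -/
structure WtOK (S : Sys E) (p : List ℕ) (m : ℕ) (x : E) (w : ℕ → ℝ≥0∞) : Prop where
  own : ∀ k, S.bs p m x ≤ k → k < S.be p m x → (S.A p m x / S.Db p m x) ^ S.th ≤ 2 * w k
  sick : ∀ k, S.bs p m x ≤ k → k < S.be p m x → S.As S.th p m x ≤ w k

/-- slopes of the potential at masses `≤ 2 D*` are admissible -/
lemma wtOK_slp (hm : S.mv.tm m < S.T) (hx : x ∈ S.om p m) {s : ℕ → ℝ≥0∞}
    (hs : ∀ k, S.bs p m x ≤ k → k < S.be p m x → s k ≤ 2 * S.Db p m x) :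
    S.WtOK p m x fun k => S.slp p k x (s k) :=
  ⟨fun k h1 h2 => slp_ge hm hx ⟨h1, h2.le⟩ (hs k h1 h2),
    fun k h1 h2 => slp_ge_zero hx.1 hm ⟨h1, h2.le⟩ _⟩

lemma wtOK_F (hN : S.LblN q₀ c η J) (H : S.LabP p m x f G η) (hm : S.mv.tm m < S.T)
    (hx : x ∈ S.om p m) : S.WtOK p m x fun k => S.slp p k x (S.F p k x) :=
  wtOK_slp hm hx fun k h1 h2 => F_le_Db hN H hm hx ⟨h1, h2.le⟩

/-- closeness in real numbers -/
lemma Ds_real (hm : S.mv.tm m < S.T) :
    ENNReal.ofReal (Ds S p m x).toReal = Ds S p m x := ENNReal.ofReal_toReal Ds_ne_top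

lemma A_le_Ds (hm : S.mv.tm m < S.T) (hx : x ∈ S.om p m) :
    (S.A p m x).toReal ≤ 2 * (Ds S p m x).toReal := by
  have h1 := (A_le_Db_of_om hm hx).trans (Db_le_Ds hm)
  have h2 := ENNReal.toReal_mono (ENNReal.mul_ne_top (by norm_num) (Ds_ne_top (p := p) (m := m))) h1
  rwa [ENNReal.toReal_mul] at h2

lemma Ds_pos (hm : S.mv.tm m < S.T) (hx : x ∈ S.om p m) : 0 < (Ds S p m x).toReal := by
  have h1 := A_le_Ds hm hx
  have h2 := ENNReal.toReal_pos (S.A_pos p m x).ne' (S.A_ne_top p m x)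
  linarith

/-- **class `≥ 1`, complete block** -/
theorem lbl_own (hN : S.LblN q₀ c η J) (H : S.LabP p m x f G η) (hm : S.mv.tm m < S.T)
    (hx : x ∈ S.om p m) {w : ℕ → ℝ≥0∞} (hwt : S.WtOK p m x w) (hk : 1 ≤ S.kl p m x)
    (hS : ¬ Slow (ub S p m x) (S.N (S.kl p m x)) 1 (S.ts p m x) (S.te p m x)) :
    S.un p m x ≤ ENNReal.ofReal (64 * 10 ^ 15 / S.c0) *
      ∑ k ∈ Finset.Ico (S.bs p m x) (S.be p m x), w k * G k := by
  obtain ⟨d, hd⟩ : ∃ d, S.kl p m x = d + 1 := ⟨S.kl p m x - 1, by omega⟩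
  have hc0 := S.hc0
  set D : ℝ := (Ds S p m x).toReal with hDdef
  have hDs : ENNReal.ofReal D = Ds S p m x := Ds_real hm
  have hD0 : 0 < D := Ds_pos hm hx
  -- upper bounds of `D`
  have hthr : ∀ c, S.thr c = ENNReal.ofReal (H941.thr c) := S.hthr
  have hDthr : D ≤ H941.thr d := by
    have h1 := (Ds_le_Db (S := S) (p := p) (m := m) (x := x)).trans (Db_lt_thr hm hk).le
    rw [hd, Nat.add_sub_cancel, hthr, ← hDs,
      ENNReal.ofReal_le_ofReal_iff (H941.thr_pos d).le] at h1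
    exact h1
  have hDlow : H941.thr (d + 1) / 2 ≤ D := by
    have h1 := (thr_le_Db_of_om hm hx).trans (Db_le_Ds hm)
    rw [hd, hthr, ← hDs, show (2 : ℝ≥0∞) = ENNReal.ofReal 2 by norm_num,
      ← ENNReal.ofReal_mul (by norm_num), ENNReal.ofReal_le_ofReal_iff (by positivity)] at h1
    linarith
  have hN' : S.N (S.kl p m x) = S.c0 * (1 / 2) ^ (d + 1) := by
    rw [S.hN, hd, div_eq_mul_inv, one_div, inv_pow]
  have hw := H.win hm hN.eta0
  rw [hN'] at hS
  have key := hw.own_class8 S.hρ hN.rho hc0 hN.c0 (hDthr.trans (H941.thr_le d)) (Or.inr hDthr)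
    hDlow (fun k h1 h2 => by
      have hk : S.Same (S.BB p m x) m k := ⟨h1, h2⟩
      rw [hDs, ← W_block hm hk]
      exact De_le_Ds hk) (by
      obtain ⟨k, hk, h⟩ := exists_Ds (S := S) (p := p) (x := x) hm
      refine ⟨k, hk.1, hk.2, ?_⟩
      rw [← W_block hm hk]
      show _ ≤ S.De p k x
      rw [h, ← hDs]
      exact ENNReal.ofReal_le_ofReal (by linarith)) (by
      have h1 := A_le_Ds hm hx
      have h2 := hN.eta1
      have h3 := hN.eta0
      have h4 : 0 ≤ (S.A p m x).toReal := ENNReal.toReal_nonneg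
      calc η * (S.A p m x).toReal ≤ 1 / (8 * 10 ^ 10) * (2 * D) := by gcongr
        _ = _ := by ring) hS
  -- assembly
  set C : ℝ := Cost (Slow (ub S p m x) (S.c0 * (1 / 2) ^ (d + 1))) S.ρ (S.ts p m x) (S.te p m x)
    with hC
  have hC0 : 0 ≤ C := H274.cost_nonneg S.hρ.le _ _
  have hcst : S.cst p m x = ENNReal.ofReal C := by rw [cst_eq, hN']
  have hpsi : S.psi p m x = S.Db p m x ^ (1 - S.th) := by
    unfold psi; rw [if_neg (by omega)]
  have hsum : ∑ k ∈ Finset.Ico (S.bs p m x) (S.be p m x), G k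
      = ∑ k ∈ Finset.Ico (S.mv.n (S.ts p m x)) (S.mv.n (S.te p m x) - 1), G k := rfl
  rw [← hsum] at key
  have h1 : S.cst p m x * S.Db p m x
      ≤ ENNReal.ofReal (32 * 10 ^ 15 / S.c0) *
        ∑ k ∈ Finset.Ico (S.bs p m x) (S.be p m x), G k := by
    calc S.cst p m x * S.Db p m x ≤ ENNReal.ofReal C * (2 * ENNReal.ofReal D) := by
          rw [hcst, hDs]
          gcongr
          exact Db_le_Ds hm
      _ = ENNReal.ofReal (32 * 10 ^ 15 / S.c0) *
          ENNReal.ofReal (S.c0 / (16 * 10 ^ 15) * D * C) := by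
          rw [show (2 : ℝ≥0∞) = ENNReal.ofReal 2 by norm_num, ← ENNReal.ofReal_mul (by norm_num),
            ← ENNReal.ofReal_mul hC0, ← ENNReal.ofReal_mul (by positivity)]
          congr 1
          field_simp
          ring
      _ ≤ _ := by gcongr
  calc S.un p m x = (S.A p m x / S.Db p m x) ^ S.th * (S.cst p m x * S.Db p m x) := by
        unfold un
        rw [hpsi, mul_assoc, As_split hm hx]
        ring
    _ ≤ (S.A p m x / S.Db p m x) ^ S.th * (ENNReal.ofReal (32 * 10 ^ 15 / S.c0) *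
        ∑ k ∈ Finset.Ico (S.bs p m x) (S.be p m x), G k) := by gcongr
    _ = ENNReal.ofReal (32 * 10 ^ 15 / S.c0) *
        ∑ k ∈ Finset.Ico (S.bs p m x) (S.be p m x),
          (S.A p m x / S.Db p m x) ^ S.th * G k := by
        rw [← Finset.mul_sum]; ring
    _ ≤ ENNReal.ofReal (32 * 10 ^ 15 / S.c0) *
        ∑ k ∈ Finset.Ico (S.bs p m x) (S.be p m x),
          2 * (w k * G k) := by
        refine mul_le_mul' le_rfl (Finset.sum_le_sum fun k hk => ?_)
        rw [Finset.mem_Ico] at hk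
        rw [← mul_assoc]
        exact mul_le_mul' (hwt.own k hk.1 hk.2) le_rfl
    _ = _ := by
        rw [← Finset.mul_sum, ← mul_assoc]
        congr 1
        rw [show (2 : ℝ≥0∞) = ENNReal.ofReal 2 by norm_num, ← ENNReal.ofReal_mul (by positivity)]
        congr 1
        ring

/-- some state of the block is at least `1/24` dead, in the field -/
lemma peak_zero (hN : S.LblN q₀ c η J) (H : S.LabP p m x f G η) (hm : S.mv.tm m < S.T)
    (hx : x ∈ S.om p m) (h0 : S.kl p m x = 0) :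
    ∃ k, S.Same (S.BB p m x) m k ∧ ENNReal.ofReal (1 / 24) ≤ S.F p k x := by
  obtain ⟨k, hk, h⟩ := exists_Ds (S := S) (p := p) (x := x) hm
  refine ⟨k, hk, ?_⟩
  have h1 := (thr_le_Db_of_om hm hx).trans (Db_le_Ds hm)
  rw [h0, thr_zero, ← h] at h1
  have h2 := H.De_le hk
  rw [hk.A (nw_sub_BB p m x) hm] at h2
  have h3 := S.A_le_of_not_Z hx.1
  have h4 : ENNReal.ofReal η * S.A p m x ≤ ENNReal.ofReal (1 / 1000) := by
    calc ENNReal.ofReal η * S.A p m x ≤ ENNReal.ofReal η * ENNReal.ofReal S.b0 := by gcongr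
      _ = ENNReal.ofReal (η * S.b0) := (ENNReal.ofReal_mul hN.eta0).symm
      _ ≤ _ := by
        apply ENNReal.ofReal_le_ofReal
        have h5 := hN.etab
        have h6 := hN.q0pos
        have h7 := hN.q1
        nlinarith
  have h5 : ENNReal.ofReal (1 / 10) ≤ 2 * (S.F p k x + ENNReal.ofReal (1 / 1000)) :=
    h1.trans (by gcongr; exact h2.trans (by gcongr))
  have hFt : S.F p k x ≠ ⊤ := by
    refine ((H.F_le hk).trans_lt ?_).ne
    refine ENNReal.add_lt_top.2 ⟨(S.De_le_one p k x).trans_lt ENNReal.one_lt_top,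
      ENNReal.mul_lt_top ENNReal.ofReal_lt_top (S.A_ne_top p k x).lt_top⟩
  rw [← ENNReal.ofReal_toReal hFt] at h5 ⊢
  rw [← ENNReal.ofReal_add ENNReal.toReal_nonneg (by norm_num),
    show (2 : ℝ≥0∞) = ENNReal.ofReal 2 by norm_num, ← ENNReal.ofReal_mul (by norm_num),
    ENNReal.ofReal_le_ofReal_iff (by positivity)] at h5
  apply ENNReal.ofReal_le_ofReal
  linarith

/-- some state of the block is at least `3 q₀ / 2` alive, in the field -/
lemma alive_zero (hN : S.LblN q₀ c η J) (H : S.LabP p m x f G η) (hm : S.mv.tm m < S.T)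
    (hx : x ∈ S.om p m) (hq : 2 * S.q0 ≤ S.qb p m x) :
    ∃ k, S.Same (S.BB p m x) m k ∧ S.F p k x ≤ ENNReal.ofReal (1 - 3 / 2 * q₀) := by
  have hne : (Finset.Icc (S.bs p m x) (S.be p m x)).Nonempty :=
    ⟨m, Finset.mem_Icc.2 (same_self hm)⟩
  obtain ⟨k, hk, h⟩ := Finset.exists_mem_eq_sup _ hne (fun k => S.q p k x)
  have hk' : S.Same (S.BB p m x) m k := Finset.mem_Icc.1 hk
  refine ⟨k, hk', ?_⟩
  have hq0 := hN.q0pos
  have hq1 := hN.q1
  have h1 : 2 * S.q0 ≤ S.q p k x := hq.trans (le_of_eq h)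
  have h2 : S.De p k x ≤ ENNReal.ofReal (1 - 2 * q₀) := by
    have h3 := S.De_add_q p k x
    have h4 : S.De p k x + 2 * S.q0 ≤ 1 := by
      rw [← h3]; gcongr
    rw [hN.q0, show (2 : ℝ≥0∞) = ENNReal.ofReal 2 by norm_num,
      ← ENNReal.ofReal_mul (by norm_num)] at h4
    rw [ENNReal.ofReal_sub _ (by positivity), ENNReal.ofReal_one]
    exact ENNReal.le_sub_of_add_le_right ENNReal.ofReal_ne_top h4
  refine (H.F_le hk').trans ?_
  rw [hk'.A (nw_sub_BB p m x) hm]
  have h4 : ENNReal.ofReal η * S.A p m x ≤ ENNReal.ofReal (q₀ / 2) := by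
    calc ENNReal.ofReal η * S.A p m x ≤ ENNReal.ofReal η * ENNReal.ofReal S.b0 := by
          gcongr; exact S.A_le_of_not_Z hx.1
      _ = ENNReal.ofReal (η * S.b0) := (ENNReal.ofReal_mul hN.eta0).symm
      _ ≤ _ := by
        apply ENNReal.ofReal_le_ofReal
        have h5 := hN.etab
        nlinarith
  calc S.De p k x + ENNReal.ofReal η * S.A p m x
      ≤ ENNReal.ofReal (1 - 2 * q₀) + ENNReal.ofReal (q₀ / 2) := add_le_add h2 h4
    _ = ENNReal.ofReal (1 - 3 / 2 * q₀) := by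
        rw [← ENNReal.ofReal_add (by linarith) (by positivity)]
        congr 1
        ring

/-- closeness at class zero, real form -/
lemma eta_real (hN : S.LblN q₀ c η J) (hx : x ∉ S.Z p m) :
    η * (S.A p m x).toReal ≤ (q₀ / 2000) ^ 2 * (1 / 40) := by
  refine le_trans ?_ hN.etab
  have hb : 0 ≤ S.b0 := S.hA0.le.trans S.hAb
  have h := ENNReal.toReal_le_of_le_ofReal hb (S.A_le_of_not_Z hx)
  exact mul_le_mul_of_nonneg_left h hN.eta0

/-- **class `0`, complete block** -/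
theorem lbl_sick (hN : S.LblN q₀ c η J) (H : S.LabP p m x f G η) (hm : S.mv.tm m < S.T)
    (hx : x ∈ S.om p m) {w : ℕ → ℝ≥0∞} (hwt : S.WtOK p m x w) (h0 : S.kl p m x = 0)
    (hS : ¬ Slow (ub S p m x) (S.N (S.kl p m x)) 1 (S.ts p m x) (S.te p m x)) :
    S.un p m x ≤ ENNReal.ofReal (320 * 2 ^ J / (c * S.c0) + 4 / q₀) *
      ∑ k ∈ Finset.Ico (S.bs p m x) (S.be p m x), w k * G k := by
  by_cases hq : 2 * S.q0 ≤ S.qb p m x
  swap
  · have : S.un p m x = 0 := by
      unfold un psi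
      rw [if_pos h0, if_neg hq, mul_zero]
    rw [this]
    exact zero_le
  have hpsi : S.psi p m x = 1 := by unfold psi; rw [if_pos h0, if_pos hq]
  have hq0 := hN.q0pos
  have hc0 := S.hc0
  have hcp := hN.cp
  have hN' : S.N (S.kl p m x) = S.c0 := by rw [S.hN, h0]; simp
  rw [hN'] at hS
  have hw := H.win hm hN.eta0
  obtain ⟨k0, hk0, h1⟩ := peak_zero hN H hm hx h0
  obtain ⟨k1, hk1, h2⟩ := alive_zero hN H hm hx hq
  have key := hw.sick24_fib (mul_nonneg hN.eta0 ENNReal.toReal_nonneg) hc0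
    (hN.c0.trans (by norm_num)) S.hρ hN.rho hq0 hN.q1 hN.cp hN.c1 hN.hJ hN.cc
    (eta_real hN hx.1) ⟨k0, hk0.1, hk0.2, by rw [mF_eq H hm hk0]; exact h1⟩
    ⟨k1, hk1.1, hk1.2, by rw [mF_eq H hm hk1]; exact h2⟩ hS
  set C : ℝ := Cost (Slow (ub S p m x) S.c0) S.ρ (S.ts p m x) (S.te p m x) with hC
  have hC0 : 0 ≤ C := H274.cost_nonneg S.hρ.le _ _
  have hcst : S.cst p m x = ENNReal.ofReal C := by rw [cst_eq, hN']
  have hsum : ∑ k ∈ Finset.Ico (S.bs p m x) (S.be p m x), G k
      = ∑ k ∈ Finset.Ico (S.mv.n (S.ts p m x)) (S.mv.n (S.te p m x) - 1), G k := rfl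
  rw [← hsum] at key
  set a : ℝ := c / (8 * 2 ^ J) * (S.c0 / 40) with ha
  have ha0 : 0 < a := by positivity
  have hmin : 0 < min a (q₀ / 4) := lt_min ha0 (by positivity)
  have hinv : 1 ≤ (320 * 2 ^ J / (c * S.c0) + 4 / q₀) * min a (q₀ / 4) := by
    have e1 : 320 * 2 ^ J / (c * S.c0) * a = 1 := by
      rw [ha]; field_simp; norm_num
    have e2 : 4 / q₀ * (q₀ / 4) = 1 := by field_simp
    rcases min_cases a (q₀ / 4) with ⟨h3, -⟩ | ⟨h3, -⟩
    · rw [h3]
      have : 0 ≤ 4 / q₀ * a := by positivity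
      nlinarith
    · rw [h3]
      have : 0 ≤ 320 * 2 ^ J / (c * S.c0) * (q₀ / 4) := by positivity
      nlinarith
  have h3 : S.cst p m x ≤ ENNReal.ofReal (320 * 2 ^ J / (c * S.c0) + 4 / q₀) *
      ∑ k ∈ Finset.Ico (S.bs p m x) (S.be p m x), G k := by
    calc S.cst p m x = ENNReal.ofReal (1 * C) := by rw [hcst, one_mul]
      _ ≤ ENNReal.ofReal ((320 * 2 ^ J / (c * S.c0) + 4 / q₀) * min a (q₀ / 4) * C) := by
        gcongr
      _ = ENNReal.ofReal (320 * 2 ^ J / (c * S.c0) + 4 / q₀) *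
          ENNReal.ofReal (min a (q₀ / 4) * C) := by
        rw [mul_assoc, ENNReal.ofReal_mul (by positivity)]
      _ ≤ _ := by gcongr
  calc S.un p m x = S.As S.th p m x * S.cst p m x := by
        unfold un
        rw [hpsi, mul_one, mul_comm]
    _ ≤ S.As S.th p m x * (ENNReal.ofReal (320 * 2 ^ J / (c * S.c0) + 4 / q₀) *
        ∑ k ∈ Finset.Ico (S.bs p m x) (S.be p m x), G k) := by gcongr
    _ = ENNReal.ofReal (320 * 2 ^ J / (c * S.c0) + 4 / q₀) *
        ∑ k ∈ Finset.Ico (S.bs p m x) (S.be p m x), S.As S.th p m x * G k := by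
        rw [← Finset.mul_sum]; ring
    _ ≤ _ := by
        refine mul_le_mul' le_rfl (Finset.sum_le_sum fun k hk => ?_)
        rw [Finset.mem_Ico] at hk
        exact mul_le_mul' (hwt.sick k hk.1 hk.2) le_rfl

/-! ### the whole life -/

lemma same_bs (hm : S.mv.tm m < S.T) : S.Same (S.BB p m x) m (S.bs p m x) :=
  ⟨le_rfl, (bs_le p m x).trans (le_be p x hm)⟩

lemma same_be (hm : S.mv.tm m < S.T) : S.Same (S.BB p m x) m (S.be p m x) :=
  ⟨(bs_le p m x).trans (le_be p x hm), le_rfl⟩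

lemma l1_bs (hm : S.mv.tm m < S.T) : S.l1 p (S.bs p m x) = S.l1 p m :=
  (((same_bs (x := x) hm).mono (nw_sub_BB p m x) (S.K.zero_mem_nw p) hm).eq
    (S.K.zero_mem_nw p) hm).2.2

lemma ent_bs (hm : S.mv.tm m < S.T) (hl : S.be p m x = S.l1 p m) :
    S.ent p (S.bs p m x) x = S.As S.th p m x *
      min (max (S.A p m x) (S.De p (S.bs p m x) x) ^ (1 - S.th)) (S.q p (S.be p m x) x) := by
  unfold ent
  rw [l1_bs hm, (same_bs (x := x) hm).As (nw_sub_BB p m x) hm,
    (same_bs (x := x) hm).A (nw_sub_BB p m x) hm, hl]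

/-- **class `≥ 1`, the block is the whole life** -/
theorem lbi_own (hN : S.LblN q₀ c η J) (H : S.LabP p m x f G η) (hm : S.mv.tm m < S.T)
    (hx : x ∈ S.om p m) {w : ℕ → ℝ≥0∞} (hwt : S.WtOK p m x w) (hk : 1 ≤ S.kl p m x)
    (hl : S.be p m x = S.l1 p m) :
    S.un p m x ≤ 32 * (S.ent p (S.bs p m x) x +
      ∑ k ∈ Finset.Ico (S.bs p m x) (S.be p m x), w k * G k) := by
  have hth0 : 0 ≤ 1 - S.th := by linarith [S.hth1]
  have hth1 : 1 - S.th ≤ 1 := by linarith [S.hth]
  set D : ℝ := (Ds S p m x).toReal with hDdef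
  have hDs : ENNReal.ofReal D = Ds S p m x := Ds_real hm
  have hD0 : 0 < D := Ds_pos hm hx
  have hw := H.win hm hN.eta0
  obtain ⟨k0, hk0, hk0D⟩ := exists_Ds (S := S) (p := p) (x := x) hm
  have hpsi : S.psi p m x = S.Db p m x ^ (1 - S.th) := by
    unfold psi; rw [if_neg (by omega)]
  have hun : S.un p m x ≤ S.As S.th p m x * S.Db p m x ^ (1 - S.th) := by
    unfold un
    rw [hpsi]
    calc S.cst p m x * S.As S.th p m x * S.Db p m x ^ (1 - S.th)
        ≤ 1 * S.As S.th p m x * S.Db p m x ^ (1 - S.th) := by gcongr; exact cst_le_one hm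
      _ = _ := by rw [one_mul]
  have hpk : ENNReal.ofReal (3 / 4 * D) ≤ WinAt.mF (Wb S p m x) x (fb S p m x f) k0 := by
    rw [mF_eq H hm hk0]
    have h2 := H.De_le hk0
    rw [hk0D, hk0.A (nw_sub_BB p m x) hm, ← hDs] at h2
    have h4 : ENNReal.ofReal η * S.A p m x ≤ ENNReal.ofReal (1 / 4 * D) := by
      calc ENNReal.ofReal η * S.A p m x
          = ENNReal.ofReal (η * (S.A p m x).toReal) := by
            rw [ENNReal.ofReal_mul hN.eta0, ENNReal.ofReal_toReal (S.A_ne_top p m x)]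
        _ ≤ _ := by
            apply ENNReal.ofReal_le_ofReal
            have h5 := A_le_Ds hm hx
            have h6 := hN.eta1
            have h7 : 0 ≤ (S.A p m x).toReal := ENNReal.toReal_nonneg
            calc η * (S.A p m x).toReal ≤ 1 / (8 * 10 ^ 10) * (2 * D) := by
                  gcongr
              _ ≤ _ := by nlinarith
    have h5 : ENNReal.ofReal D ≤ S.F p k0 x + ENNReal.ofReal (1 / 4 * D) :=
      h2.trans (by gcongr)
    have h6 : ENNReal.ofReal (3 / 4 * D) + ENNReal.ofReal (1 / 4 * D)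
        ≤ S.F p k0 x + ENNReal.ofReal (1 / 4 * D) := by
      rw [← ENNReal.ofReal_add (by positivity) (by positivity)]
      convert h5 using 2
      ring
    exact (ENNReal.add_le_add_iff_right ENNReal.ofReal_ne_top).1 h6
  have hbs := same_bs (S := S) (p := p) (x := x) hm
  have hbe := same_be (S := S) (p := p) (x := x) hm
  have hsum : ∑ k ∈ Finset.Ico (S.bs p m x) (S.be p m x), G k
      = ∑ k ∈ Finset.Ico (S.mv.n (S.ts p m x)) (S.mv.n (S.te p m x) - 1), G k := rfl
  rcases hw.own_any_fib (mul_nonneg hN.eta0 ENNReal.toReal_nonneg) hD0.le hk0.1 hk0.2 hpk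
    hbs.1 hbs.2 with h | h
  · -- entrance
    rw [mF_eq H hm hbs, hDs] at h
    set M1 := max (S.A p m x) (S.De p (S.bs p m x) x) with hM1
    have hM1b : M1 ≤ 1 := by
      refine max_le ?_ (S.De_le_one p _ x)
      exact (A_le_Db_of_om hm hx).trans (Dw_le_one p _ m x)
    have h2 := H.F_le hbs
    rw [hbs.A (nw_sub_BB p m x) hm] at h2
    have h3 : S.F p (S.bs p m x) x ≤ 2 * M1 := by
      refine h2.trans ?_
      rw [two_mul]
      refine add_le_add (le_max_right _ _) ?_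
      calc ENNReal.ofReal η * S.A p m x ≤ 1 * S.A p m x := by
            gcongr
            rw [← ENNReal.ofReal_one]
            exact ENNReal.ofReal_le_ofReal (hN.eta1.trans (by norm_num))
        _ ≤ M1 := by rw [one_mul]; exact le_max_left _ _
    have h4 : S.Db p m x ≤ 16 * M1 := by
      calc S.Db p m x ≤ 2 * (4 * (2 * M1)) := (Db_le_Ds hm).trans (by
            gcongr
            exact h.trans (by gcongr))
        _ = 16 * M1 := by ring
    have h5 : S.Db p m x ^ (1 - S.th) ≤ 16 * M1 ^ (1 - S.th) := by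
      calc S.Db p m x ^ (1 - S.th) ≤ (16 * M1) ^ (1 - S.th) := ENNReal.rpow_le_rpow h4 hth0
        _ = 16 ^ (1 - S.th) * M1 ^ (1 - S.th) := ENNReal.mul_rpow_of_nonneg _ _ hth0
        _ ≤ 16 * M1 ^ (1 - S.th) := by
          gcongr
          calc (16 : ℝ≥0∞) ^ (1 - S.th) ≤ 16 ^ (1 : ℝ) :=
                ENNReal.rpow_le_rpow_of_exponent_le (by norm_num) hth1
            _ = 16 := ENNReal.rpow_one _
    have h6 : 1 ≤ 2 * S.q p (S.be p m x) x := by
      have h7 := S.De_add_q p (S.be p m x) x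
      have h8 : S.De p (S.be p m x) x ≤ ENNReal.ofReal (1 / 10) :=
        (De_le_Db hbe).trans (Db_lt_of_pos hm hk).le
      have h9 : 1 ≤ ENNReal.ofReal (1 / 10) + S.q p (S.be p m x) x := by
        rw [← h7]; gcongr
      have h10 : ENNReal.ofReal (1 / 2) ≤ S.q p (S.be p m x) x := by
        have h11 : ENNReal.ofReal (1 / 10) + ENNReal.ofReal (9 / 10)
            ≤ ENNReal.ofReal (1 / 10) + S.q p (S.be p m x) x := by
          refine le_trans (le_of_eq ?_) h9
          rw [← ENNReal.ofReal_add (by norm_num) (by norm_num), ← ENNReal.ofReal_one]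
          norm_num
        exact le_trans (ENNReal.ofReal_le_ofReal (by norm_num))
          ((ENNReal.add_le_add_iff_left ENNReal.ofReal_ne_top).1 h11)
      calc (1 : ℝ≥0∞) = 2 * ENNReal.ofReal (1 / 2) := by
            rw [show (2 : ℝ≥0∞) = ENNReal.ofReal 2 by norm_num, ← ENNReal.ofReal_mul (by norm_num),
              ← ENNReal.ofReal_one]
            norm_num
        _ ≤ _ := by gcongr
    have h7 : M1 ^ (1 - S.th) ≤ 2 * min (M1 ^ (1 - S.th)) (S.q p (S.be p m x) x) := by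
      rcases min_cases (M1 ^ (1 - S.th)) (S.q p (S.be p m x) x) with ⟨h8, -⟩ | ⟨h8, -⟩
      · rw [h8]
        calc M1 ^ (1 - S.th) = 1 * M1 ^ (1 - S.th) := (one_mul _).symm
          _ ≤ _ := by gcongr; norm_num
      · rw [h8]
        exact (ENNReal.rpow_le_one hM1b hth0).trans h6
    calc S.un p m x ≤ S.As S.th p m x * S.Db p m x ^ (1 - S.th) := hun
      _ ≤ S.As S.th p m x * (16 * (2 * min (M1 ^ (1 - S.th)) (S.q p (S.be p m x) x))) := by
          gcongr
          exact h5.trans (by gcongr)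
      _ = 32 * (S.As S.th p m x * min (M1 ^ (1 - S.th)) (S.q p (S.be p m x) x)) := by ring
      _ = 32 * S.ent p (S.bs p m x) x := by rw [ent_bs hm hl]
      _ ≤ _ := by gcongr; exact le_self_add
  · -- paid
    rw [hDs, ← hsum] at h
    have h1 : S.Db p m x ≤ 4 * ∑ k ∈ Finset.Ico (S.bs p m x) (S.be p m x), G k := by
      calc S.Db p m x ≤ 2 * (2 * ∑ k ∈ Finset.Ico (S.bs p m x) (S.be p m x), G k) :=
            (Db_le_Ds hm).trans (by gcongr)
        _ = _ := by ring
    calc S.un p m x ≤ S.As S.th p m x * S.Db p m x ^ (1 - S.th) := hun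
      _ = (S.A p m x / S.Db p m x) ^ S.th * S.Db p m x := As_split hm hx
      _ ≤ (S.A p m x / S.Db p m x) ^ S.th *
          (4 * ∑ k ∈ Finset.Ico (S.bs p m x) (S.be p m x), G k) := by gcongr
      _ = 4 * ∑ k ∈ Finset.Ico (S.bs p m x) (S.be p m x),
          (S.A p m x / S.Db p m x) ^ S.th * G k := by rw [← Finset.mul_sum]; ring
      _ ≤ 4 * ∑ k ∈ Finset.Ico (S.bs p m x) (S.be p m x),
          2 * (w k * G k) := by
          refine mul_le_mul' le_rfl (Finset.sum_le_sum fun k hk => ?_)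
          rw [Finset.mem_Ico] at hk
          rw [← mul_assoc]
          exact mul_le_mul' (hwt.own k hk.1 hk.2) le_rfl
      _ = 8 * ∑ k ∈ Finset.Ico (S.bs p m x) (S.be p m x),
          w k * G k := by rw [← Finset.mul_sum]; ring
      _ ≤ _ := by
          refine mul_le_mul' (by norm_num) le_add_self

/-- **class `0`, the block is the whole life** -/
theorem lbi_sick (hN : S.LblN q₀ c η J) (H : S.LabP p m x f G η) (hm : S.mv.tm m < S.T)
    (hx : x ∈ S.om p m) {w : ℕ → ℝ≥0∞} (hwt : S.WtOK p m x w) (h0 : S.kl p m x = 0)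
    (hl : S.be p m x = S.l1 p m) :
    S.un p m x ≤ ENNReal.ofReal (2 / q₀) * (S.ent p (S.bs p m x) x +
      ∑ k ∈ Finset.Ico (S.bs p m x) (S.be p m x), w k * G k) := by
  by_cases hq : 2 * S.q0 ≤ S.qb p m x
  swap
  · have : S.un p m x = 0 := by
      unfold un psi
      rw [if_pos h0, if_neg hq, mul_zero]
    rw [this]
    exact zero_le
  have hth0 : 0 ≤ 1 - S.th := by linarith [S.hth1]
  have hth1 : 1 - S.th ≤ 1 := by linarith [S.hth]
  have hpsi : S.psi p m x = 1 := by unfold psi; rw [if_pos h0, if_pos hq]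
  have hq0 := hN.q0pos
  have hq1 := hN.q1
  have hw := H.win hm hN.eta0
  obtain ⟨k0, hk0, h1⟩ := peak_zero hN H hm hx h0
  obtain ⟨k1, hk1, h2⟩ := alive_zero hN H hm hx hq
  have hbs := same_bs (S := S) (p := p) (x := x) hm
  have hbe := same_be (S := S) (p := p) (x := x) hm
  have hsum : ∑ k ∈ Finset.Ico (S.bs p m x) (S.be p m x), G k
      = ∑ k ∈ Finset.Ico (S.mv.n (S.ts p m x)) (S.mv.n (S.te p m x) - 1), G k := rfl
  have hun : S.un p m x ≤ S.As S.th p m x := by
    unfold un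
    rw [hpsi, mul_one]
    calc S.cst p m x * S.As S.th p m x ≤ 1 * S.As S.th p m x := by gcongr; exact cst_le_one hm
      _ = _ := by rw [one_mul]
  have hη : ENNReal.ofReal η * S.A p m x ≤ ENNReal.ofReal (q₀ / 2) := by
    calc ENNReal.ofReal η * S.A p m x
        = ENNReal.ofReal (η * (S.A p m x).toReal) := by
          rw [ENNReal.ofReal_mul hN.eta0, ENNReal.ofReal_toReal (S.A_ne_top p m x)]
      _ ≤ _ := by
          apply ENNReal.ofReal_le_ofReal
          have h5 := eta_real hN hx.1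
          nlinarith
  have hhalf : ENNReal.ofReal (q₀ / 2) + ENNReal.ofReal (q₀ / 2) = ENNReal.ofReal q₀ := by
    rw [← ENNReal.ofReal_add (by positivity) (by positivity)]
    congr 1
    ring
  rcases hw.sick24_any_fib (mul_nonneg hN.eta0 ENNReal.toReal_nonneg) hN.q1
    ⟨k0, hk0.1, hk0.2, by rw [mF_eq H hm hk0]; exact h1⟩
    ⟨k1, hk1.1, hk1.2, by rw [mF_eq H hm hk1]; exact h2⟩ hbs.1 hbs.2 hbe.1 hbe.2 with h | h
  · rw [mF_eq H hm hbs, mF_eq H hm hbe] at h
    obtain ⟨h3, h4⟩ := h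
    have h5 : ENNReal.ofReal (q₀ / 2) ≤ S.De p (S.bs p m x) x := by
      have h6 := h3.trans (H.F_le hbs)
      rw [hbs.A (nw_sub_BB p m x) hm, ← hhalf] at h6
      have h7 := h6.trans (add_le_add le_rfl hη)
      exact (ENNReal.add_le_add_iff_right ENNReal.ofReal_ne_top).1 h7
    have h6 : ENNReal.ofReal (q₀ / 2) ≤ S.q p (S.be p m x) x := by
      have h7 : S.F p (S.be p m x) x ≤ 1 := by
        by_contra hcon
        push Not at hcon
        rw [tsub_eq_zero_of_le hcon.le] at h4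
        have := ENNReal.ofReal_pos.2 hq0
        exact absurd h4 (not_le.2 this)
      have h8 : S.F p (S.be p m x) x + ENNReal.ofReal q₀ ≤ 1 := by
        calc S.F p (S.be p m x) x + ENNReal.ofReal q₀
            ≤ S.F p (S.be p m x) x + (1 - S.F p (S.be p m x) x) := by gcongr
          _ = 1 := add_tsub_cancel_of_le h7
      have h9 := H.De_le hbe
      rw [hbe.A (nw_sub_BB p m x) hm] at h9
      have h10 : S.De p (S.be p m x) x + ENNReal.ofReal (q₀ / 2) ≤ 1 := by
        calc S.De p (S.be p m x) x + ENNReal.ofReal (q₀ / 2)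
            ≤ (S.F p (S.be p m x) x + ENNReal.ofReal (q₀ / 2)) + ENNReal.ofReal (q₀ / 2) := by
              gcongr
              exact h9.trans (by gcongr)
          _ = S.F p (S.be p m x) x + ENNReal.ofReal q₀ := by rw [add_assoc, hhalf]
          _ ≤ 1 := h8
      rw [← S.De_add_q p (S.be p m x) x] at h10
      have hDt : S.De p (S.be p m x) x ≠ ⊤ :=
        ((S.De_le_one p _ x).trans_lt ENNReal.one_lt_top).ne
      exact (ENNReal.add_le_add_iff_left hDt).1 h10
    have hy1 : ENNReal.ofReal (q₀ / 2) ≤ 1 := by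
      rw [← ENNReal.ofReal_one]
      exact ENNReal.ofReal_le_ofReal (by linarith)
    have h7 : ENNReal.ofReal (q₀ / 2)
        ≤ min (max (S.A p m x) (S.De p (S.bs p m x) x) ^ (1 - S.th))
          (S.q p (S.be p m x) x) := by
      refine le_min ?_ h6
      calc ENNReal.ofReal (q₀ / 2) = ENNReal.ofReal (q₀ / 2) ^ (1 : ℝ) :=
            (ENNReal.rpow_one _).symm
        _ ≤ ENNReal.ofReal (q₀ / 2) ^ (1 - S.th) :=
            ENNReal.rpow_le_rpow_of_exponent_ge hy1 hth1
        _ ≤ _ := ENNReal.rpow_le_rpow (h5.trans (le_max_right _ _)) hth0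
    calc S.un p m x ≤ S.As S.th p m x := hun
      _ = ENNReal.ofReal (2 / q₀) * (S.As S.th p m x * ENNReal.ofReal (q₀ / 2)) := by
          rw [mul_comm (S.As S.th p m x), ← mul_assoc, ← ENNReal.ofReal_mul (by positivity),
            show 2 / q₀ * (q₀ / 2) = 1 by field_simp, ENNReal.ofReal_one, one_mul]
      _ ≤ ENNReal.ofReal (2 / q₀) * S.ent p (S.bs p m x) x := by
          rw [ent_bs hm hl]
          gcongr
      _ ≤ _ := by gcongr; exact le_self_add
  · rw [← hsum] at h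
    have h3 : 1 ≤ ENNReal.ofReal (2 / q₀) *
        ∑ k ∈ Finset.Ico (S.bs p m x) (S.be p m x), G k := by
      calc (1 : ℝ≥0∞) = ENNReal.ofReal (1 / q₀) * ENNReal.ofReal q₀ := by
            rw [← ENNReal.ofReal_mul (by positivity), ← ENNReal.ofReal_one]
            congr 1
            field_simp
        _ ≤ ENNReal.ofReal (1 / q₀) *
            (2 * ∑ k ∈ Finset.Ico (S.bs p m x) (S.be p m x), G k) := by gcongr
        _ = _ := by
            rw [← mul_assoc]
            congr 1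
            rw [show (2 : ℝ≥0∞) = ENNReal.ofReal 2 by norm_num,
              ← ENNReal.ofReal_mul (by positivity)]
            congr 1
            ring
    calc S.un p m x ≤ S.As S.th p m x * 1 := by rw [mul_one]; exact hun
      _ ≤ S.As S.th p m x * (ENNReal.ofReal (2 / q₀) *
          ∑ k ∈ Finset.Ico (S.bs p m x) (S.be p m x), G k) := by gcongr
      _ = ENNReal.ofReal (2 / q₀) *
          ∑ k ∈ Finset.Ico (S.bs p m x) (S.be p m x), S.As S.th p m x * G k := by
          rw [← Finset.mul_sum]; ring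
      _ ≤ ENNReal.ofReal (2 / q₀) *
          ∑ k ∈ Finset.Ico (S.bs p m x) (S.be p m x), w k * G k := by
          refine mul_le_mul' le_rfl (Finset.sum_le_sum fun k hk => ?_)
          rw [Finset.mem_Ico] at hk
          exact mul_le_mul' (hwt.sick k hk.1 hk.2) le_rfl
      _ ≤ _ := by gcongr; exact le_add_self

/-- **THE LABELWISE BLOCK LEMMA.**  The unit of a counted label is paid by the weighted charges of
its block, or the block is the whole life and the unit is paid by these charges together with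
entrance and exit. -/
theorem lbl (hN : S.LblN q₀ c η J) (H : S.LabP p m x f G η) (hm : S.mv.tm m < S.T)
    (hx : x ∈ S.om p m) {w : ℕ → ℝ≥0∞} (hwt : S.WtOK p m x w) :
    S.un p m x ≤ ENNReal.ofReal (kL S.c0 q₀ c J) *
        ∑ k ∈ Finset.Ico (S.bs p m x) (S.be p m x), w k * G k ∨
      (S.bs p m x = S.l0 p m ∧ S.be p m x = S.l1 p m ∧
        S.un p m x ≤ ENNReal.ofReal (kL S.c0 q₀ c J) * (S.ent p (S.bs p m x) x +
          ∑ k ∈ Finset.Ico (S.bs p m x) (S.be p m x), w k * G k)) := by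
  have hq0 := hN.q0pos
  have hc0 := S.hc0
  have hcp := hN.cp
  have e1 : 0 ≤ 64 * 10 ^ 15 / S.c0 := by positivity
  have e2 : 0 ≤ 320 * 2 ^ J / (c * S.c0) := by positivity
  have e3 : 0 ≤ 4 / q₀ := by positivity
  have e4 : 32 ≤ 64 * 10 ^ 15 / S.c0 := by
    rw [le_div_iff₀ hc0]
    have := hN.c0
    nlinarith
  have e5 : 2 / q₀ ≤ 4 / q₀ := by gcongr; norm_num
  rcases window_cases (S := S) (p := p) (m := m) (x := x) hm with h | h
  · left
    by_cases h0 : S.kl p m x = 0
    · refine (lbl_sick hN H hm hx hwt h0 h).trans ?_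
      refine mul_le_mul' (ENNReal.ofReal_le_ofReal ?_) le_rfl
      unfold kL
      linarith
    · refine (lbl_own hN H hm hx hwt (by omega) h).trans ?_
      refine mul_le_mul' (ENNReal.ofReal_le_ofReal ?_) le_rfl
      unfold kL
      linarith
  · right
    refine ⟨h.1, h.2, ?_⟩
    by_cases h0 : S.kl p m x = 0
    · refine (lbi_sick hN H hm hx hwt h0 h.2).trans ?_
      refine mul_le_mul' (ENNReal.ofReal_le_ofReal ?_) le_rfl
      unfold kL
      linarith
    · refine (lbi_own hN H hm hx hwt (by omega) h.2).trans ?_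
      refine mul_le_mul' ?_ le_rfl
      rw [show (32 : ℝ≥0∞) = ENNReal.ofReal 32 by norm_num]
      apply ENNReal.ofReal_le_ofReal
      unfold kL
      linarith

end main

end

end Vale.Agent.P262.M2.Sys
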